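import Mathlib

/-!
Averages over the unit circle, as integrals w.r.t. a probability measure on `[0,2π]`.
-/

namespace Crest.Agent.R132

open Complex MeasureTheory Metric Set Filter Topology
open scoped Real ComplexConjugate

/-- normalised Lebesgue measure on `(0,2π]`. -/
noncomputable def nu : Measure ℝ := ENNReal.ofReal (2 * π)⁻¹ • volume.restrict (Ioc 0 (2 * π))

/-- the parametrisation of the unit circle. -/
noncomputable def e (θ : ℝ) : ℂ := circleMap 0 1 θ

instance : IsProbabilityMeasure nu := by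
  constructor
  rw [nu, Measure.smul_apply, Measure.restrict_apply MeasurableSet.univ, univ_inter,
    Real.volume_Ioc, sub_zero, smul_eq_mul, ← ENNReal.ofReal_mul (by positivity)]
  rw [inv_mul_cancel₀ (by positivity)]
  simp

@[simp] theorem norm_e (θ : ℝ) : ‖e θ‖ = 1 := by simp [e]

theorem e_ne_zero (θ : ℝ) : e θ ≠ 0 := by
  intro h
  have := norm_e θ
  rw [h] at this; simp at this

@[fun_prop] theorem continuous_e : Continuous e := continuous_circleMap 0 1

theorem e_mem_ball {ρ : ℝ} (hρ : 1 < ρ) (θ : ℝ) : e θ ∈ ball (0 : ℂ) ρ := by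
  simpa using hρ

theorem conj_e (θ : ℝ) : conj (e θ) = (e θ)⁻¹ := by
  rw [Complex.inv_def, Complex.normSq_eq_norm_sq, norm_e]; simp

variable {E : Type*} [NormedAddCommGroup E] [NormedSpace ℝ E]

theorem integral_nu (f : ℝ → E) :
    ∫ θ, f θ ∂nu = (2 * π)⁻¹ • ∫ θ in (0)..(2 * π), f θ := by
  rw [nu, integral_smul_measure, intervalIntegral.integral_of_le (by positivity),
    ENNReal.toReal_ofReal (by positivity)]

theorem integral_nu_e (f : ℂ → E) :
    ∫ θ, f (e θ) ∂nu = Real.circleAverage f 0 1 := by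
  rw [integral_nu, Real.circleAverage_def]; rfl

omit [NormedSpace ℝ E] in
theorem integrable_of_continuous {f : ℝ → E} (hf : Continuous f) : Integrable f nu := by
  rw [nu]
  apply Integrable.smul_measure _ ENNReal.ofReal_ne_top
  exact (hf.integrableOn_Icc (a := 0) (b := 2 * π)).mono_set Ioc_subset_Icc_self

/-- analytic functions on a disc of radius `> 1` are continuous along the circle. -/
theorem continuous_comp_e {F : Type*} [NormedAddCommGroup F] [NormedSpace ℂ F] {ρ : ℝ} (hρ : 1 < ρ)
    {h : ℂ → F} (hh : DifferentiableOn ℂ h (ball 0 ρ)) : Continuous (fun θ => h (e θ)) :=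
  hh.continuousOn.comp_continuous continuous_e (e_mem_ball hρ)

/-- mean value property. -/
theorem mean_value {F : Type*} [NormedAddCommGroup F] [NormedSpace ℂ F] [CompleteSpace F]
    {ρ : ℝ} (hρ : 1 < ρ)
    {h : ℂ → F} (hh : DifferentiableOn ℂ h (ball 0 ρ)) : ∫ θ, h (e θ) ∂nu = h 0 := by
  rw [integral_nu_e]
  apply DiffContOnCl.circleAverage
  rw [abs_one]
  apply DifferentiableOn.diffContOnCl
  apply hh.mono
  exact (closure_ball_subset_closedBall).trans (closedBall_subset_ball hρ)

/-- The average of `ζ f'(ζ)` vanishes. -/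
theorem avg_deriv {f f' : ℂ → ℂ} (hf : ∀ θ, HasDerivAt f (f' (e θ)) (e θ))
    (hf' : Continuous (fun θ => f' (e θ))) : ∫ θ, e θ * f' (e θ) ∂nu = 0 := by
  have h1 : ∀ θ : ℝ, HasDerivAt (fun θ => f (e θ)) (f' (e θ) * (e θ * I)) θ := by
    intro θ
    have h2 : HasDerivAt e (e θ * I) θ := hasDerivAt_circleMap 0 1 θ
    exact (hf θ).comp θ h2
  have h3 : ∫ θ in (0)..(2 * π), f' (e θ) * (e θ * I) = f (e (2 * π)) - f (e 0) := by
    apply intervalIntegral.integral_eq_sub_of_hasDerivAt (fun θ _ => h1 θ)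
    apply Continuous.intervalIntegrable
    exact hf'.mul (continuous_e.mul continuous_const)
  have h4 : e (2 * π) = e 0 := by
    have := periodic_circleMap 0 1 0
    simpa [e] using this
  rw [h4, sub_self] at h3
  have h5 : ∫ θ, f' (e θ) * (e θ * I) ∂nu = 0 := by
    rw [integral_nu, h3, smul_zero]
  have h6 : ∫ θ, e θ * f' (e θ) ∂nu = -I * ∫ θ, f' (e θ) * (e θ * I) ∂nu := by
    rw [← integral_const_mul]
    congr 1; ext θ
    linear_combination ((e θ) * f' (e θ)) * I_mul_I
  rw [h6, h5, mul_zero]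

/-- conjugates: the average of `conj h` for `h` analytic. -/
theorem mean_value_conj {ρ : ℝ} (hρ : 1 < ρ)
    {h : ℂ → ℂ} (hh : DifferentiableOn ℂ h (ball 0 ρ)) :
    ∫ θ, conj (h (e θ)) ∂nu = conj (h 0) := by
  rw [integral_conj, mean_value hρ hh]

end Crest.Agent.R132
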