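import Crest.Agent.R132.Main
import Crest.Agent.Lib.InjHolo

/-!
The analytic core: complete Crouzeix inequality with constant 2 for a convex curve given by its
exterior map (helper832's proof).
-/

namespace Crest.Agent.R132

open Complex MeasureTheory Metric Set Filter Topology
open scoped Real ComplexConjugate InnerProductSpace

variable {φ : ℂ → ℂ} {ρ : ℝ}
variable {H : Type*} [NormedAddCommGroup H] [InnerProductSpace ℂ H]
variable {A : H →L[ℂ] H} {V : Set ℂ}

theorem col_bound {m : ℕ} (F : Matrix (Fin m) (Fin m) ℂ)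
    (hF : ‖Matrix.toEuclideanCLM (n := Fin m) (𝕜 := ℂ) F‖ ≤ 1) (c : Fin m → ℂ) :
    ∑ i, ‖∑ j, F i j * c j‖ ^ 2 ≤ ∑ j, ‖c j‖ ^ 2 := by
  have h1 := (Matrix.toEuclideanCLM (n := Fin m) (𝕜 := ℂ) F).le_of_opNorm_le hF (WithLp.toLp 2 c)
  rw [one_mul, Matrix.toEuclideanCLM_toLp] at h1
  have h2 := pow_le_pow_left₀ (norm_nonneg _) h1 2
  rw [EuclideanSpace.norm_sq_eq, EuclideanSpace.norm_sq_eq] at h2
  exact h2

theorem row_bound {m : ℕ} (F : Matrix (Fin m) (Fin m) ℂ)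
    (hF : ‖Matrix.toEuclideanCLM (n := Fin m) (𝕜 := ℂ) F‖ ≤ 1) (c : Fin m → ℂ) :
    ∑ j, ‖∑ i, c i * F i j‖ ^ 2 ≤ ∑ i, ‖c i‖ ^ 2 := by
  have h1 : ‖Matrix.toEuclideanCLM (n := Fin m) (𝕜 := ℂ) (star F)‖ ≤ 1 := by
    have h0 : Matrix.toEuclideanCLM (n := Fin m) (𝕜 := ℂ) (star F)
        = ContinuousLinearMap.adjoint (Matrix.toEuclideanCLM (n := Fin m) (𝕜 := ℂ) F) :=
      map_star _ _
    rw [h0, LinearIsometryEquiv.norm_map]; exact hF
  have h2 := col_bound (star F) h1 (fun i => conj (c i))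
  have h3 : ∀ j, ‖∑ i, (star F) j i * conj (c i)‖ = ‖∑ i, c i * F i j‖ := by
    intro j
    rw [← RCLike.norm_conj (∑ i, c i * F i j), map_sum]
    congr 1
    apply Finset.sum_congr rfl; intro i _
    rw [map_mul, mul_comm]
    rfl
  simp only [h3, RCLike.norm_conj] at h2
  exact h2

section main
variable [CompleteSpace H]

theorem Ext0.inner_aeval (h : Ext0 φ ρ) (hA : Res φ ρ A) (S : Polynomial ℂ) (x y : H) :
    ⟪x, Polynomial.aeval A S y⟫_ℂ = ∫ θ, S.eval (φ (e θ) / e θ) * rr φ A x y (e θ) ∂nu := by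
  have hV : OnCurve φ (univ : Set ℂ) := ⟨isOpen_univ, convex_univ, fun _ _ => mem_univ _⟩
  rw [← h.funcalc_aeval hA, h.inner_funcalc hA hV S.differentiable.differentiableOn]

theorem Ext0.KK_pos (h : Ext0 φ ρ) (hA : Res φ ρ A) {m : ℕ} (y : Fin m → H)
    (hy : ∑ i, ‖y i‖ ^ 2 = 1) : 0 < KK φ A y y := by
  have hkc := fun p : Fin m × Fin m => h.continuous_kk hA (y p.1) (y p.2)
  refine (KK_nonneg (φ := φ) (A := A) y y).lt_of_ne' fun h0 => ?_
  -- each diagonal entry vanishes in mean square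
  have h1 : ∀ i, ∫ θ, kk φ A (y i) (y i) (e θ) ∂nu = 0 := by
    intro i
    have h2 : ∫ θ, ‖kk φ A (y i) (y i) (e θ)‖ ^ 2 ∂nu ≤ 0 := by
      rw [← h0]
      unfold KK
      apply integral_mono (integrable_of_continuous ((hkc (i, i)).norm.pow 2))
        (integrable_of_continuous (continuous_finsetSum _ fun p _ => (hkc p).norm.pow 2))
      intro θ
      exact Finset.single_le_sum (f := fun p : Fin m × Fin m => ‖kk φ A (y p.1) (y p.2) (e θ)‖ ^ 2)
        (fun p _ => sq_nonneg _) (Finset.mem_univ (i, i))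
    have h3 := norm_integral_sum_sq_le (α := Unit) (a := fun _ θ => kk φ A (y i) (y i) (e θ))
      (b := fun _ _ => 1) (fun _ => hkc (i, i)) (fun _ => continuous_const)
    simp only [Finset.univ_unique, Finset.sum_singleton, mul_one, norm_one, one_pow] at h3
    have h4 : ‖∫ θ, kk φ A (y i) (y i) (e θ) ∂nu‖ ^ 2 ≤ 0 := by
      refine h3.trans ?_
      have h5 : (∫ _θ : ℝ, (1 : ℝ) ∂nu) = 1 := by simp
      rw [h5, mul_one]; exact h2
    have h6 := pow_eq_zero_iff (two_ne_zero) |>.1 (le_antisymm h4 (sq_nonneg _))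
    exact norm_eq_zero.1 h6
  have h2 : ∀ i, y i = 0 := by
    intro i
    have h3 := h1 i
    have h4 : ∫ θ, kk φ A (y i) (y i) (e θ) ∂nu = ⟪y i, y i⟫_ℂ := by
      have hr := h.continuous_rr hA (y i) (y i)
      have e1 : ∀ θ, kk φ A (y i) (y i) (e θ)
          = (1 / 2 : ℂ) * (rr φ A (y i) (y i) (e θ) + conj (rr φ A (y i) (y i) (e θ))) := by
        intro θ; unfold kk; ring
      have hrc : Integrable (fun θ => conj (rr φ A (y i) (y i) (e θ))) nu :=
        integrable_of_continuous (Complex.continuous_conj.comp hr)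
      rw [integral_congr_ae (Eventually.of_forall e1), integral_const_mul,
        integral_add (integrable_of_continuous hr) hrc,
        mean_value h.one_lt (h.diff_rr hA _ _), mean_value_conj h.one_lt (h.diff_rr hA _ _),
        h.rr_zero hA, inner_conj_symm]
      ring
    rw [h4] at h3
    exact inner_self_eq_zero.1 h3
  simp [h2] at hy

/-- The main inequality for a singular pair. -/
theorem Ext.main (h : Ext φ ρ) (hA : Res φ ρ A)
    (hpos : ∀ w : ℂ, ‖w‖ = 1 → ∀ x : H, 0 ≤ (rr φ A x x w).re) (hV : OnCurve φ V) {m : ℕ}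
    {F : ℂ → Matrix (Fin m) (Fin m) ℂ} (hF : ∀ i j, DifferentiableOn ℂ (fun z => F z i j) V)
    (hF1 : ∀ u : ℂ, ‖u‖ = 1 → ‖Matrix.toEuclideanCLM (n := Fin m) (𝕜 := ℂ) (F (φ u / u))‖ ≤ 1)
    (x y : Fin m → H) (κ : ℝ) (hκ : 0 ≤ κ)
    (hT : ∀ i, ∑ j, funcalc φ A (fun z => F z i j) (y j) = (κ : ℂ) • x i)
    (hT' : ∀ v : Fin m → H, ∑ i, ⟪x i, ∑ j, funcalc φ A (fun z => F z i j) (v j)⟫_ℂ
      = (κ : ℂ) * ∑ i, ⟪y i, v i⟫_ℂ)
    (hx : ∑ i, ‖x i‖ ^ 2 = 1) (hy : ∑ i, ‖y i‖ ^ 2 = 1) : κ ≤ 2 := by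
  classical
  have hFc : ∀ i j, Continuous fun θ => F (φ (e θ) / e θ) i j := fun i j => h.continuous_F hV (hF i j)
  have hXc : ∀ X : Polynomial ℂ, Continuous fun θ => X.eval (φ (e θ) / e θ) := fun X =>
    X.continuous.comp (h.continuous_phi.div continuous_e e_ne_zero)
  have hMc := fun p : Fin m × Fin m => h.continuous_rr hA (x p.1) (y p.2)
  -- Claim A
  have claimA : κ ^ 2 * KK φ A y y ≤ MM φ A x y := by
    apply h.key hA y κ _ hκ (MM_nonneg x y)
    intro X
    set B : Fin m × Fin m → ℝ → ℂ := fun p θ =>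
      ∑ j, F (φ (e θ) / e θ) p.1 j * (X j p.2).eval (φ (e θ) / e θ) with hB
    have hBc : ∀ p, Continuous (B p) := fun p =>
      continuous_finsetSum _ fun j _ => (hFc _ _).mul (hXc _)
    have e1 : (κ : ℂ) * ∫ θ, ∑ p : Fin m × Fin m, (X p.1 p.2).eval (φ (e θ) / e θ) *
        rr φ A (y p.1) (y p.2) (e θ) ∂nu
        = ∫ θ, ∑ p : Fin m × Fin m, B p θ * rr φ A (x p.1) (y p.2) (e θ) ∂nu := by
      rw [integral_sum_cont (fun (p : Fin m × Fin m) θ => (X p.1 p.2).eval (φ (e θ) / e θ) *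
        rr φ A (y p.1) (y p.2) (e θ)) (fun p => (hXc _).mul (h.continuous_rr hA _ _)),
        integral_sum_cont (fun (p : Fin m × Fin m) θ => B p θ * rr φ A (x p.1) (y p.2) (e θ))
        (fun p => (hBc p).mul (hMc p))]
      simp only [← h.inner_aeval hA]
      rw [Fintype.sum_prod_type, Fintype.sum_prod_type]
      have e2 : ∀ i, ∑ j, ⟪y i, Polynomial.aeval A (X i j) (y j)⟫_ℂ
          = ⟪y i, ∑ j, Polynomial.aeval A (X i j) (y j)⟫_ℂ := fun i => (inner_sum _ _ _).symm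
      simp only [e2]
      rw [← hT' (fun i => ∑ j, Polynomial.aeval A (X i j) (y j))]
      apply Finset.sum_congr rfl; intro i _
      rw [inner_sum]
      simp only [map_sum, inner_sum]
      rw [Finset.sum_comm]
      apply Finset.sum_congr rfl; intro l _
      have e3 : ∀ θ, B (i, l) θ * rr φ A (x i) (y l) (e θ)
          = ∑ j, ((X j l).eval (φ (e θ) / e θ) * F (φ (e θ) / e θ) i j) *
            rr φ A (x i) (y l) (e θ) := by
        intro θ
        simp only [hB]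
        rw [Finset.sum_mul]
        apply Finset.sum_congr rfl; intro j _
        ring
      rw [integral_congr_ae (Eventually.of_forall e3), integral_sum_cont
        (fun (j : Fin m) θ => ((X j l).eval (φ (e θ) / e θ) * F (φ (e θ) / e θ) i j) *
            rr φ A (x i) (y l) (e θ)) (fun j => ((hXc _).mul (hFc _ _)).mul (hMc (i, l)))]
      apply Finset.sum_congr rfl; intro j _
      rw [← h.inner_funcalc hA hV (F := fun z => (X j l).eval z * F z i j)
        ((X j l).differentiable.differentiableOn.mul (hF i j)),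
        h.funcalc_poly_right hA hV (hF i j)]
      rfl
    rw [e1]
    refine (norm_integral_sum_sq_le hBc hMc).trans ?_
    apply mul_le_mul_of_nonneg_right _ (MM_nonneg x y)
    apply integral_mono
      (integrable_of_continuous (continuous_finsetSum _ fun p _ => (hBc p).norm.pow 2))
      (integrable_of_continuous (continuous_finsetSum _ fun p _ => (hXc _).norm.pow 2))
    intro θ
    show ∑ p : Fin m × Fin m, ‖B p θ‖ ^ 2
      ≤ ∑ p : Fin m × Fin m, ‖(X p.1 p.2).eval (φ (e θ) / e θ)‖ ^ 2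
    rw [Fintype.sum_prod_type, Fintype.sum_prod_type, Finset.sum_comm]
    conv_rhs => rw [Finset.sum_comm]
    apply Finset.sum_le_sum; intro l _
    exact col_bound _ (hF1 (e θ) (norm_e θ)) (fun j => (X j l).eval (φ (e θ) / e θ))
  -- Claim B
  have claimB : κ ^ 2 * KK φ A x x ≤ MM φ A x y := by
    apply h.key hA x κ _ hκ (MM_nonneg x y)
    intro X
    set B : Fin m × Fin m → ℝ → ℂ := fun p θ =>
      ∑ j, (X p.1 j).eval (φ (e θ) / e θ) * F (φ (e θ) / e θ) j p.2 with hB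
    have hBc : ∀ p, Continuous (B p) := fun p =>
      continuous_finsetSum _ fun j _ => (hXc _).mul (hFc _ _)
    have e1 : (κ : ℂ) * ∫ θ, ∑ p : Fin m × Fin m, (X p.1 p.2).eval (φ (e θ) / e θ) *
        rr φ A (x p.1) (x p.2) (e θ) ∂nu
        = ∫ θ, ∑ p : Fin m × Fin m, B p θ * rr φ A (x p.1) (y p.2) (e θ) ∂nu := by
      rw [integral_sum_cont (fun (p : Fin m × Fin m) θ => (X p.1 p.2).eval (φ (e θ) / e θ) *
        rr φ A (x p.1) (x p.2) (e θ)) (fun p => (hXc _).mul (h.continuous_rr hA _ _)),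
        integral_sum_cont (fun (p : Fin m × Fin m) θ => B p θ * rr φ A (x p.1) (y p.2) (e θ))
        (fun p => (hBc p).mul (hMc p))]
      simp only [← h.inner_aeval hA]
      rw [Fintype.sum_prod_type, Fintype.sum_prod_type, Finset.mul_sum]
      apply Finset.sum_congr rfl; intro i _
      rw [Finset.mul_sum]
      have e2 : ∀ j, (κ : ℂ) * ⟪x i, Polynomial.aeval A (X i j) (x j)⟫_ℂ
          = ∑ l, ⟪x i, Polynomial.aeval A (X i j) (funcalc φ A (fun z => F z j l) (y l))⟫_ℂ := by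
        intro j
        rw [← inner_smul_right, ← map_smul, ← hT j, map_sum, inner_sum]
      simp only [e2]
      rw [Finset.sum_comm]
      apply Finset.sum_congr rfl; intro l _
      have e3 : ∀ θ, B (i, l) θ * rr φ A (x i) (y l) (e θ)
          = ∑ j, ((X i j).eval (φ (e θ) / e θ) * F (φ (e θ) / e θ) j l) *
            rr φ A (x i) (y l) (e θ) := by
        intro θ
        simp only [hB]
        rw [Finset.sum_mul]
      rw [integral_congr_ae (Eventually.of_forall e3), integral_sum_cont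
        (fun (j : Fin m) θ => ((X i j).eval (φ (e θ) / e θ) * F (φ (e θ) / e θ) j l) *
            rr φ A (x i) (y l) (e θ)) (fun j => ((hXc _).mul (hFc _ _)).mul (hMc (i, l)))]
      apply Finset.sum_congr rfl; intro j _
      rw [← h.inner_funcalc hA hV (F := fun z => (X i j).eval z * F z j l)
        ((X i j).differentiable.differentiableOn.mul (hF j l)),
        h.funcalc_poly_left hA hV (hF j l)]
      rfl
    rw [e1]
    refine (norm_integral_sum_sq_le hBc hMc).trans ?_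
    apply mul_le_mul_of_nonneg_right _ (MM_nonneg x y)
    apply integral_mono
      (integrable_of_continuous (continuous_finsetSum _ fun p _ => (hBc p).norm.pow 2))
      (integrable_of_continuous (continuous_finsetSum _ fun p _ => (hXc _).norm.pow 2))
    intro θ
    show ∑ p : Fin m × Fin m, ‖B p θ‖ ^ 2
      ≤ ∑ p : Fin m × Fin m, ‖(X p.1 p.2).eval (φ (e θ) / e θ)‖ ^ 2
    rw [Fintype.sum_prod_type, Fintype.sum_prod_type]
    apply Finset.sum_le_sum; intro i _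
    exact row_bound _ (hF1 (e θ) (norm_e θ)) (fun j => (X i j).eval (φ (e θ) / e θ))
  have claimC := h.MM_le hA x y
  have claimD := h.KK_sq_le hA hpos x y
  have hKx := h.KK_pos hA x hx
  have hKy := h.KK_pos hA y hy
  have hKxy := KK_nonneg (φ := φ) (A := A) x y
  -- combine
  have h1 : κ ^ 2 * KK φ A y y ≤ 4 * KK φ A x y := claimA.trans claimC
  have h2 : κ ^ 2 * KK φ A x x ≤ 4 * KK φ A x y := claimB.trans claimC
  have h3 : (κ ^ 2 * KK φ A y y) * (κ ^ 2 * KK φ A x x) ≤ (4 * KK φ A x y) * (4 * KK φ A x y) :=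
    mul_le_mul h1 h2 (by positivity) (by positivity)
  have h4 : κ ^ 4 * (KK φ A x x * KK φ A y y) ≤ 16 * (KK φ A x x * KK φ A y y) := by
    calc κ ^ 4 * (KK φ A x x * KK φ A y y)
        = (κ ^ 2 * KK φ A y y) * (κ ^ 2 * KK φ A x x) := by ring
      _ ≤ 16 * (KK φ A x y) ^ 2 := by linarith
      _ ≤ 16 * (KK φ A x x * KK φ A y y) := by linarith
  have h5 : κ ^ 4 ≤ 16 := le_of_mul_le_mul_right h4 (by positivity)
  by_contra hcon
  push Not at hcon
  have h6 : (2 : ℝ) ^ 4 < κ ^ 4 := pow_lt_pow_left₀ hcon (by norm_num) (by norm_num)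
  norm_num at h6
  linarith

end main

/-- Singular pairs: if every singular value at the top is `≤ 2` then the norm is `≤ 2`. -/
theorem norm_le_two_of_pairs {E : Type*} [NormedAddCommGroup E] [InnerProductSpace ℂ E]
    [FiniteDimensional ℂ E] (T : E →L[ℂ] E)
    (hT : ∀ (κ : ℝ) (x y : E), 0 ≤ κ → ‖x‖ = 1 → ‖y‖ = 1 → T y = (κ : ℂ) • x →
      (∀ v, ⟪x, T v⟫_ℂ = (κ : ℂ) * ⟪y, v⟫_ℂ) → κ ≤ 2) (v : E) : ‖T v‖ ≤ 2 * ‖v‖ := by
  have : CompleteSpace E := FiniteDimensional.complete ℂ E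
  have : ProperSpace E := FiniteDimensional.proper ℂ E
  by_cases hE : Subsingleton E
  · have : v = 0 := Subsingleton.elim _ _
    subst this; simp
  rw [not_subsingleton_iff_nontrivial] at hE
  have hne : (sphere (0 : E) 1).Nonempty := NormedSpace.sphere_nonempty.2 zero_le_one
  obtain ⟨y, hy, hmax⟩ := (isCompact_sphere (0 : E) 1).exists_isMaxOn hne
    (T.continuous.norm.continuousOn)
  have hy1 : ‖y‖ = 1 := by simpa using hy
  set κ := ‖T y‖ with hκ
  have hbound : ∀ v, ‖T v‖ ≤ κ * ‖v‖ := by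
    intro v
    by_cases hv : v = 0
    · subst hv; simp
    have hn : 0 < ‖v‖ := norm_pos_iff.2 hv
    have h1 : ((‖v‖⁻¹ : ℝ) : ℂ) • v ∈ sphere (0 : E) 1 := by
      rw [mem_sphere_zero_iff_norm, norm_smul, Complex.norm_real, norm_inv, norm_norm,
        inv_mul_cancel₀ hn.ne']
    have h2 := hmax h1
    simp only [mem_ofPred_eq, map_smul, norm_smul, Complex.norm_real, norm_inv, norm_norm] at h2
    rw [inv_mul_le_iff₀ hn] at h2
    linarith
  have hle2 : κ ≤ 2 := by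
    by_cases hk : κ = 0
    · rw [hk]; norm_num
    have hκ0 : 0 < κ := lt_of_le_of_ne (norm_nonneg _) (Ne.symm hk)
    have hκC : (κ : ℂ) ≠ 0 := by exact_mod_cast hk
    apply hT κ ((κ : ℂ)⁻¹ • T y) y hκ0.le
    · rw [norm_smul, norm_inv, Complex.norm_real, Real.norm_eq_abs, abs_of_pos hκ0]
      exact inv_mul_cancel₀ hk
    · exact hy1
    · rw [smul_smul, mul_inv_cancel₀ hκC, one_smul]
    · intro v
      set S := ContinuousLinearMap.adjoint T with hS
      -- `S (T y) = κ² y`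
      have hSn : ‖S (T y)‖ ≤ κ * κ := by
        have h1 : ‖S‖ ≤ κ := by
          rw [hS, LinearIsometryEquiv.norm_map]
          exact T.opNorm_le_bound hκ0.le hbound
        calc ‖S (T y)‖ ≤ ‖S‖ * ‖T y‖ := S.le_opNorm _
          _ ≤ κ * κ := by rw [← hκ]; gcongr
      have hinner : ⟪S (T y), y⟫_ℂ = ((κ ^ 2 : ℝ) : ℂ) := by
        rw [hS, ContinuousLinearMap.adjoint_inner_left, inner_self_eq_norm_sq_to_K, ← hκ]
        norm_cast
      have hzero : S (T y) - ((κ ^ 2 : ℝ) : ℂ) • y = 0 := by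
        rw [← norm_eq_zero]
        have h2 : ‖S (T y) - ((κ ^ 2 : ℝ) : ℂ) • y‖ ^ 2 ≤ 0 := by
          rw [@norm_sub_sq ℂ, inner_smul_right, hinner, norm_smul, hy1, Complex.norm_real,
            Real.norm_eq_abs, abs_of_nonneg (sq_nonneg κ)]
          have h3 : RCLike.re (((κ ^ 2 : ℝ) : ℂ) * ((κ ^ 2 : ℝ) : ℂ)) = κ ^ 2 * κ ^ 2 := by
            rw [← Complex.ofReal_mul]; rfl
          rw [h3]
          have h4 : ‖S (T y)‖ ^ 2 ≤ (κ * κ) ^ 2 := pow_le_pow_left₀ (norm_nonneg _) hSn 2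
          nlinarith
        nlinarith [norm_nonneg (S (T y) - ((κ ^ 2 : ℝ) : ℂ) • y)]
      have hSTy : S (T y) = ((κ ^ 2 : ℝ) : ℂ) • y := sub_eq_zero.1 hzero
      have h5 : ⟪T y, T v⟫_ℂ = ((κ ^ 2 : ℝ) : ℂ) * ⟪y, v⟫_ℂ := by
        rw [← ContinuousLinearMap.adjoint_inner_left, ← hS, hSTy, inner_smul_left,
          Complex.conj_ofReal]
      rw [inner_smul_left, h5, map_inv₀, Complex.conj_ofReal]
      push_cast
      field_simp
  calc ‖T v‖ ≤ κ * ‖v‖ := hbound v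
    _ ≤ 2 * ‖v‖ := by gcongr

/-- **Core theorem** (complete Crouzeix inequality with constant `2` for a convex curve). -/
theorem core {H : Type*} [NormedAddCommGroup H] [InnerProductSpace ℂ H] [FiniteDimensional ℂ H]
    {φ : ℂ → ℂ} {ρ : ℝ} (hρ : 1 < ρ) (hφ : DifferentiableOn ℂ φ (ball 0 ρ)) (h0 : φ 0 ≠ 0)
    (hinj : ∀ u ∈ ball (0 : ℂ) ρ, ∀ v ∈ ball (0 : ℂ) ρ, u ≠ 0 → v ≠ 0 → φ u / u = φ v / v → u = v)
    (hconv : ∀ u v : ℂ, ‖u‖ = 1 → ‖v‖ = 1 →
      0 ≤ (conj (psi φ u) * (φ u - u * (φ v / v))).re)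
    (A : H →L[ℂ] H) (hA : ∀ w ∈ ball (0 : ℂ) ρ, IsUnit (φ w • (1 : H →L[ℂ] H) - w • A))
    (hW : ∀ x : H, ‖x‖ = 1 → ∀ u : ℂ, ‖u‖ = 1 →
      0 ≤ (conj (psi φ u) * (φ u - u * inner ℂ x (A x))).re)
    {m : ℕ} (F : ℂ → Matrix (Fin m) (Fin m) ℂ) (V : Set ℂ) (hV : IsOpen V) (hVc : Convex ℝ V)
    (hΓ : ∀ u : ℂ, ‖u‖ = 1 → φ u / u ∈ V) (hF : ∀ i j, DifferentiableOn ℂ (fun z => F z i j) V)
    (hF1 : ∀ u : ℂ, ‖u‖ = 1 → ‖Matrix.toEuclideanCLM (n := Fin m) (𝕜 := ℂ) (F (φ u / u))‖ ≤ 1)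
    (y : PiLp 2 (fun _ : Fin m => H)) :
    ‖(WithLp.toLp 2 (fun i => ∑ j, funcalc φ A (fun z => F z i j) (y j)) :
      PiLp 2 (fun _ : Fin m => H))‖ ≤ 2 * ‖y‖ := by
  have : CompleteSpace H := FiniteDimensional.complete ℂ H
  have hpsi : ∀ u ∈ ball (0 : ℂ) ρ, psi φ u ≠ 0 := by
    intro u hu
    by_cases hu0 : u = 0
    · subst hu0; simpa [psi] using h0
    intro hz
    have hopen : IsOpen (ball (0 : ℂ) ρ \ {0}) := isOpen_ball.sdiff isClosed_singleton
    have hd : DifferentiableOn ℂ (fun u => φ u / u) (ball (0 : ℂ) ρ \ {0}) :=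
      (hφ.mono sdiff_subset).div differentiableOn_id (fun v hv => hv.2)
    have hne := Crest.Agent.Lib.deriv_ne_zero_of_injOn hopen hd
      (fun a ha b hb hab => hinj a ha.1 b hb.1 ha.2 hb.2 hab) (z := u) ⟨hu, hu0⟩
    apply hne
    have h1 : HasDerivAt (fun u => φ u / u) ((deriv φ u * u - φ u * 1) / u ^ 2) u :=
      ((hφ.differentiableAt (isOpen_ball.mem_nhds hu)).hasDerivAt).div (hasDerivAt_id _) hu0
    rw [h1.deriv]
    unfold psi at hz
    have h2 : deriv φ u * u - φ u * 1 = 0 := by linear_combination -hz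
    rw [h2, zero_div]
  have h : Ext φ ρ :=
    { one_lt := hρ, diff := hφ, ne0 := h0, inj := hinj, psi_ne := hpsi, conv := hconv }
  have hVC : OnCurve φ V := ⟨hV, hVc, hΓ⟩
  have hpos : ∀ w : ℂ, ‖w‖ = 1 → ∀ x : H, 0 ≤ (rr φ A x x w).re := fun w hw x =>
    rr_re_nonneg hw (hA w (h.mem_of_norm hw)) (fun x hx => hW x hx w hw) x
  -- the operator on `H^m`
  let T0 : PiLp 2 (fun _ : Fin m => H) →ₗ[ℂ] PiLp 2 (fun _ : Fin m => H) :=
    { toFun := fun y => WithLp.toLp 2 (fun i => ∑ j, funcalc φ A (fun z => F z i j) (y j))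
      map_add' := by
        intro a b
        ext i
        simp only [PiLp.add_apply, map_add, Finset.sum_add_distrib]
      map_smul' := by
        intro c a
        ext i
        simp only [PiLp.smul_apply, map_smul, Finset.smul_sum, RingHom.id_apply] }
  have hmain := norm_le_two_of_pairs (LinearMap.toContinuousLinearMap T0) (fun κ x y hκ hx hy hTy hTv => by
    apply h.main hA hpos hVC hF hF1 (fun i => x i) (fun i => y i) κ hκ
    · intro i
      have := congrArg (fun z : PiLp 2 (fun _ : Fin m => H) => z i) hTy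
      exact this
    · intro v
      have := hTv (WithLp.toLp 2 v)
      rw [PiLp.inner_apply, PiLp.inner_apply] at this
      exact this
    · rw [← PiLp.norm_sq_eq_of_L2, hx]; norm_num
    · rw [← PiLp.norm_sq_eq_of_L2, hy]; norm_num) y
  exact hmain

theorem funcalc_aeval {H : Type*} [NormedAddCommGroup H] [InnerProductSpace ℂ H]
    [FiniteDimensional ℂ H] {φ : ℂ → ℂ} {ρ : ℝ} (hρ : 1 < ρ)
    (hφ : DifferentiableOn ℂ φ (ball 0 ρ)) (h0 : φ 0 ≠ 0)
    (A : H →L[ℂ] H) (hA : ∀ w ∈ ball (0 : ℂ) ρ, IsUnit (φ w • (1 : H →L[ℂ] H) - w • A))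
    (q : Polynomial ℂ) : funcalc φ A (fun z => q.eval z) = Polynomial.aeval A q := by
  have : CompleteSpace H := FiniteDimensional.complete ℂ H
  have h : Ext0 φ ρ := { one_lt := hρ, diff := hφ, ne0 := h0 }
  exact h.funcalc_aeval hA q

theorem funcalc_mul_poly {H : Type*} [NormedAddCommGroup H] [InnerProductSpace ℂ H]
    [FiniteDimensional ℂ H] {φ : ℂ → ℂ} {ρ : ℝ} (hρ : 1 < ρ)
    (hφ : DifferentiableOn ℂ φ (ball 0 ρ)) (h0 : φ 0 ≠ 0)
    (A : H →L[ℂ] H) (hA : ∀ w ∈ ball (0 : ℂ) ρ, IsUnit (φ w • (1 : H →L[ℂ] H) - w • A))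
    (V : Set ℂ) (hV : IsOpen V) (hVc : Convex ℝ V) (hΓ : ∀ u : ℂ, ‖u‖ = 1 → φ u / u ∈ V)
    {f : ℂ → ℂ} (hf : DifferentiableOn ℂ f V) (q : Polynomial ℂ) :
    funcalc φ A (fun z => q.eval z * f z) = Polynomial.aeval A q * funcalc φ A f := by
  have : CompleteSpace H := FiniteDimensional.complete ℂ H
  have h : Ext0 φ ρ := { one_lt := hρ, diff := hφ, ne0 := h0 }
  exact h.funcalc_poly_left hA ⟨hV, hVc, hΓ⟩ hf q

theorem funcalc_add' {H : Type*} [NormedAddCommGroup H] [InnerProductSpace ℂ H]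
    [FiniteDimensional ℂ H] {φ : ℂ → ℂ} {ρ : ℝ} (hρ : 1 < ρ)
    (hφ : DifferentiableOn ℂ φ (ball 0 ρ)) (h0 : φ 0 ≠ 0)
    (A : H →L[ℂ] H) (hA : ∀ w ∈ ball (0 : ℂ) ρ, IsUnit (φ w • (1 : H →L[ℂ] H) - w • A))
    (V : Set ℂ) (hV : IsOpen V) (hVc : Convex ℝ V) (hΓ : ∀ u : ℂ, ‖u‖ = 1 → φ u / u ∈ V)
    {f g : ℂ → ℂ} (hf : DifferentiableOn ℂ f V) (hg : DifferentiableOn ℂ g V) :
    funcalc φ A (fun z => f z + g z) = funcalc φ A f + funcalc φ A g := by
  have : CompleteSpace H := FiniteDimensional.complete ℂ H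
  have h : Ext0 φ ρ := { one_lt := hρ, diff := hφ, ne0 := h0 }
  exact h.funcalc_add hA ⟨hV, hVc, hΓ⟩ hf hg

end Crest.Agent.R132
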