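import Mathlib

set_option autoImplicit false
open Set Metric Filter Topology Complex
open scoped ComplexConjugate

namespace Crest.Agent.R132

/-- Injective holomorphic functions on a connected open set: image open, holomorphic inverse,
non-vanishing derivative. -/
theorem injOn_inverse {U : Set ℂ} (hU : IsOpen U) {G : ℂ → ℂ}
    (hG : DifferentiableOn ℂ G U) (hinj : InjOn G U) :
    (∀ s ⊆ U, IsOpen s → IsOpen (G '' s)) ∧
    (∃ g : ℂ → ℂ, DifferentiableOn ℂ g (G '' U) ∧ (∀ z ∈ U, g (G z) = z)) ∧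
    ∀ z ∈ U, deriv G z ≠ 0 := by
  have hGa : AnalyticOnNhd ℂ G U := hG.analyticOnNhd hU
  have hloc : ∀ z ∈ U, ¬ ∀ᶠ w in 𝓝 z, G w = G z := by
    intro z hz h
    have h1 : ∀ᶠ w in 𝓝 z, w = z := by
      filter_upwards [h, hU.mem_nhds hz] with w hw hwU
      exact hinj hwU hz hw
    have h2 : ∀ᶠ w in 𝓝[≠] z, w = z := h1.filter_mono nhdsWithin_le_nhds
    have h3 : ∀ᶠ w in 𝓝[≠] z, w ≠ z := eventually_mem_nhdsWithin
    have h4 : ∀ᶠ w in 𝓝[≠] z, False := by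
      filter_upwards [h2, h3] with w a b using b a
    have h5 : (𝓝[≠] z).NeBot := inferInstance
    exact (h4.exists).elim (fun _ h => h)
  have hopen : ∀ s ⊆ U, IsOpen s → IsOpen (G '' s) := by
    intro s hs hso
    refine isOpen_iff_mem_nhds.mpr ?_
    rintro z ⟨w, hw, rfl⟩
    exact (hGa w (hs hw)).eventually_constant_or_nhds_le_map_nhds.resolve_left (hloc w (hs hw))
      (image_mem_map (hso.mem_nhds hw))
  classical
  -- the inverse
  obtain ⟨g, hg⟩ : ∃ g : ℂ → ℂ, ∀ z ∈ U, g (G z) = z :=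
    ⟨Function.invFunOn G U, fun z hz => hinj.leftInvOn_invFunOn hz⟩
  have hgc : ∀ z ∈ U, ContinuousAt g (G z) := by
    intro z hz
    rw [ContinuousAt, hg z hz]
    intro s hs
    obtain ⟨t, hts, hto, hzt⟩ := _root_.mem_nhds_iff.mp (inter_mem hs (hU.mem_nhds hz))
    have h1 : G '' t ∈ 𝓝 (G z) := (hopen t (fun x hx => (hts hx).2) hto).mem_nhds ⟨z, hzt, rfl⟩
    rw [Filter.mem_map]
    filter_upwards [h1] with y hy
    obtain ⟨x, hx, rfl⟩ := hy
    change g (G x) ∈ s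
    rw [hg x (hts hx).2]
    exact (hts hx).1
  have hgd0 : ∀ z ∈ U, deriv G z ≠ 0 → DifferentiableAt ℂ g (G z) := by
    intro z hz hd
    have h1 : HasDerivAt G (deriv G z) (g (G z)) := by
      rw [hg z hz]; exact (hG.differentiableAt (hU.mem_nhds hz)).hasDerivAt
    refine (HasDerivAt.of_local_left_inverse (hgc z hz) h1 hd ?_).differentiableAt
    filter_upwards [(hopen U subset_rfl hU).mem_nhds ⟨z, hz, rfl⟩] with y hy
    obtain ⟨x, hx, rfl⟩ := hy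
    rw [hg x hx]
  have hcrit : ∀ z ∈ U, ∀ᶠ w in 𝓝[≠] z, deriv G w ≠ 0 := by
    intro z hz
    rcases (hGa z hz).deriv.eventually_eq_zero_or_eventually_ne_zero with h | h
    · exfalso
      obtain ⟨ε, hε, hb⟩ := Metric.mem_nhds_iff.mp (inter_mem h (hU.mem_nhds hz))
      apply hloc z hz
      filter_upwards [ball_mem_nhds z hε] with w hw
      have hconst := (convex_ball z ε).is_const_of_fderivWithin_eq_zero (𝕜 := ℂ) (f := G)
        (hG.mono (fun x hx => (hb hx).2)) (fun x hx => by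
          rw [fderivWithin_of_isOpen isOpen_ball hx]
          have : deriv G x = 0 := (hb hx).1
          ext
          simp [this]) hw (mem_ball_self hε)
      exact hconst
    · exact h
  have hgd : ∀ z ∈ U, DifferentiableAt ℂ g (G z) := by
    intro z hz
    refine (analyticAt_of_differentiable_on_punctured_nhds_of_continuousAt ?_
      (hgc z hz)).differentiableAt
    have h1 := hcrit z hz
    rw [eventually_nhdsWithin_iff] at h1 ⊢
    obtain ⟨t, hts, hto, hzt⟩ := _root_.mem_nhds_iff.mp (inter_mem h1 (hU.mem_nhds hz))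
    filter_upwards [(hopen t (fun x hx => (hts hx).2) hto).mem_nhds ⟨z, hzt, rfl⟩] with y hy hne
    obtain ⟨x, hx, rfl⟩ := hy
    refine hgd0 x (hts hx).2 ((hts hx).1 ?_)
    rintro rfl
    exact hne rfl
  refine ⟨hopen, ⟨g, ?_, hg⟩, ?_⟩
  · rintro _ ⟨z, hz, rfl⟩
    exact (hgd z hz).differentiableWithinAt
  · intro z hz h0
    have h1 : HasDerivAt (g ∘ G) (deriv g (G z) * deriv G z) z :=
      (hgd z hz).hasDerivAt.comp z (hG.differentiableAt (hU.mem_nhds hz)).hasDerivAt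
    have h2 : HasDerivAt (g ∘ G) 1 z := by
      refine (hasDerivAt_id z).congr_of_eventuallyEq ?_
      filter_upwards [hU.mem_nhds hz] with w hw
      exact hg w hw
    have := h1.unique h2
    rw [h0, mul_zero] at this
    exact zero_ne_one this

theorem isPreconnected_norm_gt {R : ℝ} (hR : 0 ≤ R) : IsPreconnected {t : ℂ | R < ‖t‖} := by
  have h1 : IsPreconnected (sphere (0 : ℂ) 1) :=
    (isConnected_sphere (by simp [Complex.rank_real_complex]) 0 zero_le_one).isPreconnected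
  have h2 : IsPreconnected (Ioi R) := isPreconnected_Ioi
  have h3 := (h2.prod h1).image (fun p : ℝ × ℂ => (p.1 : ℂ) * p.2) (by fun_prop)
  convert h3 using 1
  ext t
  simp only [mem_ofPred_eq, mem_image, mem_prod, mem_Ioi, mem_sphere_zero_iff_norm, Prod.exists]
  constructor
  · intro ht
    have h0 : ‖t‖ ≠ 0 := by linarith
    refine ⟨‖t‖, (‖t‖ : ℂ)⁻¹ * t, ⟨ht, ?_⟩, ?_⟩
    · simp [h0]
    · have : (‖t‖ : ℂ) ≠ 0 := by exact_mod_cast h0
      field_simp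
  · rintro ⟨a, b, ⟨ha, hb⟩, rfl⟩
    have : 0 < a := by linarith
    simp [hb, abs_of_pos this, ha]

theorem isOpen_norm_gt (R : ℝ) : IsOpen {t : ℂ | R < ‖t‖} := isOpen_lt continuous_const continuous_norm

/-- `G` is an exterior conformal map of the complement of the convex compact set `K`. -/
structure ExtMap (K : Set ℂ) (G : ℂ → ℂ) (c : ℂ) : Prop where
  compact : IsCompact K
  convex : Convex ℝ K
  nonempty : K.Nonempty
  diff : DifferentiableOn ℂ G {t | 1 < ‖t‖}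
  inj : InjOn G {t | 1 < ‖t‖}
  img : G '' {t | 1 < ‖t‖} = Kᶜ
  c_ne : c ≠ 0
  lim : Tendsto (fun t => G t / t) (Bornology.cobounded ℂ) (𝓝 c)

namespace ExtMap

variable {K : Set ℂ} {G : ℂ → ℂ} {c : ℂ} (h : ExtMap K G c)
include h

theorem notMem {t : ℂ} (ht : 1 < ‖t‖) : G t ∉ K := by
  have : G t ∈ Kᶜ := h.img ▸ ⟨t, ht, rfl⟩
  exact this

theorem exists_pre {z : ℂ} (hz : z ∉ K) : ∃ t, 1 < ‖t‖ ∧ G t = z := by
  have : z ∈ G '' {t | 1 < ‖t‖} := by rw [h.img]; exact hz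
  exact this

theorem continuousAt {t : ℂ} (ht : 1 < ‖t‖) : ContinuousAt G t :=
  (h.diff.differentiableAt ((isOpen_norm_gt 1).mem_nhds ht)).continuousAt

theorem exists_inv : ∃ g : ℂ → ℂ, DifferentiableOn ℂ g Kᶜ ∧ (∀ t, 1 < ‖t‖ → g (G t) = t) ∧
    ∀ z ∉ K, 1 < ‖g z‖ ∧ G (g z) = z := by
  obtain ⟨-, ⟨g, hg1, hg2⟩, -⟩ := injOn_inverse (isOpen_norm_gt 1) h.diff h.inj
  refine ⟨g, h.img ▸ hg1, hg2, fun z hz => ?_⟩
  obtain ⟨t, ht, rfl⟩ := h.exists_pre hz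
  rw [hg2 t ht]
  exact ⟨ht, rfl⟩

theorem deriv_ne {t : ℂ} (ht : 1 < ‖t‖) : deriv G t ≠ 0 :=
  (injOn_inverse (isOpen_norm_gt 1) h.diff h.inj).2.2 t ht

theorem isOpen_image {m : ℝ} (hm : 1 ≤ m) : IsOpen (G '' {t | m < ‖t‖}) :=
  (injOn_inverse (isOpen_norm_gt 1) h.diff h.inj).1 _
    (fun _ ht => lt_of_le_of_lt hm ht) (isOpen_norm_gt m)

/-- lower growth bound -/
theorem growth {q : ℝ} (hq : q < ‖c‖) : ∃ B : ℝ, ∀ t : ℂ, B ≤ ‖t‖ → q * ‖t‖ ≤ ‖G t‖ := by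
  have h1 : ∀ᶠ t in Bornology.cobounded ℂ, q < ‖G t / t‖ :=
    (h.lim.norm).eventually (lt_mem_nhds hq)
  obtain ⟨B, -, hB⟩ := (hasBasis_cobounded_norm (E := ℂ)).eventually_iff.mp h1
  refine ⟨max B 1, fun t ht => ?_⟩
  have h2 := hB (show B ≤ ‖t‖ from (le_max_left _ _).trans ht)
  have h3 : 0 < ‖t‖ := lt_of_lt_of_le one_pos ((le_max_right _ _).trans ht)
  rw [norm_div, lt_div_iff₀ h3] at h2
  exact h2.le

theorem c_pos : 0 < ‖c‖ := norm_pos_iff.mpr h.c_ne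

/-- boundedness of the inverse on bounded sets -/
theorem bdd_pre (Z : ℝ) : ∃ B : ℝ, ∀ t : ℂ, ‖G t‖ ≤ Z → ‖t‖ ≤ B := by
  obtain ⟨B, hB⟩ := h.growth (q := ‖c‖ / 2) (by linarith [h.c_pos])
  refine ⟨max B (Z / (‖c‖ / 2)), fun t ht => ?_⟩
  rcases le_total ‖t‖ B with h1 | h1
  · exact h1.trans (le_max_left _ _)
  · refine le_trans ?_ (le_max_right _ _)
    rw [le_div_iff₀ (by linarith [h.c_pos])]
    have := hB t h1
    linarith

theorem isClosed_image {m : ℝ} (hm : 1 < m) : IsClosed (G '' {t | m ≤ ‖t‖}) := by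
  refine isClosed_of_closure_subset fun z hz => ?_
  obtain ⟨B, hB⟩ := h.bdd_pre (‖z‖ + 1)
  have hC : IsCompact ({t : ℂ | m ≤ ‖t‖} ∩ closedBall 0 B) :=
    (isCompact_closedBall 0 B).inter_left (isClosed_le continuous_const continuous_norm)
  have hC2 : IsClosed (G '' ({t : ℂ | m ≤ ‖t‖} ∩ closedBall 0 B)) := by
    refine (hC.image_of_continuousOn fun t ht => ?_).isClosed
    exact (h.continuousAt (lt_of_lt_of_le hm ht.1)).continuousWithinAt
  have h1 : z ∈ closure (G '' ({t : ℂ | m ≤ ‖t‖} ∩ closedBall 0 B)) := by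
    rw [mem_closure_iff_nhds] at hz ⊢
    intro s hs
    obtain ⟨y, ⟨hy1, hy2⟩, ⟨t, ht, rfl⟩⟩ := hz (s ∩ ball z 1) (inter_mem hs (ball_mem_nhds z one_pos))
    refine ⟨G t, hy1, t, ⟨ht, ?_⟩, rfl⟩
    rw [mem_closedBall_zero_iff]
    apply hB
    rw [mem_ball, dist_eq_norm] at hy2
    have := norm_sub_norm_le (G t) z
    linarith
  rw [hC2.closure_eq] at h1
  exact image_mono inter_subset_left h1

/-- The exterior `{‖z‖ > B}` is covered by the image of `{‖t‖ > m}`. -/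
theorem exists_far {m : ℝ} (hm : 1 < m) : ∃ B : ℝ, ∀ z : ℂ, B < ‖z‖ → z ∈ G '' {t | m < ‖t‖} := by
  have hs : IsCompact (G '' sphere 0 m) := by
    refine (isCompact_sphere (0 : ℂ) m).image_of_continuousOn fun t ht => ?_
    rw [mem_sphere_zero_iff_norm] at ht
    exact (h.continuousAt (by rw [ht]; exact hm)).continuousWithinAt
  obtain ⟨B, hB⟩ := (hs.union h.compact).isBounded.exists_norm_le
  refine ⟨max B 0, ?_⟩
  have hpre : IsPreconnected {z : ℂ | max B 0 < ‖z‖} := isPreconnected_norm_gt (le_max_right _ _)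
  have hU : IsOpen (G '' {t | m < ‖t‖}) := h.isOpen_image hm.le
  have hV : IsOpen (G '' {t | 1 < ‖t‖ ∧ ‖t‖ < m}) := by
    refine (injOn_inverse (isOpen_norm_gt 1) h.diff h.inj).1 _
      (fun _ ht => ht.1) ((isOpen_norm_gt 1).inter (isOpen_lt continuous_norm continuous_const))
  have hcov : {z : ℂ | max B 0 < ‖z‖} ⊆ G '' {t | m < ‖t‖} ∪ G '' {t | 1 < ‖t‖ ∧ ‖t‖ < m} := by
    intro z hz
    have hzB : B < ‖z‖ := lt_of_le_of_lt (le_max_left _ _) hz
    have hzK : z ∉ K := fun hk => by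
      have := hB z (Or.inr hk); linarith
    obtain ⟨t, ht, rfl⟩ := h.exists_pre hzK
    rcases lt_trichotomy ‖t‖ m with h1 | h1 | h1
    · exact Or.inr ⟨t, ⟨ht, h1⟩, rfl⟩
    · exfalso
      have := hB (G t) (Or.inl ⟨t, by simp [h1], rfl⟩); linarith
    · exact Or.inl ⟨t, h1, rfl⟩
  have hdisj : Disjoint (G '' {t | m < ‖t‖}) (G '' {t | 1 < ‖t‖ ∧ ‖t‖ < m}) := by
    rw [Set.disjoint_left]
    rintro _ ⟨t, ht, rfl⟩ ⟨s, hs, hst⟩
    have := h.inj hs.1 (show t ∈ {t : ℂ | 1 < ‖t‖} from hm.trans ht) hst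
    subst this
    exact absurd ht (not_lt.mpr hs.2.le)
  -- a point far away in the image of `{‖t‖ > m}`
  obtain ⟨B2, hB2⟩ := h.growth (q := ‖c‖ / 2) (by linarith [h.c_pos])
  have hc := h.c_pos
  set M : ℝ := max (max B2 (m + 1)) ((max B 0 + 1) / (‖c‖ / 2)) with hM
  have hM0 : 0 < M := lt_of_lt_of_le (by linarith : (0:ℝ) < m + 1)
    ((le_max_right _ _).trans (le_max_left _ _))
  have hnM : ‖(M : ℂ)‖ = M := by simp [abs_of_pos hM0]
  have h1 : (‖c‖ / 2) * M ≤ ‖G (M : ℂ)‖ := by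
    have := hB2 (M : ℂ) (by rw [hnM]; exact (le_max_left _ _).trans (le_max_left _ _))
    rwa [hnM] at this
  have h2 : max B 0 + 1 ≤ (‖c‖ / 2) * M := by
    have : (max B 0 + 1) / (‖c‖ / 2) ≤ M := le_max_right _ _
    rwa [div_le_iff₀ (by linarith), mul_comm] at this
  have hmM : m < M := lt_of_lt_of_le (by linarith : m < m + 1)
    ((le_max_right _ _).trans (le_max_left _ _))
  have hsub := hpre.subset_left_of_subset_union hU hV hdisj hcov
    ⟨G (M : ℂ), by simp only [mem_ofPred_eq]; linarith, (M : ℂ), by simp only [mem_ofPred_eq, hnM]; exact hmM, rfl⟩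
  intro z hz
  exact hsub hz

/-- (D4) the level sets shrink to `K`. -/
theorem level_close {ε : ℝ} (hε : 0 < ε) :
    ∃ R0 > 1, ∀ R, R ≤ R0 → (G '' {t | R < ‖t‖})ᶜ ⊆ cthickening ε K := by
  obtain ⟨B, hB⟩ := h.exists_far (m := 2) (by norm_num)
  obtain ⟨g, hgd, hg1, hg2⟩ := h.exists_inv
  set C : Set ℂ := {z | ε ≤ infDist z K} ∩ closedBall 0 B with hCdef
  have hC : IsCompact C := (isCompact_closedBall 0 B).inter_left
    (isClosed_le continuous_const (continuous_infDist_pt K))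
  have hCK : C ⊆ Kᶜ := by
    intro z hz hzK
    have : infDist z K = 0 := infDist_zero_of_mem hzK
    have h2 := hz.1
    simp only [mem_ofPred_eq, this] at h2
    linarith
  have hcont : ContinuousOn (fun z => ‖g z‖) C := (hgd.continuousOn.mono hCK).norm
  obtain ⟨m0, hm0, hm1⟩ : ∃ m0 : ℝ, 1 < m0 ∧ ∀ z ∈ C, m0 ≤ ‖g z‖ := by
    rcases C.eq_empty_or_nonempty with he | hne
    · exact ⟨2, by norm_num, fun z hz => by simp [he] at hz⟩
    · obtain ⟨z0, hz0, hmin⟩ := hC.exists_isMinOn hne hcont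
      exact ⟨‖g z0‖, (hg2 z0 (hCK hz0)).1, fun z hz => hmin hz⟩
  refine ⟨min ((1 + m0) / 2) 2, lt_min (by linarith) (by norm_num), fun R hR z hz => ?_⟩
  by_contra hcon
  have hzB : ¬ B < ‖z‖ := by
    intro hlt
    obtain ⟨t, ht, rfl⟩ := hB z hlt
    exact hz ⟨t, lt_of_le_of_lt (hR.trans (min_le_right _ _)) ht, rfl⟩
  have hzC : z ∈ C := by
    refine ⟨?_, by rw [mem_closedBall_zero_iff]; exact not_lt.mp hzB⟩
    by_contra hlt
    simp only [mem_ofPred_eq, not_le] at hlt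
    apply hcon
    rw [mem_cthickening_iff, ENNReal.le_ofReal_iff_toReal_le (infEDist_ne_top h.nonempty) hε.le]
    exact hlt.le
  have h3 := hm1 z hzC
  have h4 := hg2 z (hCK hzC)
  refine hz ⟨g z, ?_, h4.2⟩
  simp only [mem_ofPred_eq]
  have : R ≤ (1 + m0) / 2 := hR.trans (min_le_left _ _)
  linarith

theorem near_bdry {ε : ℝ} (hε : 0 < ε) :
    ∃ R0 > 1, ∀ t, 1 < ‖t‖ → ‖t‖ ≤ R0 → G t ∈ cthickening ε K := by
  obtain ⟨R0, hR0, hR1⟩ := h.level_close hε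
  refine ⟨R0, hR0, fun t ht1 ht2 => hR1 R0 le_rfl ?_⟩
  rintro ⟨s, hs, hst⟩
  have := h.inj (show s ∈ {t : ℂ | 1 < ‖t‖} from hR0.trans hs) ht1 hst
  subst this
  exact absurd hs (not_lt.mpr ht2)

theorem exists_thick {m : ℝ} (hm : 1 < m) :
    ∃ η > 0, Disjoint (cthickening η K) (G '' {t | m ≤ ‖t‖}) := by
  have h1 : IsOpen (G '' {t | m ≤ ‖t‖})ᶜ := (h.isClosed_image hm).isOpen_compl
  have h2 : K ⊆ (G '' {t | m ≤ ‖t‖})ᶜ := by
    rintro z hz ⟨t, ht, rfl⟩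
    exact h.notMem (lt_of_lt_of_le hm ht) hz
  obtain ⟨η, hη, hsub⟩ := h.compact.exists_cthickening_subset_open h1 h2
  exact ⟨η, hη, disjoint_left.mpr fun z hz => hsub hz⟩

theorem growth_le {q : ℝ} (hq : ‖c‖ < q) : ∃ B : ℝ, ∀ t : ℂ, B ≤ ‖t‖ → ‖G t‖ ≤ q * ‖t‖ := by
  have h1 : ∀ᶠ t in Bornology.cobounded ℂ, ‖G t / t‖ < q :=
    (h.lim.norm).eventually (gt_mem_nhds hq)
  obtain ⟨B, -, hB⟩ := (hasBasis_cobounded_norm (E := ℂ)).eventually_iff.mp h1
  refine ⟨max B 1, fun t ht => ?_⟩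
  have h2 := hB (show B ≤ ‖t‖ from (le_max_left _ _).trans ht)
  have h3 : 0 < ‖t‖ := lt_of_lt_of_le one_pos ((le_max_right _ _).trans ht)
  rw [norm_div, div_lt_iff₀ h3] at h2
  exact h2.le

/-- Maximum principle argument. -/
theorem chord {R : ℝ} (hR : 1 < R) {X Y : ℂ → ℂ}
    (hX : DifferentiableOn ℂ X {τ | 1 / R < ‖τ‖}) (hY : DifferentiableOn ℂ Y {τ | 1 / R < ‖τ‖})
    (hXn : ∀ η > 0, ∃ r0 > 1, ∀ τ : ℂ, 1 / R < ‖τ‖ → ‖τ‖ ≤ r0 / R → X τ ∈ cthickening η K)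
    (hYn : ∀ η > 0, ∃ r0 > 1, ∀ τ : ℂ, 1 / R < ‖τ‖ → ‖τ‖ ≤ r0 / R → Y τ ∈ cthickening η K)
    (hXg : ∀ q, ‖c‖ * R < q → ∃ P : ℝ, ∀ τ : ℂ, P ≤ ‖τ‖ → ‖X τ‖ ≤ q * ‖τ‖)
    (hYg : ∀ q, ‖c‖ * R < q → ∃ P : ℝ, ∀ τ : ℂ, P ≤ ‖τ‖ → ‖Y τ‖ ≤ q * ‖τ‖)
    {a b : ℝ} (ha : 0 ≤ a) (hb : 0 ≤ b) (hab : a + b = 1) :
    a • X 1 + b • Y 1 ∉ G '' {t | R < ‖t‖} := by
  rintro ⟨t0, ht0, hGt0⟩
  simp only [mem_ofPred_eq] at ht0
  have hc := h.c_pos
  have hR0 : 0 < R := by linarith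
  -- choose θ
  obtain ⟨θ, hθ1, hθ2⟩ : ∃ θ : ℝ, 1 < θ ∧ θ * θ * R < ‖t0‖ := by
    set ρ := ‖t0‖ / R with hρ
    have hρ1 : 1 < ρ := by rw [hρ, lt_div_iff₀ hR0]; linarith
    have hρR : ρ * R = ‖t0‖ := by rw [hρ]; field_simp
    refine ⟨1 + min 1 ((ρ - 1) / 4), by have : 0 < min 1 ((ρ - 1) / 4) := lt_min one_pos (by linarith)
                                        linarith, ?_⟩
    rw [← hρR]
    refine mul_lt_mul_of_pos_right ?_ hR0
    have h1 : min 1 ((ρ - 1) / 4) ≤ 1 := min_le_left _ _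
    have h2 : min 1 ((ρ - 1) / 4) ≤ (ρ - 1) / 4 := min_le_right _ _
    have h3 : 0 < min 1 ((ρ - 1) / 4) := lt_min one_pos (by linarith)
    nlinarith
  set m := θ * θ with hm
  have hm1 : 1 < m := by nlinarith
  have hθ0 : 0 < θ := by linarith
  obtain ⟨g, hgd, hg1, hg2⟩ := h.exists_inv
  have hKc : IsOpen Kᶜ := h.compact.isClosed.isOpen_compl
  obtain ⟨η, hη, hdisj⟩ := h.exists_thick hm1
  obtain ⟨rX, hrX, hXr⟩ := hXn η hη
  obtain ⟨rY, hrY, hYr⟩ := hYn η hη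
  have hqq : ‖c‖ * R < ‖c‖ * R * θ := by
    have : 0 < ‖c‖ * R := by positivity
    nlinarith
  obtain ⟨PX, hPX⟩ := hXg _ hqq
  obtain ⟨PY, hPY⟩ := hYg _ hqq
  obtain ⟨B, hB⟩ := h.growth (q := ‖c‖ / θ) (by rw [div_lt_iff₀ hθ0]; nlinarith)
  set r0 := min rX rY with hr0
  have hr01 : 1 < r0 := lt_min hrX hrY
  set P : ℝ := max (max PX PY) (max B 2) with hP
  have hPX' : PX ≤ P := (le_max_left _ _).trans (le_max_left _ _)
  have hPY' : PY ≤ P := (le_max_right _ _).trans (le_max_left _ _)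
  have hPB : B ≤ P := (le_max_left _ _).trans (le_max_right _ _)
  have hP2 : 2 ≤ P := (le_max_right _ _).trans (le_max_right _ _)
  set u : ℂ → ℂ := fun τ => a • X τ + b • Y τ with hu
  have hO : IsOpen {τ : ℂ | 1 / R < ‖τ‖} := isOpen_norm_gt _
  have hud : DifferentiableOn ℂ u {τ | 1 / R < ‖τ‖} := (hX.const_smul a).add (hY.const_smul b)
  have huc : ContinuousOn u {τ | 1 / R < ‖τ‖} := hud.continuousOn
  set D : Set ℂ := G '' {t | m < ‖t‖} with hD
  set F : Set ℂ := G '' {t | m ≤ ‖t‖} with hF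
  have hDo : IsOpen D := h.isOpen_image hm1.le
  have hFc : IsClosed F := h.isClosed_image hm1
  have hDF : D ⊆ F := image_mono fun t (ht : m < ‖t‖) => show m ≤ ‖t‖ from ht.le
  have hFK : F ⊆ Kᶜ := by
    rintro _ ⟨t, ht, rfl⟩
    exact h.notMem (lt_of_lt_of_le hm1 ht)
  have hFg : ∀ z ∈ F, m ≤ ‖g z‖ := by
    rintro _ ⟨t, ht, rfl⟩
    rw [hg1 t (lt_of_lt_of_le hm1 ht)]
    exact ht
  set V : Set ℂ := ({τ : ℂ | 1 / R < ‖τ‖} ∩ u ⁻¹' D) ∩ {τ : ℂ | ‖τ‖ < P} with hV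
  have hVo : IsOpen V := (huc.isOpen_inter_preimage hO hDo).inter
    (isOpen_lt continuous_norm continuous_const)
  have hVb : Bornology.IsBounded V := by
    refine (isBounded_ball (x := (0:ℂ)) (r := P)).subset fun τ hτ => ?_
    rw [mem_ball_zero_iff]; exact hτ.2
  have hVlow : ∀ τ ∈ V, r0 / R ≤ ‖τ‖ := by
    intro τ hτ
    by_contra hlt
    push Not at hlt
    have h1 : X τ ∈ cthickening η K := hXr τ hτ.1.1
      (hlt.le.trans (div_le_div_of_nonneg_right (min_le_left _ _) hR0.le))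
    have h2 : Y τ ∈ cthickening η K := hYr τ hτ.1.1
      (hlt.le.trans (div_le_div_of_nonneg_right (min_le_right _ _) hR0.le))
    have h3 : u τ ∈ cthickening η K := (h.convex.cthickening η) h1 h2 ha hb hab
    exact disjoint_left.mp hdisj h3 (hDF hτ.1.2)
  have hr0R : 1 / R < r0 / R := div_lt_div_of_pos_right hr01 hR0
  have hcl : closure V ⊆ {τ : ℂ | r0 / R ≤ ‖τ‖ ∧ ‖τ‖ ≤ P} ∩ u ⁻¹' F := by
    have hA : IsClosed {τ : ℂ | r0 / R ≤ ‖τ‖ ∧ ‖τ‖ ≤ P} :=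
      (isClosed_le continuous_const continuous_norm).inter
        (isClosed_le continuous_norm continuous_const)
    have hAc : ContinuousOn u {τ : ℂ | r0 / R ≤ ‖τ‖ ∧ ‖τ‖ ≤ P} :=
      huc.mono fun τ hτ => lt_of_lt_of_le hr0R hτ.1
    refine closure_minimal (fun τ hτ => ?_) (hAc.preimage_isClosed_of_isClosed hA hFc)
    exact ⟨⟨hVlow τ hτ, le_of_lt hτ.2⟩, hDF hτ.1.2⟩
  have hdiff : ∀ τ ∈ closure V, DifferentiableAt ℂ (fun τ => g (u τ) / τ) τ := by
    intro τ hτ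
    have h1 := hcl hτ
    have h2 : 1 / R < ‖τ‖ := lt_of_lt_of_le hr0R h1.1.1
    have h3 : τ ≠ 0 := by
      rintro rfl
      rw [norm_zero] at h2
      have : 0 < 1 / R := by positivity
      linarith
    have h4 : DifferentiableAt ℂ g (u τ) := hgd.differentiableAt (hKc.mem_nhds (hFK h1.2))
    have h5 : DifferentiableAt ℂ u τ := hud.differentiableAt (hO.mem_nhds h2)
    exact (h4.comp τ h5).div differentiableAt_id h3
  have hDCl : DiffContOnCl ℂ (fun τ => g (u τ) / τ) V :=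
    DifferentiableOn.diffContOnCl fun τ hτ => (hdiff τ hτ).differentiableWithinAt
  have hmR : 0 < R * m := by positivity
  have hfr : ∀ τ ∈ frontier V, ‖g (u τ) / τ‖ ≤ R * m := by
    intro τ hτ
    have hτc : τ ∈ closure V := frontier_subset_closure hτ
    have hτV : τ ∉ V := by
      rw [hVo.frontier_eq] at hτ; exact hτ.2
    have h1 := hcl hτc
    have h2 : 1 / R < ‖τ‖ := lt_of_lt_of_le hr0R h1.1.1
    have h2' : 0 < ‖τ‖ := lt_trans (by positivity) h2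
    have h2'' : 1 ≤ R * ‖τ‖ := by
      rw [div_lt_iff₀ hR0] at h2; linarith
    rw [norm_div, div_le_iff₀ h2']
    have hgu := hg2 (u τ) (hFK h1.2)
    by_cases hlt : ‖τ‖ < P
    · have h3 : u τ ∉ D := fun hd => hτV ⟨⟨h2, hd⟩, hlt⟩
      have h4 : ‖g (u τ)‖ ≤ m := by
        by_contra hcon
        push Not at hcon
        exact h3 ⟨g (u τ), hcon, hgu.2⟩
      nlinarith
    · have h5 : P ≤ ‖τ‖ := not_lt.mp hlt
      rcases le_total ‖g (u τ)‖ B with h6 | h6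
      · have h7 : ‖g (u τ)‖ ≤ ‖τ‖ := h6.trans (hPB.trans h5)
        have : 1 ≤ R * m := by nlinarith
        nlinarith
      · have h7 := hB _ h6
        rw [hgu.2] at h7
        have h8 : ‖u τ‖ ≤ ‖c‖ * R * θ * ‖τ‖ := by
          have e1 := hPX τ (hPX'.trans h5)
          have e2 := hPY τ (hPY'.trans h5)
          calc ‖u τ‖ ≤ ‖a • X τ‖ + ‖b • Y τ‖ := norm_add_le _ _
            _ = a * ‖X τ‖ + b * ‖Y τ‖ := by
                rw [norm_smul, norm_smul, Real.norm_of_nonneg ha, Real.norm_of_nonneg hb]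
            _ ≤ a * (‖c‖ * R * θ * ‖τ‖) + b * (‖c‖ * R * θ * ‖τ‖) := by gcongr
            _ = (a + b) * (‖c‖ * R * θ * ‖τ‖) := by ring
            _ = _ := by rw [hab, one_mul]
        have h9 : ‖c‖ / θ * ‖g (u τ)‖ ≤ ‖c‖ * R * θ * ‖τ‖ := h7.trans h8
        have h10 : ‖c‖ * ‖g (u τ)‖ ≤ ‖c‖ * (R * m * ‖τ‖) := by
          have := mul_le_mul_of_nonneg_left h9 hθ0.le
          calc ‖c‖ * ‖g (u τ)‖ = θ * (‖c‖ / θ * ‖g (u τ)‖) := by field_simp
            _ ≤ θ * (‖c‖ * R * θ * ‖τ‖) := this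
            _ = _ := by rw [hm]; ring
        exact le_of_mul_le_mul_left h10 hc
  have h1V : (1 : ℂ) ∈ V := by
    refine ⟨⟨?_, ?_⟩, ?_⟩
    · simp only [mem_ofPred_eq, norm_one]
      rw [div_lt_iff₀ hR0]; linarith
    · refine ⟨t0, ?_, hGt0⟩
      simp only [mem_ofPred_eq]
      nlinarith
    · simp only [mem_ofPred_eq, norm_one]; linarith
  have hfin := Complex.norm_le_of_forall_mem_frontier_norm_le hVb hDCl hfr (subset_closure h1V)
  have hu1 : u 1 = G t0 := hGt0.symm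
  simp only [div_one] at hfin
  rw [hu1, hg1 t0 (hR.trans ht0)] at hfin
  linarith

/-- chord between two points of the same level curve -/
theorem chord_level {R : ℝ} (hR : 1 < R) {s1 s2 : ℂ} (hs1 : ‖s1‖ = R) (hs2 : ‖s2‖ = R)
    {a b : ℝ} (ha : 0 ≤ a) (hb : 0 ≤ b) (hab : a + b = 1) :
    a • G s1 + b • G s2 ∉ G '' {t | R < ‖t‖} := by
  have hR0 : 0 < R := by linarith
  have key : ∀ s : ℂ, ‖s‖ = R → ∀ τ : ℂ, 1 / R < ‖τ‖ → 1 < ‖s * τ‖ := by
    intro s hs τ hτ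
    rw [norm_mul, hs]
    rw [div_lt_iff₀ hR0] at hτ
    linarith
  have hdiff : ∀ s : ℂ, ‖s‖ = R → DifferentiableOn ℂ (fun τ => G (s * τ)) {τ | 1 / R < ‖τ‖} := by
    intro s hs τ hτ
    have h1 : DifferentiableAt ℂ G (s * τ) :=
      h.diff.differentiableAt ((isOpen_norm_gt 1).mem_nhds (key s hs τ hτ))
    exact (h1.comp τ (differentiableAt_id.const_mul s)).differentiableWithinAt
  have hnear : ∀ s : ℂ, ‖s‖ = R → ∀ η > 0, ∃ r0 > 1, ∀ τ : ℂ, 1 / R < ‖τ‖ → ‖τ‖ ≤ r0 / R →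
      G (s * τ) ∈ cthickening η K := by
    intro s hs η hη
    obtain ⟨r0, hr0, hr1⟩ := h.near_bdry hη
    refine ⟨r0, hr0, fun τ h1 h2 => hr1 _ (key s hs τ h1) ?_⟩
    rw [norm_mul, hs]
    rw [le_div_iff₀ hR0] at h2
    linarith
  have hgrow : ∀ s : ℂ, ‖s‖ = R → ∀ q, ‖c‖ * R < q → ∃ P : ℝ, ∀ τ : ℂ, P ≤ ‖τ‖ →
      ‖G (s * τ)‖ ≤ q * ‖τ‖ := by
    intro s hs q hq
    obtain ⟨B, hB⟩ := h.growth_le (q := q / R) (by rw [lt_div_iff₀ hR0]; exact hq)
    refine ⟨B / R, fun τ hτ => ?_⟩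
    have h1 : B ≤ ‖s * τ‖ := by
      rw [norm_mul, hs]
      rw [div_le_iff₀ hR0] at hτ
      linarith
    have h2 := hB _ h1
    rw [norm_mul, hs] at h2
    calc ‖G (s * τ)‖ ≤ q / R * (R * ‖τ‖) := h2
      _ = q * ‖τ‖ := by field_simp
  have := h.chord hR (hdiff s1 hs1) (hdiff s2 hs2) (hnear s1 hs1) (hnear s2 hs2)
    (hgrow s1 hs1) (hgrow s2 hs2) ha hb hab
  simpa using this

/-- chord between a point of a level curve and a point of `K` -/
theorem chord_K {R : ℝ} (hR : 1 < R) {s1 w : ℂ} (hs1 : ‖s1‖ = R) (hw : w ∈ K)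
    {a b : ℝ} (ha : 0 ≤ a) (hb : 0 ≤ b) (hab : a + b = 1) :
    a • G s1 + b • w ∉ G '' {t | R < ‖t‖} := by
  have hR0 : 0 < R := by linarith
  have key : ∀ τ : ℂ, 1 / R < ‖τ‖ → 1 < ‖s1 * τ‖ := by
    intro τ hτ
    rw [norm_mul, hs1]
    rw [div_lt_iff₀ hR0] at hτ
    linarith
  have hdiff : DifferentiableOn ℂ (fun τ => G (s1 * τ)) {τ | 1 / R < ‖τ‖} := by
    intro τ hτ
    have h1 : DifferentiableAt ℂ G (s1 * τ) :=
      h.diff.differentiableAt ((isOpen_norm_gt 1).mem_nhds (key τ hτ))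
    exact (h1.comp τ (differentiableAt_id.const_mul s1)).differentiableWithinAt
  have hnear : ∀ η > 0, ∃ r0 > 1, ∀ τ : ℂ, 1 / R < ‖τ‖ → ‖τ‖ ≤ r0 / R →
      G (s1 * τ) ∈ cthickening η K := by
    intro η hη
    obtain ⟨r0, hr0, hr1⟩ := h.near_bdry hη
    refine ⟨r0, hr0, fun τ h1 h2 => hr1 _ (key τ h1) ?_⟩
    rw [norm_mul, hs1]
    rw [le_div_iff₀ hR0] at h2
    linarith
  have hgrow : ∀ q, ‖c‖ * R < q → ∃ P : ℝ, ∀ τ : ℂ, P ≤ ‖τ‖ →
      ‖G (s1 * τ)‖ ≤ q * ‖τ‖ := by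
    intro q hq
    obtain ⟨B, hB⟩ := h.growth_le (q := q / R) (by rw [lt_div_iff₀ hR0]; exact hq)
    refine ⟨B / R, fun τ hτ => ?_⟩
    have h1 : B ≤ ‖s1 * τ‖ := by
      rw [norm_mul, hs1]
      rw [div_le_iff₀ hR0] at hτ
      linarith
    have h2 := hB _ h1
    rw [norm_mul, hs1] at h2
    calc ‖G (s1 * τ)‖ ≤ q / R * (R * ‖τ‖) := h2
      _ = q * ‖τ‖ := by field_simp
  have := h.chord hR hdiff (Y := fun _ => w) (differentiableOn_const w) hnear
    (fun η hη => ⟨2, by norm_num, fun _ _ _ => self_subset_cthickening K hw⟩)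
    hgrow (fun q hq => ⟨‖w‖ / q, fun τ hτ => ?_⟩) ha hb hab
  · simpa using this
  · have hq0 : 0 < q := lt_of_le_of_lt (by positivity) hq
    rw [div_le_iff₀ hq0] at hτ
    linarith

theorem notMem_level {R : ℝ} (hR : 1 ≤ R) {s : ℂ} (hs : ‖s‖ = R) (hs1 : 1 < ‖s‖) :
    G s ∉ G '' {t | R < ‖t‖} := by
  rintro ⟨t, ht, hts⟩
  have := h.inj (show t ∈ {t : ℂ | 1 < ‖t‖} from lt_of_le_of_lt hR ht) hs1 hts
  subst this
  exact absurd ht (by simp [hs])

/-- (D3) the level sets are convex -/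
theorem level_convex {R : ℝ} (hR : 1 < R) : Convex ℝ (G '' {t | R < ‖t‖})ᶜ := by
  set S : Set ℂ := (G '' {t | R < ‖t‖})ᶜ with hS
  have hSc : IsClosed S := (h.isOpen_image hR.le).isClosed_compl
  -- boundary points have level `R`
  have hbd : ∀ z ∈ S, z ∈ closure Sᶜ → ∃ s : ℂ, ‖s‖ = R ∧ G s = z := by
    intro z hz hzc
    have h1 : z ∈ G '' {t | R ≤ ‖t‖} := by
      rw [hS, compl_compl] at hzc
      exact closure_minimal (image_mono fun t (ht : R < ‖t‖) => show R ≤ ‖t‖ from ht.le)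
        (h.isClosed_image hR) hzc
    obtain ⟨s, hs, rfl⟩ := h1
    refine ⟨s, le_antisymm ?_ hs, rfl⟩
    by_contra hcon
    push Not at hcon
    exact hz ⟨s, hcon, rfl⟩
  intro x hx y hy a b ha hb hab
  by_contra hcon
  set γ : ℝ → ℂ := fun t => x + (t : ℂ) * (y - x) with hγ
  have hγc : Continuous γ := by rw [hγ]; fun_prop
  have hb1 : b ≤ 1 := by linarith
  have hγb : γ b = a • x + b • y := by
    have ha' : (a : ℂ) = 1 - b := by
      have : a = 1 - b := by linarith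
      rw [this]; push_cast; ring
    rw [hγ]
    simp only [Complex.real_smul]
    rw [ha']
    ring
  -- last point before
  set T1 : Set ℝ := {t | t ∈ Icc 0 b ∧ γ t ∈ S} with hT1
  have hT1c : IsCompact T1 := by
    have : T1 = Icc 0 b ∩ γ ⁻¹' S := rfl
    rw [this]
    exact isCompact_Icc.inter_right (hSc.preimage hγc)
  have hT1n : T1.Nonempty := ⟨0, ⟨⟨le_rfl, hb⟩, by simpa [hγ] using hx⟩⟩
  obtain ⟨p, hp, hpmax⟩ := hT1c.exists_isMaxOn hT1n continuousOn_id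
  set T2 : Set ℝ := {t | t ∈ Icc b 1 ∧ γ t ∈ S} with hT2
  have hT2c : IsCompact T2 := by
    have : T2 = Icc b 1 ∩ γ ⁻¹' S := rfl
    rw [this]
    exact isCompact_Icc.inter_right (hSc.preimage hγc)
  have hT2n : T2.Nonempty := ⟨1, ⟨⟨hb1, le_rfl⟩, by simpa [hγ] using hy⟩⟩
  obtain ⟨q, hq, hqmin⟩ := hT2c.exists_isMinOn hT2n continuousOn_id
  have hbS : γ b ∉ S := by rw [hγb]; exact hcon
  have hpb : p < b := lt_of_le_of_ne hp.1.2 (by rintro rfl; exact hbS hp.2)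
  have hbq : b < q := lt_of_le_of_ne hq.1.1 (by rintro rfl; exact hbS hq.2)
  have hpc : γ p ∈ closure Sᶜ := by
    have h1 : ∀ t ∈ Ioo p b, γ t ∈ Sᶜ := by
      intro t ht hts
      have : t ≤ p := hpmax (show t ∈ T1 from ⟨⟨hp.1.1.trans ht.1.le, ht.2.le⟩, hts⟩)
      linarith [ht.1]
    have h2 : p ∈ closure (Ioo p b) := by
      rw [closure_Ioo hpb.ne]; exact ⟨le_rfl, hpb.le⟩
    exact closure_mono (by rintro _ ⟨t, ht, rfl⟩; exact h1 t ht)
      (image_closure_subset_closure_image hγc ⟨p, h2, rfl⟩)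
  have hqc : γ q ∈ closure Sᶜ := by
    have h1 : ∀ t ∈ Ioo b q, γ t ∈ Sᶜ := by
      intro t ht hts
      have : q ≤ t := hqmin (show t ∈ T2 from ⟨⟨ht.1.le, ht.2.le.trans hq.1.2⟩, hts⟩)
      linarith [ht.2]
    have h2 : q ∈ closure (Ioo b q) := by
      rw [closure_Ioo hbq.ne]; exact ⟨hbq.le, le_rfl⟩
    exact closure_mono (by rintro _ ⟨t, ht, rfl⟩; exact h1 t ht)
      (image_closure_subset_closure_image hγc ⟨q, h2, rfl⟩)
  obtain ⟨s1, hs1, hs1'⟩ := hbd _ hp.2 hpc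
  obtain ⟨s2, hs2, hs2'⟩ := hbd _ hq.2 hqc
  have hqp : 0 < q - p := by linarith
  have h3 := h.chord_level hR hs1 hs2 (a := (q - b) / (q - p)) (b := (b - p) / (q - p))
    (div_nonneg (by linarith) hqp.le) (div_nonneg (by linarith) hqp.le)
    (by rw [← add_div, div_eq_one_iff_eq hqp.ne']; ring)
  apply hbS
  rw [hS, mem_compl_iff]
  convert h3 using 2
  rw [hs1', hs2', hγ]
  simp only [Complex.real_smul]
  have hqp' : ((q - p : ℝ) : ℂ) ≠ 0 := by exact_mod_cast hqp.ne'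
  push_cast at hqp' ⊢
  field_simp
  ring

/-- (D3) supporting line inequality for the level curves -/
theorem level_support {R : ℝ} (hR : 1 < R) {s w : ℂ} (hs : ‖s‖ = R)
    (hw : w ∉ G '' {t | R < ‖t‖}) : 0 ≤ (conj (s * deriv G s) * (G s - w)).re := by
  obtain ⟨g, hgd, hg1, hg2⟩ := h.exists_inv
  have hs1 : 1 < ‖s‖ := by rw [hs]; exact hR
  have hKc : IsOpen Kᶜ := h.compact.isClosed.isOpen_compl
  have hGs : G s ∈ Kᶜ := h.notMem hs1
  have hd := h.deriv_ne hs1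
  have hGd : HasDerivAt G (deriv G s) s :=
    (h.diff.differentiableAt ((isOpen_norm_gt 1).mem_nhds hs1)).hasDerivAt
  have hgd' : HasDerivAt g (deriv g (G s)) (G s) :=
    (hgd.differentiableAt (hKc.mem_nhds hGs)).hasDerivAt
  have hprod : deriv g (G s) * deriv G s = 1 := by
    have h1 : HasDerivAt (g ∘ G) (deriv g (G s) * deriv G s) s := hgd'.comp s hGd
    have h2 : HasDerivAt (g ∘ G) 1 s := by
      refine (hasDerivAt_id s).congr_of_eventuallyEq ?_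
      filter_upwards [(isOpen_norm_gt 1).mem_nhds hs1] with t ht
      exact hg1 t ht
    exact h1.unique h2
  -- the path
  set γ : ℝ → ℂ := fun l => G s + (l : ℂ) * (w - G s) with hγ
  have hγ0 : γ 0 = G s := by simp [hγ]
  have hγd : HasDerivAt γ (w - G s) 0 := by
    have h1 : HasDerivAt (fun l : ℝ => (l : ℂ)) 1 0 := Complex.ofRealCLM.hasDerivAt
    have h2 := (h1.mul_const (w - G s)).const_add (G s)
    simpa [hγ] using h2
  have hcomp : HasDerivAt (fun l : ℝ => g (γ l)) (deriv g (G s) * (w - G s)) 0 := by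
    have h1 : HasDerivAt g (deriv g (G s)) (γ 0) := by rw [hγ0]; exact hgd'
    exact h1.comp (0 : ℝ) hγd
  have hψ : HasDerivAt (fun l : ℝ => (conj s * g (γ l)).re)
      (conj s * (deriv g (G s) * (w - G s))).re 0 := by
    have h1 := hcomp.const_mul (conj s)
    exact (Complex.reCLM.hasFDerivAt.comp_hasDerivAt (0 : ℝ) h1)
  have hψ0 : (conj s * g (γ 0)).re = R * R := by
    rw [hγ0, hg1 s hs1, mul_comm, Complex.mul_conj, Complex.ofReal_re, Complex.normSq_eq_norm_sq, hs]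
    ring
  have hψle : ∀ᶠ l : ℝ in 𝓝[>] 0, (conj s * g (γ l)).re ≤ (conj s * g (γ 0)).re := by
    have h1 : ∀ᶠ l : ℝ in 𝓝 0, γ l ∈ Kᶜ :=
      hγd.continuousAt.eventually (by rw [hγ0]; exact hKc.mem_nhds hGs)
    have h2 : ∀ᶠ l : ℝ in 𝓝 0, l < 1 := gt_mem_nhds one_pos
    filter_upwards [h1.filter_mono nhdsWithin_le_nhds, h2.filter_mono nhdsWithin_le_nhds,
      self_mem_nhdsWithin] with l hl1 hl2 hl3
    have hl3' : (0 : ℝ) < l := hl3
    rw [hψ0]
    have hmem : γ l ∈ (G '' {t | R < ‖t‖})ᶜ := by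
      have := (h.level_convex hR) (h.notMem_level hR.le hs hs1) hw (by linarith : 0 ≤ 1 - l) hl3'.le
        (by ring)
      convert this using 1
      rw [hγ]
      simp only [Complex.real_smul]
      push_cast
      ring
    have hgl : ‖g (γ l)‖ ≤ R := by
      by_contra hcon
      push Not at hcon
      exact hmem ⟨g (γ l), hcon, (hg2 _ hl1).2⟩
    calc (conj s * g (γ l)).re ≤ ‖conj s * g (γ l)‖ := Complex.re_le_norm _
      _ = R * ‖g (γ l)‖ := by rw [norm_mul, Complex.norm_conj, hs]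
      _ ≤ R * R := by gcongr
  have hle : (conj s * (deriv g (G s) * (w - G s))).re ≤ 0 := by
    have hslope := hψ.hasDerivWithinAt (s := Ioi 0)
    rw [hasDerivWithinAt_iff_tendsto_slope' (by simp)] at hslope
    refine le_of_tendsto hslope ?_
    filter_upwards [hψle, self_mem_nhdsWithin] with l hl1 hl2
    have hl2' : (0 : ℝ) < l := hl2
    rw [slope_def_field]
    exact div_nonpos_of_nonpos_of_nonneg (by linarith) (by linarith)
  have hgi : deriv g (G s) = (deriv G s)⁻¹ := eq_inv_of_mul_eq_one_left hprod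
  rw [hgi] at hle
  have hns : 0 < Complex.normSq (deriv G s) := Complex.normSq_pos.mpr hd
  have hid : conj (s * deriv G s) * (G s - w) =
      -((Complex.normSq (deriv G s) : ℝ) : ℂ) * (conj s * ((deriv G s)⁻¹ * (w - G s))) := by
    rw [Complex.normSq_eq_conj_mul_self, map_mul]
    field_simp
    ring
  rw [hid, neg_mul, Complex.neg_re, Complex.re_ofReal_mul]
  nlinarith

end ExtMap

theorem level_convex {K : Set ℂ} (hK : IsCompact K) (hKc : Convex ℝ K) (hne : K.Nonempty)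
    {G : ℂ → ℂ} (hG : DifferentiableOn ℂ G {t | 1 < ‖t‖}) (hinj : InjOn G {t | 1 < ‖t‖})
    (himg : G '' {t | 1 < ‖t‖} = Kᶜ) {c : ℂ} (hc : c ≠ 0)
    (hlim : Tendsto (fun t => G t / t) (Bornology.cobounded ℂ) (𝓝 c)) {R : ℝ} (hR : 1 < R) :
    Convex ℝ (G '' {t | R < ‖t‖})ᶜ :=
  ExtMap.level_convex ⟨hK, hKc, hne, hG, hinj, himg, hc, hlim⟩ hR

theorem level_support {K : Set ℂ} (hK : IsCompact K) (hKc : Convex ℝ K) (hne : K.Nonempty)
    {G : ℂ → ℂ} (hG : DifferentiableOn ℂ G {t | 1 < ‖t‖}) (hinj : InjOn G {t | 1 < ‖t‖})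
    (himg : G '' {t | 1 < ‖t‖} = Kᶜ) {c : ℂ} (hc : c ≠ 0)
    (hlim : Tendsto (fun t => G t / t) (Bornology.cobounded ℂ) (𝓝 c)) {R : ℝ} (hR : 1 < R)
    {s w : ℂ} (hs : ‖s‖ = R) (hw : w ∉ G '' {t | R < ‖t‖}) :
    0 ≤ (conj (s * deriv G s) * (G s - w)).re :=
  ExtMap.level_support ⟨hK, hKc, hne, hG, hinj, himg, hc, hlim⟩ hR hs hw

theorem level_close {K : Set ℂ} (hK : IsCompact K) (hKc : Convex ℝ K) (hne : K.Nonempty)
    {G : ℂ → ℂ} (hG : DifferentiableOn ℂ G {t | 1 < ‖t‖}) (hinj : InjOn G {t | 1 < ‖t‖})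
    (himg : G '' {t | 1 < ‖t‖} = Kᶜ) {c : ℂ} (hc : c ≠ 0)
    (hlim : Tendsto (fun t => G t / t) (Bornology.cobounded ℂ) (𝓝 c)) {ε : ℝ} (hε : 0 < ε) :
    ∃ R0 > 1, ∀ R, R ≤ R0 → (G '' {t | R < ‖t‖})ᶜ ⊆ cthickening ε K :=
  ExtMap.level_close ⟨hK, hKc, hne, hG, hinj, himg, hc, hlim⟩ hε

end Crest.Agent.R132
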