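import Crest.Agent.R132.Exterior
import Crest.Agent.R132.Level

/-!
# Row 132: approximating domains (piece D5)
-/

set_option autoImplicit false

open Set Filter Metric
open scoped Topology ComplexConjugate

namespace Crest.Agent.R132

/-- For a nonempty compact convex `W` and `ε > 0` there is an analytic convex exterior curve within
`ε` of `W`, in the coordinate `w = 1/t` (`G t = t φ(1/t)`, `psi φ u = φ u - u φ' u`). -/
theorem exists_domain {W : Set ℂ} (hW : IsCompact W) (hWc : Convex ℝ W) (hne : W.Nonempty) {ε : ℝ}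
    (hε : 0 < ε) :
    ∃ (ρ : ℝ) (φ : ℂ → ℂ), 1 < ρ ∧ DifferentiableOn ℂ φ (ball 0 ρ) ∧ φ 0 ≠ 0 ∧
      (∀ u ∈ ball (0 : ℂ) ρ, ∀ v ∈ ball (0 : ℂ) ρ, u ≠ 0 → v ≠ 0 → φ u / u = φ v / v → u = v) ∧
      (∀ u v : ℂ, ‖u‖ = 1 → ‖v‖ = 1 →
        0 ≤ (conj (φ u - u * deriv φ u) * (φ u - u * (φ v / v))).re) ∧
      (∀ w ∈ ball (0 : ℂ) ρ, ∀ z ∈ W, φ w - w * z ≠ 0) ∧
      (∀ z ∈ W, ∀ u : ℂ, ‖u‖ = 1 → 0 ≤ (conj (φ u - u * deriv φ u) * (φ u - u * z)).re) ∧
      (∀ u : ℂ, ‖u‖ = 1 → φ u / u ∈ cthickening ε W) := by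
  set K : Set ℂ := cthickening (ε / 2) W with hKdef
  have hε2 : 0 < ε / 2 := by linarith
  have hK : IsCompact K := hW.cthickening
  have hKc : Convex ℝ K := hWc.cthickening _
  have hWK : W ⊆ K := self_subset_cthickening W
  have hint : (interior K).Nonempty := by
    obtain ⟨z, hz⟩ := hne
    refine ⟨z, interior_mono (thickening_subset_cthickening (ε / 2) W) ?_⟩
    rw [isOpen_thickening.interior_eq]
    exact self_subset_thickening hε2 W hz
  obtain ⟨φ₁, hφ₁, h0, hinj, himg⟩ := exists_exterior_map hK hKc hint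
  set G : ℂ → ℂ := fun t => t * φ₁ t⁻¹ with hGdef
  have hne1 : ∀ t : ℂ, 1 < ‖t‖ → t ≠ 0 := fun t ht h => by rw [h, norm_zero] at ht; linarith
  have hball : ∀ t : ℂ, 1 < ‖t‖ → t⁻¹ ∈ ball (0 : ℂ) 1 := fun t ht => by
    rw [mem_ball, dist_zero_right, norm_inv]; exact inv_lt_one_of_one_lt₀ ht
  have hGder : ∀ t : ℂ, 1 < ‖t‖ → HasDerivAt G (φ₁ t⁻¹ - t⁻¹ * deriv φ₁ t⁻¹) t := by
    intro t ht
    have h1 : HasDerivAt φ₁ (deriv φ₁ t⁻¹) t⁻¹ :=
      (hφ₁.differentiableAt (isOpen_ball.mem_nhds (hball t ht))).hasDerivAt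
    have h2 : HasDerivAt (fun x : ℂ => x⁻¹) (-(t ^ 2)⁻¹) t := hasDerivAt_inv (hne1 t ht)
    have h3 := (hasDerivAt_id t).mul (h1.comp t h2)
    refine h3.congr_deriv ?_
    have := hne1 t ht
    simp only [id, Function.comp_apply, one_mul]
    field_simp
    ring
  have hG : DifferentiableOn ℂ G {t | 1 < ‖t‖} := fun t ht =>
    (hGder t ht).differentiableAt.differentiableWithinAt
  have hlim : Tendsto (fun t => G t / t) (Bornology.cobounded ℂ) (𝓝 (φ₁ 0)) := by
    have hc : ContinuousAt φ₁ 0 :=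
      (hφ₁.differentiableAt (ball_mem_nhds 0 one_pos)).continuousAt
    have h1 : Tendsto (fun t : ℂ => φ₁ t⁻¹) (Bornology.cobounded ℂ) (𝓝 (φ₁ 0)) :=
      hc.tendsto.comp tendsto_inv₀_cobounded
    refine h1.congr' ?_
    have h2 : ∀ᶠ t : ℂ in Bornology.cobounded ℂ, t ≠ 0 := by
      have := (hasBasis_cobounded_norm (E := ℂ)).mem_of_mem (i := 1) trivial
      filter_upwards [this] with t ht
      intro h
      have ht' : (1 : ℝ) ≤ ‖t‖ := ht
      rw [h, norm_zero] at ht'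
      linarith
    filter_upwards [h2] with t ht
    rw [hGdef]
    field_simp
  have hKne : K.Nonempty := hne.mono hWK
  obtain ⟨R₀, hR₀, hclose⟩ := level_close hK hKc hKne hG hinj himg h0 hlim hε2
  have hR1 : 1 < R₀ := hR₀
  have hRpos : 0 < R₀ := by linarith
  have hRne : (R₀ : ℂ) ≠ 0 := by exact_mod_cast hRpos.ne'
  set φ : ℂ → ℂ := fun w => R₀ * φ₁ (w / R₀) with hφdef
  have hdiv : ∀ w ∈ ball (0 : ℂ) R₀, w / R₀ ∈ ball (0 : ℂ) 1 := by
    intro w hw
    rw [mem_ball, dist_zero_right] at hw ⊢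
    rw [norm_div, Complex.norm_real, Real.norm_eq_abs, abs_of_pos hRpos, div_lt_one hRpos]
    exact hw
  -- values of `φ` in terms of `G`
  have hval : ∀ u : ℂ, u ≠ 0 → φ u / u = G (R₀ / u) := by
    intro u hu
    simp only [hφdef, hGdef]
    rw [inv_div]
    ring
  have hnorm : ∀ u : ℂ, u ≠ 0 → ‖(R₀ : ℂ) / u‖ = R₀ / ‖u‖ := by
    intro u _
    rw [norm_div, Complex.norm_real, Real.norm_eq_abs, abs_of_pos hRpos]
  have hgt : ∀ u ∈ ball (0 : ℂ) R₀, u ≠ 0 → (R₀ : ℂ) / u ∈ {t : ℂ | 1 < ‖t‖} := by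
    intro u hu hu0
    change 1 < ‖(R₀ : ℂ) / u‖
    rw [hnorm u hu0, one_lt_div (norm_pos_iff.2 hu0)]
    rwa [mem_ball, dist_zero_right] at hu
  have hψ : ∀ u ∈ ball (0 : ℂ) R₀, φ u - u * deriv φ u
      = R₀ * (φ₁ (u / R₀) - (u / R₀) * deriv φ₁ (u / R₀)) := by
    intro u hu
    have h1 : HasDerivAt φ₁ (deriv φ₁ (u / R₀)) (u / R₀) :=
      (hφ₁.differentiableAt (isOpen_ball.mem_nhds (hdiv u hu))).hasDerivAt
    have h2 : HasDerivAt (fun w : ℂ => w / R₀) (1 / R₀) u := (hasDerivAt_id u).div_const _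
    have h3 : HasDerivAt φ (R₀ * (deriv φ₁ (u / R₀) * (1 / R₀))) u :=
      (h1.comp u h2).const_mul (R₀ : ℂ)
    rw [h3.deriv]
    simp only [hφdef]
    field_simp
  have hone : ∀ u : ℂ, ‖u‖ = 1 → u ∈ ball (0 : ℂ) R₀ ∧ u ≠ 0 := by
    intro u hu
    refine ⟨by rw [mem_ball, dist_zero_right, hu]; exact hR1, fun h => ?_⟩
    rw [h, norm_zero] at hu
    exact zero_ne_one hu
  -- the support inequality
  have hsupp : ∀ u : ℂ, ‖u‖ = 1 → ∀ z : ℂ, z ∉ G '' {t | R₀ < ‖t‖} →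
      0 ≤ (conj (φ u - u * deriv φ u) * (φ u - u * z)).re := by
    intro u hu z hz
    obtain ⟨hub, hu0⟩ := hone u hu
    have hs : ‖(R₀ : ℂ) / u‖ = R₀ := by rw [hnorm u hu0, hu, div_one]
    have h1 := level_support hK hKc hKne hG hinj himg h0 hlim hR1 hs hz
    have hs1 : 1 < ‖(R₀ : ℂ) / u‖ := by rw [hs]; exact hR1
    have hd : ((R₀ : ℂ) / u) * deriv G (R₀ / u) = (φ u - u * deriv φ u) / u := by
      rw [(hGder _ hs1).deriv, hψ u hub, inv_div]
      field_simp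
    rw [hd, ← hval u hu0] at h1
    have h2 : conj ((φ u - u * deriv φ u) / u) * (φ u / u - z)
        = conj (φ u - u * deriv φ u) * (φ u - u * z) := by
      have huu : conj u * u = 1 := by
        rw [mul_comm, Complex.mul_conj, Complex.normSq_eq_norm_sq, hu]; norm_num
      have hcu : conj u ≠ 0 := by
        rw [Ne, map_eq_zero]; exact hu0
      rw [map_div₀]
      have h3 : conj (φ u - u * deriv φ u) / conj u * (φ u / u - z)
          = conj (φ u - u * deriv φ u) * (φ u - u * z) / (conj u * u) := by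
        field_simp
      rw [h3, huu, div_one]
    rwa [h2] at h1
  have hnotmem : ∀ v : ℂ, ‖v‖ = 1 → φ v / v ∉ G '' {t | R₀ < ‖t‖} := by
    intro v hv
    obtain ⟨hvb, hv0⟩ := hone v hv
    rw [hval v hv0]
    rintro ⟨t, ht, hGt⟩
    have ht1 : t ∈ {t : ℂ | 1 < ‖t‖} := lt_trans hR1 ht
    have h1 := hinj ht1 (hgt v hvb hv0) hGt
    have ht' : R₀ < ‖t‖ := ht
    rw [h1, hnorm v hv0, hv, div_one] at ht'
    exact lt_irrefl _ ht'
  refine ⟨R₀, φ, hR1, ?_, ?_, ?_, ?_, ?_, ?_, ?_⟩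
  · intro w hw
    have h1 : DifferentiableAt ℂ φ₁ (w / R₀) :=
      hφ₁.differentiableAt (isOpen_ball.mem_nhds (hdiv w hw))
    have h2 : DifferentiableAt ℂ (fun w : ℂ => w / (R₀ : ℂ)) w :=
      differentiableAt_id.div_const _
    exact ((h1.comp w h2).const_mul (R₀ : ℂ)).differentiableWithinAt
  · simp only [hφdef, zero_div]
    exact mul_ne_zero hRne h0
  · intro u hu v hv hu0 hv0 h
    rw [hval u hu0, hval v hv0] at h
    have h1 := hinj (hgt u hu hu0) (hgt v hv hv0) h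
    have h2 : (R₀ : ℂ) * v = R₀ * u := by
      rw [div_eq_div_iff hu0 hv0] at h1
      exact h1
    exact (mul_left_cancel₀ hRne h2).symm
  · intro u v hu hv
    exact hsupp u hu _ (hnotmem v hv)
  · intro w hw z hz h
    by_cases hw0 : w = 0
    · subst hw0
      simp only [zero_mul, sub_zero, hφdef, zero_div] at h
      exact mul_ne_zero hRne h0 h
    · have h1 : φ w / w = z := by
        rw [sub_eq_zero.1 h, mul_div_cancel_left₀ _ hw0]
      rw [hval w hw0] at h1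
      have h2 : z ∈ Kᶜ := by
        rw [← himg, ← h1]
        exact mem_image_of_mem G (hgt w hw hw0)
      exact h2 (hWK hz)
  · intro z hz u hu
    refine hsupp u hu z ?_
    intro hmem
    have h2 : z ∈ Kᶜ := by
      rw [← himg]
      exact image_mono (fun t ht => lt_trans hR1 ht) hmem
    exact h2 (hWK hz)
  · intro u hu
    have h1 := hclose R₀ le_rfl (hnotmem u hu)
    have h2 := cthickening_cthickening_subset hε2.le hε2.le W h1
    rwa [add_halves] at h2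

end Crest.Agent.R132
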