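import Crest.Agent.R132.E_TH

/-! # R132 piece (E): reduction of S0179 to finite dimension and to thickened numerical ranges. -/

set_option autoImplicit false

open scoped InnerProductSpace

namespace Crest.Agent.R132.E

/-- The operator `P[A]` in coordinates. -/
noncomputable def PA {E : Type*} [NormedAddCommGroup E] [InnerProductSpace ℂ E] {m d : ℕ}
    (A : E →L[ℂ] E) (B : Fin (d + 1) → Matrix (Fin m) (Fin m) ℂ) (v : PiLp 2 (fun _ : Fin m => E)) :
    PiLp 2 (fun _ : Fin m => E) :=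
  WithLp.toLp 2 (fun i : Fin m => ∑ j : Fin m, ∑ k : Fin (d + 1), B k i j • (A ^ (k : ℕ)) (v j))

/-- The matrix polynomial `P(z)`. -/
noncomputable def Pz {m d : ℕ} (B : Fin (d + 1) → Matrix (Fin m) (Fin m) ℂ) (z : ℂ) :
    Matrix (Fin m) (Fin m) ℂ :=
  ∑ k : Fin (d + 1), z ^ (k : ℕ) • B k

/-- Isometric embeddings between `ℓ²` sums. -/
theorem norm_toLp_isometry {E F : Type*} [NormedAddCommGroup E] [InnerProductSpace ℂ E]
    [NormedAddCommGroup F] [InnerProductSpace ℂ F] {m : ℕ} (ι : E →ₗᵢ[ℂ] F) (u : Fin m → E) :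
    ‖(WithLp.toLp 2 (fun i => ι (u i)) : PiLp 2 (fun _ : Fin m => F))‖ =
      ‖(WithLp.toLp 2 u : PiLp 2 (fun _ : Fin m => E))‖ := by
  rw [PiLp.norm_eq_of_L2, PiLp.norm_eq_of_L2]
  simp

theorem main_of_euclidean
    (hfin : ∀ (n : ℕ) (A : EuclideanSpace ℂ (Fin n) →L[ℂ] EuclideanSpace ℂ (Fin n)) (m d : ℕ)
      (B : Fin (d + 1) → Matrix (Fin m) (Fin m) ℂ) (M : ℝ),
      (∀ x : EuclideanSpace ℂ (Fin n), ‖x‖ = 1 →
        ‖Matrix.toEuclideanCLM (n := Fin m) (𝕜 := ℂ) (Pz B (inner ℂ x (A x)))‖ ≤ M) →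
      ∀ v : PiLp 2 (fun _ : Fin m => EuclideanSpace ℂ (Fin n)), ‖PA A B v‖ ≤ 2 * M * ‖v‖)
    {H : Type*} [NormedAddCommGroup H] [InnerProductSpace ℂ H] [CompleteSpace H]
    (A : H →L[ℂ] H) (m d : ℕ) (B : Fin (d + 1) → Matrix (Fin m) (Fin m) ℂ) (M : ℝ)
    (hM : ∀ x : H, ‖x‖ = 1 →
      ‖Matrix.toEuclideanCLM (n := Fin m) (𝕜 := ℂ) (Pz B (inner ℂ x (A x)))‖ ≤ M)
    (v : PiLp 2 (fun _ : Fin m => H)) : ‖PA A B v‖ ≤ 2 * M * ‖v‖ := by
  classical
  -- the finite-dimensional subspace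
  let S : Set H := ⋃ j : Fin m, ⋃ k : Fin (d + 1), {(A ^ (k : ℕ)) (v j)}
  have hS : S.Finite := Set.finite_iUnion fun j => Set.finite_iUnion fun k => Set.finite_singleton _
  let V : Submodule ℂ H := Submodule.span ℂ S
  have hVfin : FiniteDimensional ℂ V := FiniteDimensional.span_of_finite ℂ hS
  let b := stdOrthonormalBasis ℂ V
  let ι : EuclideanSpace ℂ (Fin (Module.finrank ℂ V)) →ₗᵢ[ℂ] H :=
    V.subtypeₗᵢ.comp b.repr.symm.toLinearIsometry
  have hrange : ∀ y ∈ V, ∃ u, ι u = y := by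
    intro y hy
    refine ⟨b.repr ⟨y, hy⟩, ?_⟩
    simp [ι]
  let ιc : EuclideanSpace ℂ (Fin (Module.finrank ℂ V)) →L[ℂ] H := ι.toContinuousLinearMap
  have hιc : ∀ u, ιc u = ι u := fun u => rfl
  have hadj : ∀ u, ιc.adjoint (ι u) = u := by
    intro u
    apply ext_inner_left ℂ
    intro w
    rw [ContinuousLinearMap.adjoint_inner_right, hιc, LinearIsometry.inner_map_map]
  let A' : EuclideanSpace ℂ (Fin (Module.finrank ℂ V)) →L[ℂ]
      EuclideanSpace ℂ (Fin (Module.finrank ℂ V)) := (ιc.adjoint).comp (A.comp ιc)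
  have hA' : ∀ u, A' u = ιc.adjoint (A (ι u)) := fun u => rfl
  have hproj : ∀ y ∈ V, ι (ιc.adjoint y) = y := by
    intro y hy
    obtain ⟨u, rfl⟩ := hrange y hy
    rw [hadj]
  have hmem : ∀ (j : Fin m) (k : ℕ), k ≤ d → (A ^ k) (v j) ∈ V := by
    intro j k hk
    apply Submodule.subset_span
    simp only [S, Set.mem_iUnion, Set.mem_singleton_iff]
    exact ⟨j, ⟨k, by omega⟩, rfl⟩
  let u : Fin m → EuclideanSpace ℂ (Fin (Module.finrank ℂ V)) := fun j => ιc.adjoint (v j)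
  have hu : ∀ j, ι (u j) = v j := fun j => hproj _ (by simpa using hmem j 0 (Nat.zero_le _))
  have hpow : ∀ (j : Fin m) (k : ℕ), k ≤ d → ι ((A' ^ k) (u j)) = (A ^ k) (v j) := by
    intro j k
    induction k with
    | zero => intro _; simpa using hu j
    | succ k ih =>
      intro hk
      have h1 := ih (by omega)
      have e1 : (A' ^ (k + 1)) (u j) = A' ((A' ^ k) (u j)) := by
        rw [pow_succ']; rfl
      have e2 : (A ^ (k + 1)) (v j) = A ((A ^ k) (v j)) := by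
        rw [pow_succ']; rfl
      rw [e1, hA', h1, ← e2]
      exact hproj _ (hmem j (k + 1) hk)
  have hM' : ∀ x : EuclideanSpace ℂ (Fin (Module.finrank ℂ V)), ‖x‖ = 1 →
      ‖Matrix.toEuclideanCLM (n := Fin m) (𝕜 := ℂ) (Pz B (inner ℂ x (A' x)))‖ ≤ M := by
    intro x hx
    have e : inner ℂ x (A' x) = inner ℂ (ι x) (A (ι x)) := by
      rw [hA', ContinuousLinearMap.adjoint_inner_right, hιc]
    rw [e]
    exact hM (ι x) (by rw [ι.norm_map, hx])
  have h := hfin _ A' m d B M hM' (WithLp.toLp 2 u)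
  have e1 : ‖(WithLp.toLp 2 u : PiLp 2 (fun _ : Fin m =>
      EuclideanSpace ℂ (Fin (Module.finrank ℂ V))))‖ = ‖v‖ := by
    rw [← norm_toLp_isometry ι u]
    congr 1
    ext i
    exact hu i
  have e2 : ‖PA A' B (WithLp.toLp 2 u)‖ = ‖PA A B v‖ := by
    unfold PA
    rw [← norm_toLp_isometry ι]
    congr 2
    funext i
    rw [map_sum]
    refine Finset.sum_congr rfl fun j _ => ?_
    rw [map_sum]
    refine Finset.sum_congr rfl fun k _ => ?_
    rw [map_smul]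
    congr 1
    exact hpow j k (by omega)
  rw [e1, e2] at h
  exact h

/-- It is enough to prove the bound when `M` bounds `P` on a neighbourhood of the numerical range. -/
theorem euclidean_of_thick (n : ℕ) (A : EuclideanSpace ℂ (Fin n) →L[ℂ] EuclideanSpace ℂ (Fin n))
    (m d : ℕ) (B : Fin (d + 1) → Matrix (Fin m) (Fin m) ℂ) (M : ℝ)
    (hM : ∀ x : EuclideanSpace ℂ (Fin n), ‖x‖ = 1 →
        ‖Matrix.toEuclideanCLM (n := Fin m) (𝕜 := ℂ) (Pz B (inner ℂ x (A x)))‖ ≤ M)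
    (v : PiLp 2 (fun _ : Fin m => EuclideanSpace ℂ (Fin n)))
    (hthick : 0 < n → ∀ M' : ℝ, 0 < M' → ∀ ε : ℝ, 0 < ε →
      (∀ z ∈ Metric.cthickening ε (nr A.toLinearMap),
        ‖Matrix.toEuclideanCLM (n := Fin m) (𝕜 := ℂ) (Pz B z)‖ ≤ M') →
      ‖PA A B v‖ ≤ 2 * M' * ‖v‖) : ‖PA A B v‖ ≤ 2 * M * ‖v‖ := by
  rcases Nat.eq_zero_or_pos n with hn | hn
  · subst hn
    have h1 : ∀ w : PiLp 2 (fun _ : Fin m => EuclideanSpace ℂ (Fin 0)), w = 0 := by
      intro w
      ext i j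
      exact j.elim0
    rw [h1 (PA A B v), h1 v]
    simp
  · have : Nonempty (Fin n) := ⟨⟨0, hn⟩⟩
    have hnt : Nontrivial (EuclideanSpace ℂ (Fin n)) := inferInstance
    obtain ⟨w, x, hx, hw⟩ := nr_nonempty A.toLinearMap
    have hM0 : 0 ≤ M := (norm_nonneg _).trans (hM x hx)
    have hcont : Continuous fun z : ℂ =>
        ‖Matrix.toEuclideanCLM (n := Fin m) (𝕜 := ℂ) (Pz B z)‖ := by
      have h1 : Continuous fun z : ℂ => Pz B z := by
        unfold Pz
        fun_prop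
      have h2 : Continuous (Matrix.toEuclideanCLM (n := Fin m) (𝕜 := ℂ)) := by
        have := (Matrix.toEuclideanCLM (n := Fin m) (𝕜 := ℂ)).toAlgEquiv.toLinearMap
        exact LinearMap.continuous_of_finiteDimensional
          ((Matrix.toEuclideanCLM (n := Fin m) (𝕜 := ℂ)).toAlgEquiv.toLinearMap)
      exact (h2.comp h1).norm
    -- bound for every δ > 0
    have key : ∀ δ : ℝ, 0 < δ → ‖PA A B v‖ ≤ 2 * (M + δ) * ‖v‖ := by
      intro δ hδ
      have hU : IsOpen {z : ℂ | ‖Matrix.toEuclideanCLM (n := Fin m) (𝕜 := ℂ) (Pz B z)‖ < M + δ} :=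
        isOpen_lt hcont continuous_const
      have hsub : nr A.toLinearMap ⊆
          {z : ℂ | ‖Matrix.toEuclideanCLM (n := Fin m) (𝕜 := ℂ) (Pz B z)‖ < M + δ} := by
        rintro z ⟨x, hx, rfl⟩
        have := hM x hx
        simp only [Set.mem_ofPred_eq]
        exact lt_of_le_of_lt this (by linarith)
      obtain ⟨ε, hε, hsub2⟩ := (isCompact_nr A.toLinearMap).exists_cthickening_subset_open hU hsub
      exact hthick hn (M + δ) (by linarith) ε hε fun z hz => (hsub2 hz).le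
    refine le_of_forall_pos_le_add fun η hη => ?_
    have h1 := key (η / (2 * (‖v‖ + 1))) (by positivity)
    refine h1.trans ?_
    have h2 : 2 * (η / (2 * (‖v‖ + 1))) * ‖v‖ ≤ η := by
      have h3 : 0 ≤ ‖v‖ := norm_nonneg v
      have h4 : 2 * (η / (2 * (‖v‖ + 1))) * ‖v‖ = η * (‖v‖ / (‖v‖ + 1)) := by
        field_simp
      rw [h4]
      have h5 : ‖v‖ / (‖v‖ + 1) ≤ 1 := by
        rw [div_le_one (by positivity)]; linarith
      nlinarith
    nlinarith

end Crest.Agent.R132.E
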