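import Mathlib

/-! # R132 piece (E): Toeplitz–Hausdorff theorem and compactness of the numerical range. -/

set_option autoImplicit false

open scoped InnerProductSpace

namespace Crest.Agent.R132.E

variable {E : Type*} [NormedAddCommGroup E] [InnerProductSpace ℂ E]

/-- The numerical range `{⟨x, A x⟩ : ‖x‖ = 1}` of a linear map. -/
def nr (A : E →ₗ[ℂ] E) : Set ℂ := {z | ∃ x : E, ‖x‖ = 1 ∧ z = inner ℂ x (A x)}

theorem exists_phase (p q : ℂ) : ∃ c : ℂ, ‖c‖ = 1 ∧ ((starRingEnd ℂ c) * p + c * q).im = 0 := by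
  by_cases h : q = (starRingEnd ℂ) p
  · refine ⟨1, by simp, ?_⟩
    subst h
    simp
  · have hne : q - (starRingEnd ℂ) p ≠ 0 := sub_ne_zero.2 h
    have hn : ‖q - (starRingEnd ℂ) p‖ ≠ 0 := norm_ne_zero_iff.2 hne
    refine ⟨(starRingEnd ℂ) (q - (starRingEnd ℂ) p) / (‖q - (starRingEnd ℂ) p‖ : ℂ), ?_, ?_⟩
    · rw [norm_div, RCLike.norm_conj]
      simp [hn]
    · have key : ∀ c : ℂ, ((starRingEnd ℂ c) * p + c * q).im = (c * (q - (starRingEnd ℂ) p)).im := by
        intro c
        simp [Complex.mul_im]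
        ring
      rw [key, div_mul_eq_mul_div, mul_comm ((starRingEnd ℂ) _), Complex.mul_conj]
      rw [← Complex.ofReal_div]
      exact Complex.ofReal_im _

/-- Toeplitz–Hausdorff: the numerical range is convex. -/
theorem convex_nr (A : E →ₗ[ℂ] E) : Convex ℝ (nr A) := by
  rw [convex_iff_segment_subset]
  rintro a ⟨x, hx, rfl⟩ b ⟨y, hy, rfl⟩ w hw
  rw [segment_eq_image] at hw
  obtain ⟨t, ht, rfl⟩ := hw
  simp only
  set a : ℂ := inner ℂ x (A x) with ha
  set b : ℂ := inner ℂ y (A y) with hb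
  by_cases hab : a = b
  · rw [hab, ← add_smul]
    simp only [sub_add_cancel, one_smul]
    exact ⟨y, hy, rfl⟩
  have hba : b - a ≠ 0 := sub_ne_zero.2 (Ne.symm hab)
  -- the sesquilinear form of (A - a) / (b - a)
  set p : ℂ := (inner ℂ x (A y) - a * inner ℂ x y) / (b - a) with hp
  set q : ℂ := (inner ℂ y (A x) - a * inner ℂ y x) / (b - a) with hq
  obtain ⟨c, hc, hk⟩ := exists_phase p q
  set k : ℂ := (starRingEnd ℂ c) * p + c * q with hkdef
  have hcc : (starRingEnd ℂ c) * c = 1 := by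
    rw [mul_comm, Complex.mul_conj, Complex.normSq_eq_norm_sq, hc]; simp
  have hxx : inner ℂ x x = (1 : ℂ) := by rw [inner_self_eq_norm_sq_to_K, hx]; simp
  have hyy : inner ℂ y y = (1 : ℂ) := by rw [inner_self_eq_norm_sq_to_K, hy]; simp
  -- the test vector
  let z : ℝ → E := fun s => (((1 - s : ℝ) : ℂ) * c) • x + ((s : ℝ) : ℂ) • y
  have hzA : ∀ s : ℝ, inner ℂ (z s) (A (z s)) - a * inner ℂ (z s) (z s) =
      (b - a) * ((s ^ 2 : ℝ) + ((1 - s) * s : ℝ) * k) := by
    intro s
    have e1 : inner ℂ x (A x) = a := rfl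
    have e2 : inner ℂ y (A y) = b := rfl
    have e3 : inner ℂ x (A y) = p * (b - a) + a * inner ℂ x y := by
      rw [hp]; field_simp; ring
    have e4 : inner ℂ y (A x) = q * (b - a) + a * inner ℂ y x := by
      rw [hq]; field_simp; ring
    simp only [z, map_add, map_smul, inner_add_left, inner_add_right, inner_smul_left,
      inner_smul_right, map_mul, Complex.conj_ofReal, e1, e2, e3, e4, hxx, hyy]
    rw [hkdef]
    push_cast
    linear_combination (a - a) * hcc
  have hz0 : ∀ s : ℝ, z s ≠ 0 := by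
    intro s hs
    have h1 := hzA s
    rw [hs] at h1
    simp only [map_zero, inner_zero_left, mul_zero, sub_zero] at h1
    -- s = 0 or s = 1 excluded separately, otherwise x and y are proportional
    by_cases hs0 : s = 0
    · subst hs0
      simp only [z] at hs
      simp at hs
      rcases hs with hs | hs
      · rw [hs] at hc; simp at hc
      · rw [hs] at hx; simp at hx
    · -- y = λ x
      have hy' : y = (-(((1 - s : ℝ) : ℂ) * c) / (s : ℂ)) • x := by
        have hsC : (s : ℂ) ≠ 0 := by exact_mod_cast hs0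
        have : ((s : ℝ) : ℂ) • y = -((((1 - s : ℝ) : ℂ) * c) • x) := by
          simp only [z] at hs
          rw [eq_neg_iff_add_eq_zero, add_comm]
          exact hs
        calc y = (s : ℂ)⁻¹ • ((s : ℂ) • y) := by rw [smul_smul, inv_mul_cancel₀ hsC, one_smul]
          _ = _ := by rw [this, smul_neg, smul_smul, ← neg_smul]; congr 1; ring
      set l : ℂ := -(((1 - s : ℝ) : ℂ) * c) / (s : ℂ) with hl
      have hl1 : (starRingEnd ℂ l) * l = 1 := by
        have : inner ℂ y y = (starRingEnd ℂ l) * l * inner ℂ x x := by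
          rw [hy', inner_smul_left, inner_smul_right]; ring
        rw [hyy, hxx, mul_one] at this
        exact this.symm
      apply hab
      rw [hb, hy', map_smul, inner_smul_left, inner_smul_right, ← mul_assoc, hl1, one_mul]
  have hzc : Continuous z := by
    simp only [z]
    fun_prop
  let F : ℝ → ℝ := fun s => (s ^ 2 + (1 - s) * s * k.re) / ‖z s‖ ^ 2
  have hF : Continuous F := by
    refine Continuous.div (by fun_prop) (by fun_prop) ?_
    intro s
    exact pow_ne_zero 2 (norm_ne_zero_iff.2 (hz0 s))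
  have hF0 : F 0 = 0 := by simp [F]
  have hF1 : F 1 = 1 := by
    simp [F, z, hy]
  obtain ⟨s, _, hs⟩ : t ∈ F '' Set.Icc 0 1 := by
    have := intermediate_value_Icc (zero_le_one' ℝ) hF.continuousOn
    rw [hF0, hF1] at this
    exact this ht
  -- normalise
  have hn : (‖z s‖ : ℂ) ≠ 0 := by exact_mod_cast norm_ne_zero_iff.2 (hz0 s)
  refine ⟨((‖z s‖ : ℂ)⁻¹) • z s, ?_, ?_⟩
  · rw [norm_smul]
    have : ‖z s‖ ≠ 0 := norm_ne_zero_iff.2 (hz0 s)
    simp [this]
  · have h1 := hzA s
    have hkr : k = (k.re : ℂ) := by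
      apply Complex.ext <;> simp [hk]
    have hzz : inner ℂ (z s) (z s) = (‖z s‖ : ℂ) ^ 2 := by
      rw [inner_self_eq_norm_sq_to_K]; rfl
    have h2 : inner ℂ (z s) (A (z s)) = a * (‖z s‖ : ℂ) ^ 2 +
        (b - a) * ((s ^ 2 : ℝ) + ((1 - s) * s : ℝ) * (k.re : ℂ)) := by
      rw [← hkr, ← hzz, ← h1]; ring
    have h3 : ((s ^ 2 + (1 - s) * s * k.re : ℝ) : ℂ) = (t : ℂ) * (‖z s‖ : ℂ) ^ 2 := by
      have h4 : s ^ 2 + (1 - s) * s * k.re = t * ‖z s‖ ^ 2 := by
        rw [← hs]
        simp only [F]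
        field_simp [norm_ne_zero_iff.2 (hz0 s)]
      exact_mod_cast congrArg (fun r : ℝ => (r : ℂ)) h4
    rw [map_smul, inner_smul_left, inner_smul_right, h2, map_inv₀, Complex.conj_ofReal]
    have h5 : (((s ^ 2 : ℝ) : ℂ) + ((1 - s) * s : ℝ) * (k.re : ℂ)) = (t : ℂ) * (‖z s‖ : ℂ) ^ 2 := by
      rw [← h3]; push_cast; ring
    rw [h5]
    simp only [Complex.real_smul]
    field_simp
    push_cast
    ring

theorem isCompact_nr [FiniteDimensional ℂ E] (A : E →ₗ[ℂ] E) : IsCompact (nr A) := by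
  have : ProperSpace E := FiniteDimensional.proper ℂ E
  have h : nr A = (fun x : E => inner ℂ x (A x)) '' Metric.sphere (0 : E) 1 := by
    ext z
    simp only [nr, Set.mem_ofPred_eq, Set.mem_image, mem_sphere_zero_iff_norm]
    constructor
    · rintro ⟨x, hx, rfl⟩; exact ⟨x, hx, rfl⟩
    · rintro ⟨x, hx, rfl⟩; exact ⟨x, hx, rfl⟩
  rw [h]
  refine (isCompact_sphere _ _).image ?_
  exact continuous_id.inner A.continuous_of_finiteDimensional

theorem nr_nonempty [Nontrivial E] (A : E →ₗ[ℂ] E) : (nr A).Nonempty := by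
  obtain ⟨x, hx⟩ := exists_ne (0 : E)
  have hn : ‖x‖ ≠ 0 := norm_ne_zero_iff.2 hx
  exact ⟨_, ((‖x‖ : ℂ)⁻¹) • x, by rw [norm_smul]; simp [hn], rfl⟩

end Crest.Agent.R132.E
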