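import Crest.Agent.Lib.RiemannMap
import Crest.Agent.Lib.InjHolo

/-!
# Row 132: exterior conformal map of a compact convex body (in the coordinate `w = 1/t`)
-/

set_option autoImplicit false

open Set Filter Metric
open scoped Topology

namespace Crest.Agent.R132

/-- the inversion domain `{w | w = 0 ∨ z₀ + 1/w ∉ K}` -/
def invDom (K : Set ℂ) (z₀ : ℂ) : Set ℂ := {w | w = 0 ∨ z₀ + w⁻¹ ∉ K}

theorem zero_mem_invDom (K : Set ℂ) (z₀ : ℂ) : (0 : ℂ) ∈ invDom K z₀ := Or.inl rfl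

theorem starConvex_invDom {K : Set ℂ} (hKc : Convex ℝ K) {z₀ : ℂ} (hz₀ : z₀ ∈ K) :
    StarConvex ℝ 0 (invDom K z₀) := by
  rw [starConvex_zero_iff]
  intro w hw s hs0 hs1
  rcases eq_or_lt_of_le hs0 with h0 | h0
  · left; rw [← h0, zero_smul]
  rcases hw with hw | hw
  · left; rw [hw, smul_zero]
  · right
    intro hmem
    apply hw
    have h1 := hKc hz₀ hmem (sub_nonneg.2 hs1) hs0 (by ring)
    have h2 : (1 - s) • z₀ + s • (z₀ + (s • w)⁻¹) = z₀ + w⁻¹ := by
      have hs : (s : ℂ) ≠ 0 := by exact_mod_cast h0.ne'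
      by_cases hw0 : w = 0
      · subst hw0
        simp only [smul_zero, inv_zero, add_zero, Complex.real_smul]
        push_cast; ring
      · simp only [Complex.real_smul]
        push_cast
        field_simp
        ring
    rwa [h2] at h1

theorem isOpen_invDom {K : Set ℂ} (hK : IsCompact K) {z₀ : ℂ} : IsOpen (invDom K z₀) := by
  rw [isOpen_iff_mem_nhds]
  intro w hw
  by_cases hw0 : w = 0
  · subst hw0
    obtain ⟨M, hM⟩ := hK.isBounded.subset_closedBall z₀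
    have hM1 : 0 < max M 1 := lt_of_lt_of_le one_pos (le_max_right _ _)
    refine Filter.mem_of_superset (ball_mem_nhds (0 : ℂ) (inv_pos.2 hM1)) ?_
    intro x hx
    by_cases hx0 : x = 0
    · left; exact hx0
    · right
      intro hmem
      have h1 := hM hmem
      rw [mem_closedBall, dist_eq_norm, add_sub_cancel_left, norm_inv] at h1
      rw [mem_ball, dist_zero_right] at hx
      have h2 : max M 1 < ‖x‖⁻¹ := by
        rw [lt_inv_comm₀ hM1 (norm_pos_iff.2 hx0)]; exact hx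
      exact absurd (h1.trans (le_max_left _ _)) (not_le.2 h2)
  · have hw1 : z₀ + w⁻¹ ∉ K := hw.resolve_left hw0
    have hcont : ContinuousAt (fun x : ℂ => z₀ + x⁻¹) w :=
      continuousAt_const.add (continuousAt_inv₀ hw0)
    have h1 : ∀ᶠ x in 𝓝 w, z₀ + x⁻¹ ∈ Kᶜ := hcont.eventually (hK.isClosed.isOpen_compl.mem_nhds hw1)
    filter_upwards [h1] with x hx
    exact Or.inr hx

theorem invDom_ne_univ {K : Set ℂ} {z₀ : ℂ} (hz₀ : z₀ ∈ interior K) : invDom K z₀ ≠ univ := by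
  obtain ⟨ε, hε, hb⟩ := Metric.mem_nhds_iff.1 (mem_interior_iff_mem_nhds.1 hz₀)
  intro h
  have h1 : ((ε / 2 : ℝ) : ℂ)⁻¹ ∈ invDom K z₀ := by rw [h]; trivial
  have hne : ((ε / 2 : ℝ) : ℂ) ≠ 0 := by
    rw [Ne, Complex.ofReal_eq_zero]; linarith
  rcases h1 with h1 | h1
  · exact hne (inv_eq_zero.1 h1)
  · apply h1
    rw [inv_inv]
    apply hb
    rw [mem_ball, dist_eq_norm, add_sub_cancel_left, Complex.norm_real, Real.norm_eq_abs,
      abs_of_pos (by linarith)]
    linarith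

theorem isSimplyConnected_invDom {K : Set ℂ} (hKc : Convex ℝ K) {z₀ : ℂ} (hz₀ : z₀ ∈ K) :
    IsSimplyConnected (invDom K z₀) := by
  have : ContractibleSpace (invDom K z₀) :=
    (starConvex_invDom hKc hz₀).contractibleSpace ⟨0, zero_mem_invDom K z₀⟩
  exact SimplyConnectedSpace.ofContractible _

/-- The exterior map of a compact convex body: `G t = t * φ (1/t)`. -/
theorem exists_exterior_map {K : Set ℂ} (hK : IsCompact K) (hKc : Convex ℝ K)
    (hint : (interior K).Nonempty) :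
    ∃ φ : ℂ → ℂ, DifferentiableOn ℂ φ (ball 0 1) ∧ φ 0 ≠ 0 ∧
      InjOn (fun t : ℂ => t * φ t⁻¹) {t : ℂ | 1 < ‖t‖} ∧
      (fun t : ℂ => t * φ t⁻¹) '' {t : ℂ | 1 < ‖t‖} = Kᶜ := by
  obtain ⟨z₀, hz₀⟩ := hint
  have hz₀K : z₀ ∈ K := interior_subset hz₀
  obtain ⟨f, hf, hinj, himg, hf0⟩ := Lib.RiemannMap.riemann_mapping (isOpen_invDom hK)
    (isSimplyConnected_invDom hKc hz₀K) (invDom_ne_univ hz₀) (zero_mem_invDom K z₀)
  obtain ⟨ψ, hψ, hψinj, hψimg, hψf, hfψ⟩ :=
    Lib.exists_holomorphic_inverse (isOpen_invDom hK) hf hinj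
  rw [himg] at hψ hψinj hψimg hfψ
  have hψ0 : ψ 0 = 0 := by
    have := hψf 0 (zero_mem_invDom K z₀)
    rwa [hf0] at this
  have h0b : (0 : ℂ) ∈ ball (0 : ℂ) 1 := mem_ball_self one_pos
  have hψne : ∀ w ∈ ball (0 : ℂ) 1, w ≠ 0 → ψ w ≠ 0 := by
    intro w hw hw0 h
    exact hw0 (hψinj hw h0b (h.trans hψ0.symm))
  have hds : ∀ w ∈ ball (0 : ℂ) 1, dslope ψ 0 w ≠ 0 := by
    intro w hw
    by_cases hw0 : w = 0
    · subst hw0
      rw [dslope_same]
      exact Lib.deriv_ne_zero_of_injOn isOpen_ball hψ hψinj h0b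
    · rw [dslope_of_ne _ hw0, slope_def_field, hψ0, sub_zero, sub_zero]
      exact div_ne_zero (hψne w hw hw0) hw0
  have hdsd : DifferentiableOn ℂ (dslope ψ 0) (ball 0 1) :=
    (Complex.differentiableOn_dslope (ball_mem_nhds 0 one_pos)).2 hψ
  have hG : ∀ t : ℂ, 1 < ‖t‖ → t * (t⁻¹ * z₀ + (dslope ψ 0 t⁻¹)⁻¹) = z₀ + (ψ t⁻¹)⁻¹ := by
    intro t ht
    have ht0 : t ≠ 0 := fun h => by rw [h, norm_zero] at ht; linarith
    have htb : t⁻¹ ∈ ball (0 : ℂ) 1 := by
      rw [mem_ball, dist_zero_right, norm_inv]; exact inv_lt_one_of_one_lt₀ ht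
    have hti : t⁻¹ ≠ 0 := inv_ne_zero ht0
    have h1 := hψne _ htb hti
    rw [dslope_of_ne _ hti, slope_def_field, hψ0, sub_zero, sub_zero]
    field_simp
  refine ⟨fun w => w * z₀ + (dslope ψ 0 w)⁻¹, ?_, ?_, ?_, ?_⟩
  · exact (differentiableOn_id.mul_const z₀).add (hdsd.inv hds)
  · simp only [zero_mul, zero_add]
    exact inv_ne_zero (hds 0 h0b)
  · intro s hs t ht hst
    simp only at hst
    rw [hG s hs, hG t ht] at hst
    have h1 : ψ s⁻¹ = ψ t⁻¹ := inv_injective (add_left_cancel hst)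
    have hsb : s⁻¹ ∈ ball (0 : ℂ) 1 := by
      rw [mem_ball, dist_zero_right, norm_inv]; exact inv_lt_one_of_one_lt₀ hs
    have htb : t⁻¹ ∈ ball (0 : ℂ) 1 := by
      rw [mem_ball, dist_zero_right, norm_inv]; exact inv_lt_one_of_one_lt₀ ht
    exact inv_injective (hψinj hsb htb h1)
  · ext z
    constructor
    · rintro ⟨t, ht, rfl⟩
      have ht1 : 1 < ‖t‖ := ht
      simp only
      rw [hG t ht]
      have ht0 : t ≠ 0 := fun h => by rw [h, norm_zero] at ht1; linarith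
      have htb : t⁻¹ ∈ ball (0 : ℂ) 1 := by
        rw [mem_ball, dist_zero_right, norm_inv]; exact inv_lt_one_of_one_lt₀ ht1
      have h1 : ψ t⁻¹ ∈ invDom K z₀ := by rw [← hψimg]; exact mem_image_of_mem ψ htb
      exact h1.resolve_left (hψne _ htb (inv_ne_zero ht0))
    · intro hz
      have hzz : z - z₀ ≠ 0 := fun h => hz (by rw [sub_eq_zero.1 h]; exact hz₀K)
      have h1 : (z - z₀)⁻¹ ∈ invDom K z₀ := by
        right; rw [inv_inv, add_sub_cancel]; exact hz
      rw [← hψimg] at h1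
      obtain ⟨w, hw, hww⟩ := h1
      have hw0 : w ≠ 0 := by
        intro h
        rw [h, hψ0] at hww
        exact inv_ne_zero hzz hww.symm
      have hwn : 0 < ‖w‖ := norm_pos_iff.2 hw0
      have hw1 : ‖w‖ < 1 := by rwa [mem_ball, dist_zero_right] at hw
      have ht : 1 < ‖w⁻¹‖ := by rw [norm_inv]; exact (one_lt_inv₀ hwn).2 hw1
      refine ⟨w⁻¹, ht, ?_⟩
      simp only
      rw [hG _ ht, inv_inv, hww, inv_inv, add_sub_cancel]

end Crest.Agent.R132
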