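import Mathlib

set_option autoImplicit false
open scoped ComplexOrder Matrix

namespace Crest.Agent.R132.F

/-- Euclidean norm of a coordinate vector. -/
noncomputable def nrm {ι : Type*} [Fintype ι] (v : ι → ℂ) : ℝ :=
  ‖(WithLp.toLp 2 v : EuclideanSpace ℂ ι)‖

theorem nrm_sq {ι : Type*} [Fintype ι] (v : ι → ℂ) : nrm v ^ 2 = ∑ i, ‖v i‖ ^ 2 := by
  simp [nrm, EuclideanSpace.norm_sq_eq]

theorem nrm_nonneg {ι : Type*} [Fintype ι] (v : ι → ℂ) : 0 ≤ nrm v := norm_nonneg _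

theorem nrm_add_le {ι : Type*} [Fintype ι] (v w : ι → ℂ) : nrm (v + w) ≤ nrm v + nrm w := by
  unfold nrm
  rw [WithLp.toLp_add]
  exact norm_add_le _ _

theorem nrm_smul {ι : Type*} [Fintype ι] (c : ℂ) (v : ι → ℂ) : nrm (c • v) = ‖c‖ * nrm v := by
  unfold nrm
  rw [WithLp.toLp_smul, norm_smul]

theorem nrm_sq_eq_dot {ι : Type*} [Fintype ι] (v : ι → ℂ) :
    ((nrm v ^ 2 : ℝ) : ℂ) = star v ⬝ᵥ v := by
  rw [nrm_sq]
  push_cast
  simp only [dotProduct, Pi.star_apply]
  refine Finset.sum_congr rfl fun i _ => ?_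
  exact (Complex.conj_mul' (v i)).symm

/-- Douglas lemma: equal Gramians are related by an isometry. -/
theorem exists_isometry_mul {ι κ : Type*} [Fintype ι] [DecidableEq ι] [Fintype κ] [DecidableEq κ]
    (P Q : Matrix ι κ ℂ) (h : Pᴴ * P = Qᴴ * Q) :
    ∃ W : Matrix ι ι ℂ, W * Q = P ∧ ∀ v : ι → ℂ, nrm (W *ᵥ v) = nrm v := by
  classical
  set p : EuclideanSpace ℂ κ →ₗ[ℂ] EuclideanSpace ℂ ι := Matrix.toEuclideanLin P with hp
  set q : EuclideanSpace ℂ κ →ₗ[ℂ] EuclideanSpace ℂ ι := Matrix.toEuclideanLin Q with hq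
  have hpq : ∀ x, ‖p x‖ = ‖q x‖ := by
    intro x
    have h1 : ∀ (M : Matrix ι κ ℂ), ((‖Matrix.toEuclideanLin M x‖ ^ 2 : ℝ) : ℂ)
        = star (WithLp.ofLp x) ⬝ᵥ ((Mᴴ * M) *ᵥ (WithLp.ofLp x)) := by
      intro M
      have : ‖Matrix.toEuclideanLin M x‖ = nrm (M *ᵥ (WithLp.ofLp x)) := rfl
      rw [this, nrm_sq_eq_dot, Matrix.star_mulVec, ← Matrix.dotProduct_mulVec,
        Matrix.mulVec_mulVec]
    have h2 : ((‖p x‖ ^ 2 : ℝ) : ℂ) = ((‖q x‖ ^ 2 : ℝ) : ℂ) := by
      rw [hp, hq, h1, h1, h]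
    have h3 : ‖p x‖ ^ 2 = ‖q x‖ ^ 2 := by exact_mod_cast h2
    exact (pow_left_inj₀ (norm_nonneg _) (norm_nonneg _) (by norm_num)).1 h3
  obtain ⟨g, hg⟩ := q.rangeRestrict.exists_rightInverse_of_surjective
    (LinearMap.range_rangeRestrict q)
  have hqg : ∀ s : LinearMap.range q, q (g s) = s := by
    intro s
    have := congrArg (fun f => (f s : EuclideanSpace ℂ ι)) hg
    simpa using this
  let L : LinearMap.range q →ₗᵢ[ℂ] EuclideanSpace ℂ ι :=
    { toLinearMap := p ∘ₗ g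
      norm_map' := by
        intro s
        show ‖p (g s)‖ = ‖s‖
        rw [hpq, hqg]
        rfl }
  have hL : ∀ x, L.extend (q x) = p x := by
    intro x
    have h1 := L.extend_apply ⟨q x, LinearMap.mem_range_self q x⟩
    have h2 : L ⟨q x, LinearMap.mem_range_self q x⟩ = p (g ⟨q x, LinearMap.mem_range_self q x⟩) := rfl
    rw [h2] at h1
    rw [show ((⟨q x, LinearMap.mem_range_self q x⟩ : LinearMap.range q) : EuclideanSpace ℂ ι) = q x
      from rfl] at h1
    rw [h1]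
    have h3 : ‖p (g ⟨q x, LinearMap.mem_range_self q x⟩ - x)‖ = 0 := by
      rw [hpq, map_sub, hqg]
      simp
    rw [map_sub, norm_eq_zero, sub_eq_zero] at h3
    exact h3
  refine ⟨Matrix.toEuclideanLin.symm (L.extend.toLinearMap), ?_, ?_⟩
  · apply Matrix.toEuclideanLin.injective
    ext1 x
    have := hL x
    have h6 : Matrix.toEuclideanLin (Matrix.toEuclideanLin.symm L.extend.toLinearMap * Q) x
        = (WithLp.toLp 2 ((Matrix.toEuclideanLin.symm (L.extend.toLinearMap)) *ᵥ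
            (WithLp.ofLp (q x))) : EuclideanSpace ℂ ι) := by
      show (WithLp.toLp 2 ((Matrix.toEuclideanLin.symm L.extend.toLinearMap * Q) *ᵥ
        (WithLp.ofLp x)) : EuclideanSpace ℂ ι) = _
      rw [← Matrix.mulVec_mulVec]
      rfl
    rw [h6]
    have h4 : ∀ v : EuclideanSpace ℂ ι, (WithLp.toLp 2
      ((Matrix.toEuclideanLin.symm (L.extend.toLinearMap)) *ᵥ (WithLp.ofLp v)) : EuclideanSpace ℂ ι)
        = L.extend v := by
      intro v
      have h5 : (WithLp.toLp 2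
        ((Matrix.toEuclideanLin.symm (L.extend.toLinearMap)) *ᵥ (WithLp.ofLp v)) :
          EuclideanSpace ℂ ι)
          = Matrix.toEuclideanLin (Matrix.toEuclideanLin.symm (L.extend.toLinearMap)) v := rfl
      rw [h5]
      simp
    exact (h4 (q x)).trans this
  · intro v
    have h4 : (WithLp.toLp 2
      ((Matrix.toEuclideanLin.symm (L.extend.toLinearMap)) *ᵥ v) : EuclideanSpace ℂ ι)
        = L.extend (WithLp.toLp 2 v) := by
      have h5 : (WithLp.toLp 2
        ((Matrix.toEuclideanLin.symm (L.extend.toLinearMap)) *ᵥ v) : EuclideanSpace ℂ ι)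
          = Matrix.toEuclideanLin (Matrix.toEuclideanLin.symm (L.extend.toLinearMap))
            (WithLp.toLp 2 v) := rfl
      rw [h5]
      simp
    unfold nrm
    rw [h4]
    exact L.extend.norm_map _

end Crest.Agent.R132.F
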