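import Mathlib
import Crest.Agent.R132.FDual1

set_option autoImplicit false
open scoped ComplexOrder Matrix

namespace Crest.Agent.R132.F

/-- Frobenius norm of a matrix. -/
noncomputable def fro {ι κ : Type*} [Fintype ι] [Fintype κ] (y : Matrix ι κ ℂ) : ℝ :=
  nrm (fun p : ι × κ => y p.1 p.2)

theorem fro_sq {ι κ : Type*} [Fintype ι] [Fintype κ] (y : Matrix ι κ ℂ) :
    fro y ^ 2 = ∑ i, ∑ j, ‖y i j‖ ^ 2 := by
  rw [fro, nrm_sq, Fintype.sum_prod_type]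

theorem fro_nonneg {ι κ : Type*} [Fintype ι] [Fintype κ] (y : Matrix ι κ ℂ) : 0 ≤ fro y :=
  nrm_nonneg _

theorem fro_add_le {ι κ : Type*} [Fintype ι] [Fintype κ] (y z : Matrix ι κ ℂ) :
    fro (y + z) ≤ fro y + fro z := by
  unfold fro
  exact nrm_add_le (fun p : ι × κ => y p.1 p.2) (fun p : ι × κ => z p.1 p.2)

theorem fro_smul {ι κ : Type*} [Fintype ι] [Fintype κ] (c : ℂ) (y : Matrix ι κ ℂ) :
    fro (c • y) = ‖c‖ * fro y := by
  unfold fro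
  exact nrm_smul c (fun p : ι × κ => y p.1 p.2)

theorem fro_sq_eq_trace {ι κ : Type*} [Fintype ι] [Fintype κ] (y : Matrix ι κ ℂ) :
    ((fro y ^ 2 : ℝ) : ℂ) = (yᴴ * y).trace := by
  rw [fro_sq]
  push_cast
  simp only [Matrix.trace, Matrix.diag_apply, Matrix.mul_apply, Matrix.conjTranspose_apply]
  rw [Finset.sum_comm]
  refine Finset.sum_congr rfl fun i _ => Finset.sum_congr rfl fun j _ => ?_
  exact (Complex.conj_mul' (y j i)).symm

/-- coefficients of the transfer function -/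
noncomputable def theta {ι : Type*} [Fintype ι] [DecidableEq ι] (a b c d : Matrix ι ι ℂ) :
    ℕ → Matrix ι ι ℂ
  | 0 => d
  | (k + 1) => c * a ^ k * b

theorem transfer_bound {ι : Type*} [Fintype ι] [DecidableEq ι] (a b c d : Matrix ι ι ℂ)
    (hW : ∀ u v : ι → ℂ, nrm (a *ᵥ u + b *ᵥ v) ^ 2 + nrm (c *ᵥ u + d *ᵥ v) ^ 2
      = nrm u ^ 2 + nrm v ^ 2) (ρ : ℝ) (h0 : 0 < ρ) (h1 : ρ < 1) (N : ℕ) (s : ℂ) (hs : ‖s‖ ≤ ρ)
    (y : ι → ℂ) :
    nrm ((∑ k ∈ Finset.range (N + 1), s ^ k • theta a b c d k) *ᵥ y) ^ 2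
      ≤ (1 + ρ ^ (2 * N) / (1 - ρ ^ 2)) * nrm y ^ 2 := by
  have ha : ∀ u : ι → ℂ, nrm (a *ᵥ u) ≤ nrm u := by
    intro u
    have := hW u 0
    simp only [Matrix.mulVec_zero, add_zero] at this
    have h2 : nrm (0 : ι → ℂ) = 0 := by simp [nrm]
    rw [h2] at this
    have h3 := sq_nonneg (nrm (c *ᵥ u))
    exact abs_le_of_sq_le_sq' (by nlinarith) (nrm_nonneg u) |>.2
  have hb : ∀ u : ι → ℂ, nrm (b *ᵥ u) ≤ nrm u := by
    intro u
    have := hW 0 u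
    simp only [Matrix.mulVec_zero, zero_add] at this
    have h2 : nrm (0 : ι → ℂ) = 0 := by simp [nrm]
    rw [h2] at this
    have h3 := sq_nonneg (nrm (d *ᵥ u))
    exact abs_le_of_sq_le_sq' (by nlinarith) (nrm_nonneg u) |>.2
  have hak : ∀ k, ∀ u : ι → ℂ, nrm (a ^ k *ᵥ u) ≤ nrm u := by
    intro k
    induction k with
    | zero => intro u; simp
    | succ k ih =>
      intro u
      rw [pow_succ, ← Matrix.mulVec_mulVec]
      exact (ih _).trans (ha u)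
  set Z : ℕ → Matrix ι ι ℂ := fun N => ∑ k ∈ Finset.range N, s ^ k • (a ^ k * b) with hZ
  have hZs : ∀ N, Z (N + 1) = Z N + s ^ N • (a ^ N * b) := fun N => by
    simp [hZ, Finset.sum_range_succ]
  have hZ1 : ∀ N, a * (s • Z N) + b = Z (N + 1) := by
    intro N
    induction N with
    | zero => simp [hZ]
    | succ N ih =>
      have e : a * (s • Z (N + 1)) + b
          = (a * (s • Z N) + b) + s ^ (N + 1) • (a ^ (N + 1) * b) := by
        rw [hZs N, smul_add, mul_add, pow_succ' s, pow_succ' a]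
        simp only [smul_smul, Matrix.mul_smul, Matrix.mul_assoc]
        abel
      rw [e, ih, hZs (N + 1)]
  have hP : ∀ N, c * (s • Z N) + d = ∑ k ∈ Finset.range (N + 1), s ^ k • theta a b c d k := by
    intro N
    induction N with
    | zero => simp [hZ, theta]
    | succ N ih =>
      rw [Finset.sum_range_succ, ← ih, hZs N]
      simp only [theta, smul_smul, Matrix.mul_smul, Matrix.mul_assoc, smul_add, mul_add, pow_succ' s]
      abel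
  have key := hW (s • (Z N *ᵥ y)) y
  have e1 : a *ᵥ (s • (Z N *ᵥ y)) + b *ᵥ y = Z (N + 1) *ᵥ y := by
    rw [← hZ1, Matrix.add_mulVec, ← Matrix.mulVec_mulVec, Matrix.smul_mulVec]
  have e2 : c *ᵥ (s • (Z N *ᵥ y)) + d *ᵥ y
      = (∑ k ∈ Finset.range (N + 1), s ^ k • theta a b c d k) *ᵥ y := by
    rw [← hP, Matrix.add_mulVec, ← Matrix.mulVec_mulVec, Matrix.smul_mulVec]
  rw [e1, e2, nrm_smul] at key
  -- compare Z N y and Z (N+1) y
  have e3 : Z N *ᵥ y = Z (N + 1) *ᵥ y + (-(s ^ N)) • ((a ^ N * b) *ᵥ y) := by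
    rw [hZs, Matrix.add_mulVec, Matrix.smul_mulVec]
    simp
  have e4 : nrm (Z N *ᵥ y) ≤ nrm (Z (N + 1) *ᵥ y) + ρ ^ N * nrm y := by
    rw [e3]
    refine (nrm_add_le _ _).trans ?_
    gcongr
    rw [nrm_smul, norm_neg, norm_pow, ← Matrix.mulVec_mulVec]
    gcongr
    · exact nrm_nonneg _
    · exact (hak N _).trans (hb y)
  set t := nrm (Z N *ᵥ y)
  set t' := nrm (Z (N + 1) *ᵥ y)
  set Y := nrm y
  have ht : 0 ≤ t := nrm_nonneg _
  have ht' : 0 ≤ t' := nrm_nonneg _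
  have hY : 0 ≤ Y := nrm_nonneg _
  have h1ρ : 0 < 1 - ρ ^ 2 := by nlinarith
  have e5 : (‖s‖ * t) ^ 2 ≤ ρ ^ 2 * (t' + ρ ^ N * Y) ^ 2 := by
    rw [mul_pow]
    gcongr
  have e6 : ρ ^ 2 * (t' + ρ ^ N * Y) ^ 2 ≤ t' ^ 2 + (ρ ^ N * Y) ^ 2 / (1 - ρ ^ 2) := by
    have e7 : t' ^ 2 + (ρ ^ N * Y) ^ 2 / (1 - ρ ^ 2) - ρ ^ 2 * (t' + ρ ^ N * Y) ^ 2
        = (((1 - ρ ^ 2) * t' - ρ ^ 2 * (ρ ^ N * Y)) ^ 2
          + (1 - ρ ^ 2) * (ρ ^ N * Y) ^ 2) / (1 - ρ ^ 2) := by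
      field_simp
      ring
    have e8 : 0 ≤ (((1 - ρ ^ 2) * t' - ρ ^ 2 * (ρ ^ N * Y)) ^ 2
          + (1 - ρ ^ 2) * (ρ ^ N * Y) ^ 2) / (1 - ρ ^ 2) := by positivity
    linarith
  have e9 : (ρ ^ N * Y) ^ 2 / (1 - ρ ^ 2) = ρ ^ (2 * N) / (1 - ρ ^ 2) * Y ^ 2 := by
    rw [mul_pow, ← pow_mul, mul_comm N 2]
    ring
  nlinarith

end Crest.Agent.R132.F
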