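import Mathlib
import Crest.Agent.R132.FDual2

set_option autoImplicit false
open scoped ComplexOrder Matrix

namespace Crest.Agent.R132.F

/-- Complete polynomial bound with constant `C` for `T` (in vectorised form). -/
def CPB {n : ℕ} (T : Matrix (Fin n) (Fin n) ℂ) (C : ℝ) : Prop :=
  ∀ (m N : ℕ) (B : ℕ → Matrix (Fin m) (Fin m) ℂ) (M : ℝ), 0 ≤ M →
    (∀ s : ℂ, ‖s‖ ≤ 1 → ∀ v : Fin m → ℂ,
      nrm ((∑ k ∈ Finset.range N, s ^ k • B k) *ᵥ v) ≤ M * nrm v) →
    ∀ y : Matrix (Fin m) (Fin n) ℂ,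
      fro (∑ k ∈ Finset.range N, B k * y * (Tᵀ) ^ k) ≤ C * M * fro y

section
open scoped MatrixOrder
theorem exists_gram {n : ℕ} (A : Matrix (Fin n) (Fin n) ℂ) (hA : A.PosSemidef) :
    ∃ B : Matrix (Fin n) (Fin n) ℂ, A = Bᴴ * B := by
  refine ⟨CFC.sqrt A, ?_⟩
  have h1 : (CFC.sqrt A).PosSemidef := Matrix.nonneg_iff_posSemidef.1 (CFC.sqrt_nonneg A)
  rw [h1.isHermitian.eq]
  exact (CFC.sqrt_mul_sqrt_self A hA.nonneg).symm
end

theorem iterate_identity {ι κ : Type*} [Fintype ι] [DecidableEq ι] [Fintype κ] [DecidableEq κ]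
    (a b c d : Matrix ι ι ℂ) (x y z : Matrix ι κ ℂ) (t : Matrix κ κ ℂ)
    (hz : z = a * z * t + b * y) (hx : x = c * z * t + d * y) (N : ℕ) :
    x = (∑ k ∈ Finset.range (N + 1), theta a b c d k * y * t ^ k) + c * a ^ N * z * t ^ (N + 1) := by
  induction N with
  | zero =>
    simp [theta]
    rw [add_comm]
    exact hx
  | succ N ih =>
    have e : c * a ^ N * z * t ^ (N + 1)
        = c * a ^ (N + 1) * z * t ^ (N + 1 + 1) + theta a b c d (N + 1) * y * t ^ (N + 1) := by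
      conv_lhs => rw [hz]
      simp only [theta, pow_succ' t, pow_succ a, Matrix.mul_add, Matrix.add_mul, Matrix.mul_assoc]
    rw [Finset.sum_range_succ]
    rw [e] at ih
    rw [ih]
    abel

theorem fro_le_of_CPB {n : ℕ} (T : Matrix (Fin n) (Fin n) ℂ) (C : ℝ) (hC : 0 ≤ C) (hT : CPB T C)
    (a b c d : Matrix (Fin n) (Fin n) ℂ)
    (hW : ∀ u v : Fin n → ℂ, nrm (a *ᵥ u + b *ᵥ v) ^ 2 + nrm (c *ᵥ u + d *ᵥ v) ^ 2
      = nrm u ^ 2 + nrm v ^ 2) (ρ : ℝ) (h0 : 0 < ρ) (h1 : ρ < 1)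
    (x y z : Matrix (Fin n) (Fin n) ℂ)
    (hz : z = a * z * ((ρ : ℂ) • Tᵀ) + b * y) (hx : x = c * z * ((ρ : ℂ) • Tᵀ) + d * y) :
    fro x ≤ C * fro y := by
  have ha : ∀ u : Fin n → ℂ, nrm (a *ᵥ u) ≤ nrm u := by
    intro u
    have := hW u 0
    simp only [Matrix.mulVec_zero, add_zero] at this
    have h2 : nrm (0 : Fin n → ℂ) = 0 := by simp [nrm]
    rw [h2] at this
    have h3 := sq_nonneg (nrm (c *ᵥ u))
    exact abs_le_of_sq_le_sq' (by nlinarith) (nrm_nonneg u) |>.2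
  have hc : ∀ u : Fin n → ℂ, nrm (c *ᵥ u) ≤ nrm u := by
    intro u
    have := hW u 0
    simp only [Matrix.mulVec_zero, add_zero] at this
    have h2 : nrm (0 : Fin n → ℂ) = 0 := by simp [nrm]
    rw [h2] at this
    have h3 := sq_nonneg (nrm (a *ᵥ u))
    exact abs_le_of_sq_le_sq' (by nlinarith) (nrm_nonneg u) |>.2
  have hak : ∀ k, ∀ u : Fin n → ℂ, nrm (a ^ k *ᵥ u) ≤ nrm u := by
    intro k
    induction k with
    | zero => intro u; simp
    | succ k ih =>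
      intro u
      rw [pow_succ, ← Matrix.mulVec_mulVec]
      exact (ih _).trans (ha u)
  have h1ρ : 0 < 1 - ρ ^ 2 := by nlinarith
  -- bound for each N
  have hN : ∀ N : ℕ, fro x ≤ C * Real.sqrt (1 + ρ ^ (2 * N) / (1 - ρ ^ 2)) * fro y
      + C * ρ ^ (N + 1) * fro z := by
    intro N
    have hit := iterate_identity a b c d x y z ((ρ : ℂ) • Tᵀ) hz hx N
    have b1 : fro (∑ k ∈ Finset.range (N + 1), theta a b c d k * y * ((ρ : ℂ) • Tᵀ) ^ k)
        ≤ C * Real.sqrt (1 + ρ ^ (2 * N) / (1 - ρ ^ 2)) * fro y := by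
      have := hT n (N + 1) (fun k => (ρ : ℂ) ^ k • theta a b c d k)
        (Real.sqrt (1 + ρ ^ (2 * N) / (1 - ρ ^ 2))) (Real.sqrt_nonneg _) ?_ y
      · convert this using 3 with k
        rw [smul_pow]
        simp
      · intro s hs v
        have hs' : ‖s * (ρ : ℂ)‖ ≤ ρ := by
          rw [norm_mul, Complex.norm_real, Real.norm_of_nonneg h0.le]
          nlinarith
        have hb := transfer_bound a b c d hW ρ h0 h1 N (s * ρ) hs' v
        have e : (∑ k ∈ Finset.range (N + 1), s ^ k • ((ρ : ℂ) ^ k • theta a b c d k))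
            = ∑ k ∈ Finset.range (N + 1), (s * (ρ : ℂ)) ^ k • theta a b c d k := by
          refine Finset.sum_congr rfl fun k _ => ?_
          rw [smul_smul, mul_pow]
        rw [e]
        refine abs_le_of_sq_le_sq' ?_ (mul_nonneg (Real.sqrt_nonneg _) (nrm_nonneg v)) |>.2
        rw [mul_pow, Real.sq_sqrt (by positivity)]
        exact hb
    have b2 : fro (c * a ^ N * z * ((ρ : ℂ) • Tᵀ) ^ (N + 1)) ≤ C * ρ ^ (N + 1) * fro z := by
      have := hT n (N + 2) (fun k => if k = N + 1 then (ρ : ℂ) ^ (N + 1) • (c * a ^ N) else 0)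
        (ρ ^ (N + 1)) (by positivity) ?_ z
      · convert this using 2
        rw [Finset.sum_eq_single (N + 1)]
        · rw [smul_pow]
          simp
        · intro k _ hk
          simp [hk]
        · intro h
          simp at h
      · intro s hs v
        rw [Finset.sum_eq_single (N + 1)]
        · simp only [if_true]
          rw [Matrix.smul_mulVec, Matrix.smul_mulVec, nrm_smul, nrm_smul, ← Matrix.mulVec_mulVec]
          rw [norm_pow, norm_pow, Complex.norm_real, Real.norm_of_nonneg h0.le]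
          have h2 : nrm (c *ᵥ (a ^ N *ᵥ v)) ≤ nrm v := (hc _).trans (hak N v)
          have h3 : ‖s‖ ^ (N + 1) ≤ 1 := pow_le_one₀ (norm_nonneg _) hs
          have h4 : 0 ≤ nrm (c *ᵥ (a ^ N *ᵥ v)) := nrm_nonneg _
          have h5 : 0 < ρ ^ (N + 1) := by positivity
          calc ‖s‖ ^ (N + 1) * (ρ ^ (N + 1) * nrm (c *ᵥ (a ^ N *ᵥ v)))
              ≤ 1 * (ρ ^ (N + 1) * nrm v) := by gcongr
            _ = _ := by ring
        · intro k _ hk
          simp [hk]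
        · intro h
          simp at h
    calc fro x = fro ((∑ k ∈ Finset.range (N + 1), theta a b c d k * y * ((ρ : ℂ) • Tᵀ) ^ k)
          + c * a ^ N * z * ((ρ : ℂ) • Tᵀ) ^ (N + 1)) := by rw [← hit]
      _ ≤ _ := (fro_add_le _ _).trans (add_le_add b1 b2)
  have lim : Filter.Tendsto (fun N : ℕ => C * Real.sqrt (1 + ρ ^ (2 * N) / (1 - ρ ^ 2)) * fro y
      + C * ρ ^ (N + 1) * fro z) Filter.atTop (nhds (C * Real.sqrt (1 + 0 / (1 - ρ ^ 2)) * fro y
      + C * 0 * fro z)) := by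
    have l1 : Filter.Tendsto (fun N : ℕ => ρ ^ (2 * N)) Filter.atTop (nhds 0) := by
      have := tendsto_pow_atTop_nhds_zero_of_lt_one (r := ρ ^ 2) (by positivity) (by nlinarith)
      simpa [pow_mul] using this
    have l2 : Filter.Tendsto (fun N : ℕ => ρ ^ (N + 1)) Filter.atTop (nhds 0) :=
      (tendsto_pow_atTop_nhds_zero_of_lt_one h0.le h1).comp (Filter.tendsto_add_atTop_nat 1)
    refine Filter.Tendsto.add ?_ ?_
    · refine Filter.Tendsto.mul_const _ (Filter.Tendsto.const_mul _ ?_)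
      exact (Real.continuous_sqrt.tendsto _).comp ((l1.div_const _).const_add 1)
    · exact (l2.const_mul C).mul_const _
  have := ge_of_tendsto' lim hN
  simpa using this

theorem sumElim_nrm_sq {ι κ : Type*} [Fintype ι] [Fintype κ] (u : ι → ℂ) (v : κ → ℂ) :
    nrm (Sum.elim u v) ^ 2 = nrm u ^ 2 + nrm v ^ 2 := by
  simp [nrm_sq]

/-- The dual inequality for a single `ρ < 1`. -/
theorem dual_ineq_rho {n : ℕ} (T : Matrix (Fin n) (Fin n) ℂ) (C : ℝ) (hC : 0 ≤ C) (hT : CPB T C)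
    (X Y Z : Matrix (Fin n) (Fin n) ℂ) (hX : X.PosSemidef) (hY : Y.PosSemidef) (hZ : Z.PosSemidef)
    (ρ : ℝ) (h0 : 0 < ρ) (h1 : ρ < 1)
    (h : Z + X = ((ρ : ℂ) • T) * Z * ((ρ : ℂ) • T)ᴴ + Y) :
    X.trace.re ≤ C ^ 2 * Y.trace.re := by
  obtain ⟨x, hx⟩ := exists_gram _ hX.transpose
  obtain ⟨y, hy⟩ := exists_gram _ hY.transpose
  obtain ⟨z, hz⟩ := exists_gram _ hZ.transpose
  set t : Matrix (Fin n) (Fin n) ℂ := (ρ : ℂ) • Tᵀ with ht
  have hg : (Matrix.fromRows z x)ᴴ * (Matrix.fromRows z x)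
      = (Matrix.fromRows (z * t) y)ᴴ * (Matrix.fromRows (z * t) y) := by
    rw [Matrix.conjTranspose_fromRows_eq_fromCols_conjTranspose,
      Matrix.conjTranspose_fromRows_eq_fromCols_conjTranspose, Matrix.fromCols_mul_fromRows,
      Matrix.fromCols_mul_fromRows, ← hx, ← hz, ← hy]
    have := congrArg Matrix.transpose h
    rw [Matrix.transpose_add, Matrix.transpose_add, Matrix.transpose_mul, Matrix.transpose_mul,
      hz] at this
    rw [hz, this]
    congr 1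
    rw [ht]
    simp only [Matrix.conjTranspose_mul, Matrix.mul_assoc, Matrix.conjTranspose_smul,
      Matrix.transpose_smul]
    rfl
  obtain ⟨W, hW1, hW2⟩ := exists_isometry_mul _ _ hg
  set a := W.toBlocks₁₁
  set b := W.toBlocks₁₂
  set c := W.toBlocks₂₁
  set d := W.toBlocks₂₂
  have hW3 : W = Matrix.fromBlocks a b c d := (Matrix.fromBlocks_toBlocks W).symm
  rw [hW3, Matrix.fromBlocks_mul_fromRows] at hW1
  have e1 := Matrix.fromRows_inj hW1
  obtain ⟨e1, e2⟩ := e1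
  have hWn : ∀ u v : Fin n → ℂ, nrm (a *ᵥ u + b *ᵥ v) ^ 2 + nrm (c *ᵥ u + d *ᵥ v) ^ 2
      = nrm u ^ 2 + nrm v ^ 2 := by
    intro u v
    have := hW2 (Sum.elim u v)
    rw [hW3, Matrix.fromBlocks_mulVec] at this
    simp only [Sum.elim_comp_inl, Sum.elim_comp_inr] at this
    rw [← sumElim_nrm_sq, ← sumElim_nrm_sq, this]
  have hfro := fro_le_of_CPB T C hC hT a b c d hWn ρ h0 h1 x y z
    (by rw [← ht, Matrix.mul_assoc]; exact e1.symm) (by rw [← ht, Matrix.mul_assoc]; exact e2.symm)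
  have hxt : X.trace = ((fro x ^ 2 : ℝ) : ℂ) := by
    rw [fro_sq_eq_trace, ← hx, Matrix.trace_transpose]
  have hyt : Y.trace = ((fro y ^ 2 : ℝ) : ℂ) := by
    rw [fro_sq_eq_trace, ← hy, Matrix.trace_transpose]
  rw [hxt, hyt, Complex.ofReal_re, Complex.ofReal_re, ← mul_pow]
  exact pow_le_pow_left₀ (fro_nonneg _) hfro 2

/-- The dual inequality (F1). -/
theorem dual_ineq {n : ℕ} (T : Matrix (Fin n) (Fin n) ℂ) (C : ℝ) (hC : 0 ≤ C) (hT : CPB T C)
    (X Y Z : Matrix (Fin n) (Fin n) ℂ) (hX : X.PosSemidef) (hY : Y.PosSemidef) (hZ : Z.PosSemidef)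
    (h : Z + X = T * Z * Tᴴ + Y) :
    X.trace.re ≤ C ^ 2 * Y.trace.re := by
  have hρ : ∀ ρ : ℝ, 0 < ρ → ρ < 1 →
      X.trace.re ≤ C ^ 2 * (Y.trace.re + (1 - ρ ^ 2) * (T * Z * Tᴴ).trace.re) := by
    intro ρ h0 h1
    have hTZ : (T * Z * Tᴴ).PosSemidef := hZ.mul_mul_conjTranspose_same T
    have hY' : (Y + ((1 - ρ ^ 2 : ℝ) : ℂ) • (T * Z * Tᴴ)).PosSemidef := by
      refine hY.add (hTZ.smul ?_)
      have : (0 : ℝ) ≤ 1 - ρ ^ 2 := by nlinarith
      exact_mod_cast this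
    have := dual_ineq_rho T C hC hT X _ Z hX hY' hZ ρ h0 h1 (by
      rw [h]
      simp only [Matrix.conjTranspose_smul, Matrix.smul_mul, Matrix.mul_smul, smul_smul]
      have : star (ρ : ℂ) = (ρ : ℂ) := Complex.conj_ofReal ρ
      rw [this]
      push_cast
      rw [sub_smul, one_smul]
      rw [sq]
      abel)
    refine this.trans (le_of_eq ?_)
    rw [Matrix.trace_add, Matrix.trace_smul, Complex.add_re, smul_eq_mul, Complex.re_ofReal_mul]
  have lim : Filter.Tendsto (fun ρ : ℝ => C ^ 2 * (Y.trace.re + (1 - ρ ^ 2) * (T * Z * Tᴴ).trace.re))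
      (nhdsWithin 1 (Set.Iio 1)) (nhds (C ^ 2 * (Y.trace.re + (1 - 1 ^ 2) * (T * Z * Tᴴ).trace.re))) := by
    refine Filter.Tendsto.mono_left ?_ nhdsWithin_le_nhds
    exact Continuous.tendsto (by fun_prop) 1
  have hev : ∀ᶠ ρ in nhdsWithin (1 : ℝ) (Set.Iio 1),
      X.trace.re ≤ C ^ 2 * (Y.trace.re + (1 - ρ ^ 2) * (T * Z * Tᴴ).trace.re) := by
    have : Set.Ioo (0 : ℝ) 1 ∈ nhdsWithin (1 : ℝ) (Set.Iio 1) :=
      Ioo_mem_nhdsLT (by norm_num)
    filter_upwards [this] with ρ hρ'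
    exact hρ ρ hρ'.1 hρ'.2
  have := ge_of_tendsto lim hev
  simpa using this

end Crest.Agent.R132.F
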