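import Mathlib
import Crest.Prelude.Def_NumRangeMetric
import Crest.Agent.R132.FDual3

set_option autoImplicit false
open scoped ComplexOrder Matrix
open Crest.AnalysisR.NumRange

namespace Crest.Agent.R132.F

/-- Jordan decomposition together with the optimal test matrix. -/
theorem jordan_test {n : ℕ} (D : Matrix (Fin n) (Fin n) ℂ) (hD : D.IsHermitian) (c : ℝ)
    (hc : 1 ≤ c) :
    ∃ X Y H : Matrix (Fin n) (Fin n) ℂ, X.PosSemidef ∧ Y.PosSemidef ∧ D = Y - X ∧
      (H - 1).PosSemidef ∧ ((c : ℂ) • (1 : Matrix (Fin n) (Fin n) ℂ) - H).PosSemidef ∧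
      (H * D).trace.re = c * Y.trace.re - X.trace.re := by
  set U : Matrix (Fin n) (Fin n) ℂ := (hD.eigenvectorUnitary : Matrix (Fin n) (Fin n) ℂ) with hU
  have hU1 : Uᴴ * U = 1 := by
    have := Unitary.star_mul_self_of_mem hD.eigenvectorUnitary.2
    exact this
  have hU2 : U * Uᴴ = 1 := by
    have := Unitary.mul_star_self_of_mem hD.eigenvectorUnitary.2
    exact this
  set l := hD.eigenvalues with hl
  have hspec : D = U * Matrix.diagonal (fun i => (l i : ℂ)) * Uᴴ := by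
    have := hD.spectral_theorem
    rw [Unitary.conjStarAlgAut_apply] at this
    exact this
  have hdiag : ∀ w : Fin n → ℝ, (∀ i, 0 ≤ w i) →
      (U * Matrix.diagonal (fun i => (w i : ℂ)) * Uᴴ).PosSemidef := by
    intro w hw
    refine Matrix.PosSemidef.mul_mul_conjTranspose_same ?_ U
    refine Matrix.PosSemidef.diagonal ?_
    intro i
    show (0 : ℂ) ≤ (w i : ℂ)
    exact_mod_cast hw i
  have htr : ∀ w : Fin n → ℂ, (U * Matrix.diagonal w * Uᴴ).trace = ∑ i, w i := by
    intro w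
    rw [Matrix.trace_mul_comm, ← Matrix.mul_assoc, hU1, Matrix.one_mul, Matrix.trace_diagonal]
  have h1 : (1 : Matrix (Fin n) (Fin n) ℂ) = U * Matrix.diagonal (fun _ => (1 : ℂ)) * Uᴴ := by
    have : Matrix.diagonal (fun _ : Fin n => (1 : ℂ)) = 1 := Matrix.diagonal_one
    rw [this, Matrix.mul_one, hU2]
  refine ⟨U * Matrix.diagonal (fun i => ((max (-l i) 0 : ℝ) : ℂ)) * Uᴴ,
    U * Matrix.diagonal (fun i => ((max (l i) 0 : ℝ) : ℂ)) * Uᴴ,
    U * Matrix.diagonal (fun i => (((if 0 < l i then c else 1) : ℝ) : ℂ)) * Uᴴ,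
    hdiag _ (fun i => le_max_right _ _), hdiag _ (fun i => le_max_right _ _), ?_, ?_, ?_, ?_⟩
  · rw [← sub_mul, ← mul_sub, Matrix.diagonal_sub]
    conv_lhs => rw [hspec]
    congr 3
    ext i
    rw [← Complex.ofReal_sub]
    congr 1
    rcases le_total (l i) 0 with h | h
    · rw [max_eq_right h, max_eq_left (by linarith)]; ring
    · rw [max_eq_left h, max_eq_right (by linarith)]; ring
  · have e : U * Matrix.diagonal (fun i => (((if 0 < l i then c else 1) : ℝ) : ℂ)) * Uᴴ - 1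
        = U * Matrix.diagonal (fun i => (((if 0 < l i then c else 1) - 1 : ℝ) : ℂ)) * Uᴴ := by
      conv_lhs => rw [h1]
      rw [← sub_mul, ← mul_sub, Matrix.diagonal_sub]
      congr 3
      ext i
      push_cast
      rfl
    rw [e]
    refine hdiag _ fun i => ?_
    split_ifs <;> linarith
  · have e : (c : ℂ) • (1 : Matrix (Fin n) (Fin n) ℂ)
        - U * Matrix.diagonal (fun i => (((if 0 < l i then c else 1) : ℝ) : ℂ)) * Uᴴ
        = U * Matrix.diagonal (fun i => ((c - (if 0 < l i then c else 1) : ℝ) : ℂ)) * Uᴴ := by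
      have h2 : (c : ℂ) • (1 : Matrix (Fin n) (Fin n) ℂ)
          = U * Matrix.diagonal (fun _ => (c : ℂ)) * Uᴴ := by
        have : Matrix.diagonal (fun _ : Fin n => (c : ℂ)) = (c : ℂ) • 1 := by
          rw [Matrix.smul_one_eq_diagonal]
        rw [this, Matrix.mul_smul, Matrix.smul_mul, Matrix.mul_one, hU2]
      rw [h2, ← sub_mul, ← mul_sub, Matrix.diagonal_sub]
      congr 3
      ext i
      push_cast
      rfl
    rw [e]
    refine hdiag _ fun i => ?_
    split_ifs <;> linarith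
  · have e : U * Matrix.diagonal (fun i => (((if 0 < l i then c else 1) : ℝ) : ℂ)) * Uᴴ * D
        = U * Matrix.diagonal (fun i => (((if 0 < l i then c else 1) * l i : ℝ) : ℂ)) * Uᴴ := by
      conv_lhs => rw [hspec]
      have : U * Matrix.diagonal (fun i => (((if 0 < l i then c else 1) : ℝ) : ℂ)) * Uᴴ *
          (U * Matrix.diagonal (fun i => (l i : ℂ)) * Uᴴ)
          = U * Matrix.diagonal (fun i => (((if 0 < l i then c else 1) : ℝ) : ℂ)) * (Uᴴ * U)
            * Matrix.diagonal (fun i => (l i : ℂ)) * Uᴴ := by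
        simp only [Matrix.mul_assoc]
      rw [this, hU1, Matrix.mul_one, Matrix.mul_assoc U, Matrix.diagonal_mul_diagonal]
      congr 3
      ext i
      push_cast
      rfl
    rw [e, htr, htr, htr, Complex.re_sum, Complex.re_sum, Complex.re_sum, Finset.mul_sum,
      ← Finset.sum_sub_distrib]
    refine Finset.sum_congr rfl fun i _ => ?_
    simp only [Complex.ofReal_re]
    split_ifs with h
    · rw [max_eq_left h.le, max_eq_right (by linarith)]; ring
    · push Not at h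
      rw [max_eq_right h, max_eq_left (by linarith)]; ring

theorem norm_entry_le_trace {n : ℕ} (H : Matrix (Fin n) (Fin n) ℂ) (hH : H.PosSemidef)
    (i j : Fin n) : ‖H i j‖ ≤ H.trace.re := by
  obtain ⟨B, hB⟩ := exists_gram H hH
  have ht : H.trace = ((fro B ^ 2 : ℝ) : ℂ) := by rw [fro_sq_eq_trace, ← hB]
  rw [ht, Complex.ofReal_re, fro_sq]
  have h1 : H i j = ∑ k, star (B k i) * B k j := by
    rw [hB, Matrix.mul_apply]
    rfl
  rw [h1]
  refine (norm_sum_le _ _).trans ?_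
  have h2 : ∀ k, ‖star (B k i) * B k j‖ ≤ (‖B k i‖ ^ 2 + ‖B k j‖ ^ 2) / 2 := by
    intro k
    rw [norm_mul, norm_star]
    nlinarith [sq_nonneg (‖B k i‖ - ‖B k j‖)]
  refine Finset.sum_le_sum fun k _ => (h2 k).trans ?_
  have h3 : ∀ i, ‖B k i‖ ^ 2 ≤ ∑ j, ‖B k j‖ ^ 2 := fun i =>
    Finset.single_le_sum (f := fun j => ‖B k j‖ ^ 2) (fun _ _ => sq_nonneg _) (Finset.mem_univ i)
  have := h3 i
  have := h3 j
  linarith

theorem isClosed_posSemidef {n : ℕ} : IsClosed {P : Matrix (Fin n) (Fin n) ℂ | P.PosSemidef} := by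
  have : {P : Matrix (Fin n) (Fin n) ℂ | P.PosSemidef}
      = {P | Pᴴ = P} ∩ ⋂ x : Fin n → ℂ, {P | 0 ≤ star x ⬝ᵥ (P *ᵥ x)} := by
    ext P
    simp only [Set.mem_ofPred_eq, Set.mem_inter_iff, Set.mem_iInter]
    exact Matrix.posSemidef_iff_dotProduct_mulVec
  rw [this]
  refine IsClosed.inter ?_ (isClosed_iInter fun x => ?_)
  · exact isClosed_eq (by fun_prop) continuous_id
  · exact isClosed_le continuous_const (by fun_prop)

theorem isCompact_metricSet {n : ℕ} (c : ℝ) :
    IsCompact {H : Matrix (Fin n) (Fin n) ℂ | (H - 1).PosSemidef ∧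
      ((c : ℂ) • (1 : Matrix (Fin n) (Fin n) ℂ) - H).PosSemidef} := by
  have hcl : IsClosed {H : Matrix (Fin n) (Fin n) ℂ | (H - 1).PosSemidef ∧
      ((c : ℂ) • (1 : Matrix (Fin n) (Fin n) ℂ) - H).PosSemidef} := by
    refine IsClosed.inter ?_ ?_
    · exact isClosed_posSemidef.preimage (by fun_prop : Continuous fun H : Matrix (Fin n) (Fin n) ℂ => H - 1)
    · exact isClosed_posSemidef.preimage (by fun_prop : Continuous fun H : Matrix (Fin n) (Fin n) ℂ =>
        (c : ℂ) • (1 : Matrix (Fin n) (Fin n) ℂ) - H)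
  have hK : IsCompact (Set.pi Set.univ (fun _ : Fin n => Set.pi Set.univ
      (fun _ : Fin n => Metric.closedBall (0 : ℂ) (c * n)))) :=
    isCompact_univ_pi fun _ => isCompact_univ_pi fun _ => isCompact_closedBall _ _
  refine hK.of_isClosed_subset hcl (fun (H : Matrix (Fin n) (Fin n) ℂ) hHm => ?_)
  obtain ⟨h1, h2⟩ := hHm
  intro i _ j _
  have hH : H.PosSemidef := by
    have := h1.add Matrix.PosSemidef.one
    simpa using this
  rw [mem_closedBall_zero_iff]
  refine (norm_entry_le_trace H hH i j).trans ?_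
  have h3 := h2.trace_nonneg
  rw [Matrix.trace_sub, Matrix.trace_smul, Matrix.trace_one, Fintype.card_fin] at h3
  have h4 := (Complex.le_def.1 h3).1
  simp at h4
  linarith

theorem linear_repr {n : ℕ} (L : Matrix (Fin n) (Fin n) ℂ →ₗ[ℝ] ℝ) :
    ∃ Z₀ : Matrix (Fin n) (Fin n) ℂ, ∀ M, L M = (M * Z₀).trace.re := by
  refine ⟨Matrix.of fun j i => (L (Matrix.single i j (1 : ℂ)) : ℂ)
    - Complex.I * (L (Matrix.single i j Complex.I) : ℂ), fun M => ?_⟩
  have hM : M = ∑ i, ∑ j, ((M i j).re • Matrix.single i j (1 : ℂ)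
      + (M i j).im • Matrix.single i j Complex.I) := by
    conv_lhs => rw [Matrix.matrix_eq_sum_single M]
    refine Finset.sum_congr rfl fun i _ => Finset.sum_congr rfl fun j _ => ?_
    rw [Matrix.smul_single, Matrix.smul_single, ← Matrix.single_add]
    congr 1
    simp [Complex.re_add_im]
  conv_lhs => rw [hM]
  rw [map_sum]
  simp only [Matrix.trace, Matrix.diag_apply, Matrix.mul_apply, Matrix.of_apply, Complex.re_sum]
  refine Finset.sum_congr rfl fun i _ => ?_
  rw [map_sum]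
  refine Finset.sum_congr rfl fun j _ => ?_
  rw [map_add, map_smul, map_smul]
  simp [Complex.mul_re, Complex.sub_re, Complex.sub_im, Complex.mul_im]

theorem linear_repr_herm {n : ℕ} (L : Matrix (Fin n) (Fin n) ℂ →ₗ[ℝ] ℝ) :
    ∃ Z : Matrix (Fin n) (Fin n) ℂ, Z.IsHermitian ∧ ∀ M : Matrix (Fin n) (Fin n) ℂ,
      M.IsHermitian → L M = (M * Z).trace.re := by
  obtain ⟨Z₀, hZ₀⟩ := linear_repr L
  refine ⟨(1 / 2 : ℂ) • (Z₀ + Z₀ᴴ), ?_, fun M hM => ?_⟩
  · rw [Matrix.IsHermitian, Matrix.conjTranspose_smul, Matrix.conjTranspose_add,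
      Matrix.conjTranspose_conjTranspose, add_comm Z₀ᴴ]
    congr 1
    simp
  · rw [hZ₀, Matrix.mul_smul, Matrix.mul_add, Matrix.trace_smul, Matrix.trace_add]
    have h1 : (M * Z₀ᴴ).trace = star (M * Z₀).trace := by
      rw [← Matrix.trace_conjTranspose, Matrix.conjTranspose_mul, hM.eq, Matrix.trace_mul_comm]
    rw [h1, smul_eq_mul]
    have h2 : (star (M * Z₀).trace).re = (M * Z₀).trace.re := Complex.conj_re _
    have h3 : ((1 / 2 : ℂ) * ((M * Z₀).trace + star (M * Z₀).trace)).re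
        = (1 / 2) * ((M * Z₀).trace.re + (star (M * Z₀).trace).re) := by
      have : (1 / 2 : ℂ) = ((1 / 2 : ℝ) : ℂ) := by push_cast; rfl
      rw [this, Complex.re_ofReal_mul, Complex.add_re]
    rw [h3, h2]
    ring

/-- Existence of the metric from the dual inequality. -/
theorem exists_metric {n : ℕ} (T : Matrix (Fin n) (Fin n) ℂ) (c : ℝ) (hc : 1 ≤ c)
    (dual : ∀ X Y Z : Matrix (Fin n) (Fin n) ℂ, X.PosSemidef → Y.PosSemidef → Z.PosSemidef →
      Z + X = T * Z * Tᴴ + Y → X.trace.re ≤ c * Y.trace.re) :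
    ∃ H : Matrix (Fin n) (Fin n) ℂ, MetricFeasible T H c := by
  by_contra hcon
  push Not at hcon
  set K : Set (Matrix (Fin n) (Fin n) ℂ) := {H | (H - 1).PosSemidef ∧
      ((c : ℂ) • (1 : Matrix (Fin n) (Fin n) ℂ) - H).PosSemidef} with hK
  have hKc : IsCompact K := isCompact_metricSet c
  have hKconv : Convex ℝ K := by
    intro H₁ h₁ H₂ h₂ a b ha hb hab
    have hab' : (a : ℂ) + b = 1 := by exact_mod_cast hab
    have ha' : (0 : ℂ) ≤ a := by exact_mod_cast ha
    have hb' : (0 : ℂ) ≤ b := by exact_mod_cast hb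
    constructor
    · have e : a • H₁ + b • H₂ - 1 = (a : ℂ) • (H₁ - 1) + (b : ℂ) • (H₂ - 1) := by
        rw [smul_sub, smul_sub]
        have : (1 : Matrix (Fin n) (Fin n) ℂ) = (a : ℂ) • 1 + (b : ℂ) • 1 := by
          rw [← add_smul, hab', one_smul]
        conv_lhs => rw [this]
        simp only [Complex.coe_smul]
        abel
      rw [e]
      exact (h₁.1.smul ha').add (h₂.1.smul hb')
    · have e : (c : ℂ) • (1 : Matrix (Fin n) (Fin n) ℂ) - (a • H₁ + b • H₂)
          = (a : ℂ) • ((c : ℂ) • (1 : Matrix (Fin n) (Fin n) ℂ) - H₁)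
            + (b : ℂ) • ((c : ℂ) • (1 : Matrix (Fin n) (Fin n) ℂ) - H₂) := by
        rw [smul_sub, smul_sub]
        have : (c : ℂ) • (1 : Matrix (Fin n) (Fin n) ℂ)
            = (a : ℂ) • ((c : ℂ) • (1 : Matrix (Fin n) (Fin n) ℂ))
              + (b : ℂ) • ((c : ℂ) • (1 : Matrix (Fin n) (Fin n) ℂ)) := by
          rw [← add_smul, hab', one_smul]
        conv_lhs => rw [this]
        simp only [Complex.coe_smul]
        abel
      rw [e]
      exact (h₁.2.smul ha').add (h₂.2.smul hb')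
  let φ : Matrix (Fin n) (Fin n) ℂ →ₗ[ℝ] Matrix (Fin n) (Fin n) ℂ :=
    { toFun := fun H => H - Tᴴ * H * T
      map_add' := by intro x y; simp only [Matrix.mul_add, Matrix.add_mul]; abel
      map_smul' := by
        intro r x
        simp only [Matrix.mul_smul, Matrix.smul_mul, smul_sub, RingHom.id_apply] }
  have hφc : Continuous φ := by
    show Continuous fun H : Matrix (Fin n) (Fin n) ℂ => H - Tᴴ * H * T
    fun_prop
  have hs1 : Convex ℝ (φ '' K) := hKconv.linear_image φ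
  have hs2 : IsCompact (φ '' K) := hKc.image hφc
  have ht1 : Convex ℝ {P : Matrix (Fin n) (Fin n) ℂ | P.PosSemidef} := by
    intro H₁ h₁ H₂ h₂ a b ha hb hab
    have ha' : (0 : ℂ) ≤ a := by exact_mod_cast ha
    have hb' : (0 : ℂ) ≤ b := by exact_mod_cast hb
    have := (Matrix.PosSemidef.smul h₁ ha').add (Matrix.PosSemidef.smul h₂ hb')
    show (a • H₁ + b • H₂).PosSemidef
    simpa only [Complex.coe_smul] using this
  have ht2 : IsClosed {P : Matrix (Fin n) (Fin n) ℂ | P.PosSemidef} := isClosed_posSemidef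
  have hdisj : Disjoint (φ '' K) {P : Matrix (Fin n) (Fin n) ℂ | P.PosSemidef} := by
    rw [Set.disjoint_left]
    rintro _ ⟨H, hH, rfl⟩ hP
    exact hcon H ⟨hH.1, hH.2, hP⟩
  have : LocallyConvexSpace ℝ (Matrix (Fin n) (Fin n) ℂ) :=
    inferInstanceAs (LocallyConvexSpace ℝ (Fin n → Fin n → ℂ))
  obtain ⟨L, u, v, hL1, huv, hL2⟩ := geometric_hahn_banach_compact_closed hs1 hs2 ht1 ht2 hdisj
  have hv0 : v < 0 := by
    have := hL2 0 Matrix.PosSemidef.zero
    simpa using this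
  have hLneg : ∀ H ∈ K, L (φ H) < 0 := fun H hH =>
    (hL1 _ ⟨H, hH, rfl⟩).trans (huv.trans hv0)
  have hLpos : ∀ P : Matrix (Fin n) (Fin n) ℂ, P.PosSemidef → 0 ≤ L P := by
    intro P hP
    by_contra hneg
    push Not at hneg
    have hr : 0 ≤ v / L P := div_nonneg_of_nonpos hv0.le hneg.le
    have hr' : (0 : ℂ) ≤ ((v / L P : ℝ) : ℂ) := by exact_mod_cast hr
    have h1 := hL2 (((v / L P : ℝ) : ℂ) • P) (Matrix.PosSemidef.smul hP hr')
    rw [Complex.coe_smul, map_smul, smul_eq_mul, div_mul_cancel₀ _ hneg.ne] at h1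
    exact lt_irrefl _ h1
  obtain ⟨Z, hZh, hZ⟩ := linear_repr_herm (L : Matrix (Fin n) (Fin n) ℂ →ₗ[ℝ] ℝ)
  have hZ' : ∀ M : Matrix (Fin n) (Fin n) ℂ, M.IsHermitian → L M = (M * Z).trace.re := hZ
  have hZpos : Z.PosSemidef := by
    refine Matrix.PosSemidef.of_dotProduct_mulVec_nonneg hZh fun x => ?_
    have h1 := hLpos _ (Matrix.posSemidef_vecMulVec_self_star x)
    rw [hZ' _ (Matrix.posSemidef_vecMulVec_self_star x).isHermitian] at h1
    have h2 : (Matrix.vecMulVec x (star x) * Z).trace = star x ⬝ᵥ (Z *ᵥ x) := by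
      rw [Matrix.vecMulVec_mul, Matrix.trace_vecMulVec, Matrix.dotProduct_mulVec, dotProduct_comm]
    rw [h2] at h1
    have h3 : (star x ⬝ᵥ (Z *ᵥ x)).im = 0 := hZh.im_star_dotProduct_mulVec_self x
    rw [Complex.le_def]
    exact ⟨by simpa using h1, by simp [h3]⟩
  obtain ⟨X, Y, H, hX, hY, hD, hH1, hH2, htr⟩ := jordan_test (Z - T * Z * Tᴴ)
    (hZh.sub (hZpos.mul_mul_conjTranspose_same T).isHermitian) c hc
  have hHK : H ∈ K := ⟨hH1, hH2⟩
  have hHherm : H.IsHermitian := by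
    have := hH1.isHermitian.add Matrix.isHermitian_one
    simpa using this
  have h1 := hLneg H hHK
  have hφH : φ H = H - Tᴴ * H * T := rfl
  have hφherm : (H - Tᴴ * H * T).IsHermitian :=
    hHherm.sub (Matrix.isHermitian_conjTranspose_mul_mul T hHherm)
  rw [hφH, hZ' _ hφherm] at h1
  have h2 : ((H - Tᴴ * H * T) * Z).trace = (H * (Z - T * Z * Tᴴ)).trace := by
    rw [Matrix.sub_mul, Matrix.mul_sub, Matrix.trace_sub, Matrix.trace_sub]
    congr 1
    rw [Matrix.mul_assoc, Matrix.mul_assoc, Matrix.trace_mul_comm, Matrix.mul_assoc,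
      Matrix.mul_assoc]
  rw [h2, htr] at h1
  have h3 := dual X Y Z hX hY hZpos (by
    rw [add_comm (T * Z * Tᴴ)]; exact sub_eq_sub_iff_add_eq_add.1 hD)
  linarith

end Crest.Agent.R132.F
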