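import Mathlib
import Crest.Prelude.Def_NumRangeMetric
import Crest.Agent.R132.FDual4

set_option autoImplicit false
open scoped ComplexOrder Matrix
open Crest.AnalysisR.NumRange

namespace Crest.Agent.R132.F

/-- agreement to order `n` at a point -/
def Ag (n : ℕ) (μ : ℂ) (f g : ℂ → ℂ) : Prop :=
  ∀ j < n, iteratedDeriv j f μ = iteratedDeriv j g μ

theorem Ag.mul {n : ℕ} {μ : ℂ} {f₁ f₂ g₁ g₂ : ℂ → ℂ} (h1 : Ag n μ f₁ g₁) (h2 : Ag n μ f₂ g₂)
    (hf₁ : AnalyticAt ℂ f₁ μ) (hf₂ : AnalyticAt ℂ f₂ μ) (hg₁ : AnalyticAt ℂ g₁ μ)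
    (hg₂ : AnalyticAt ℂ g₂ μ) : Ag n μ (fun z => f₁ z * f₂ z) (fun z => g₁ z * g₂ z) := by
  intro j hj
  have e1 := iteratedDeriv_mul (n := j) (hf₁.contDiffAt) (hf₂.contDiffAt)
  have e2 := iteratedDeriv_mul (n := j) (hg₁.contDiffAt) (hg₂.contDiffAt)
  have e1' : iteratedDeriv j (fun z => f₁ z * f₂ z) μ = _ := e1
  have e2' : iteratedDeriv j (fun z => g₁ z * g₂ z) μ = _ := e2
  rw [e1', e2']
  refine Finset.sum_congr rfl fun i hi => ?_
  have hi' : i < j + 1 := Finset.mem_range.1 hi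
  rw [h1 i (by omega), h2 (j - i) (by omega)]

theorem Ag.add {n : ℕ} {μ : ℂ} {f₁ f₂ g₁ g₂ : ℂ → ℂ} (h1 : Ag n μ f₁ g₁) (h2 : Ag n μ f₂ g₂)
    (hf₁ : AnalyticAt ℂ f₁ μ) (hf₂ : AnalyticAt ℂ f₂ μ) (hg₁ : AnalyticAt ℂ g₁ μ)
    (hg₂ : AnalyticAt ℂ g₂ μ) : Ag n μ (fun z => f₁ z + f₂ z) (fun z => g₁ z + g₂ z) := by
  intro j hj
  have e1 : iteratedDeriv j (fun z => f₁ z + f₂ z) μ = _ :=
    iteratedDeriv_add (n := j) (hf₁.contDiffAt) (hf₂.contDiffAt)
  have e2 : iteratedDeriv j (fun z => g₁ z + g₂ z) μ = _ :=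
    iteratedDeriv_add (n := j) (hg₁.contDiffAt) (hg₂.contDiffAt)
  rw [e1, e2, h1 j hj, h2 j hj]

theorem Ag.refl (n : ℕ) (μ : ℂ) (f : ℂ → ℂ) : Ag n μ f f := fun _ _ => rfl

theorem Ag.pow {n : ℕ} {μ : ℂ} {f g : ℂ → ℂ} (h : Ag n μ f g)
    (hf : AnalyticAt ℂ f μ) (hg : AnalyticAt ℂ g μ) (k : ℕ) :
    Ag n μ (fun z => f z ^ k) (fun z => g z ^ k) := by
  induction k with
  | zero => simpa using Ag.refl n μ _
  | succ k ih =>
    simp only [pow_succ]
    exact ih.mul h (hf.pow k) hf (hg.pow k) hg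

theorem Ag.sum {n : ℕ} {μ : ℂ} (N : ℕ) {f g : ℕ → ℂ → ℂ} (h : ∀ k, Ag n μ (f k) (g k))
    (hf : ∀ k, AnalyticAt ℂ (f k) μ) (hg : ∀ k, AnalyticAt ℂ (g k) μ) :
    Ag n μ (fun z => ∑ k ∈ Finset.range N, f k z) (fun z => ∑ k ∈ Finset.range N, g k z) := by
  induction N with
  | zero => simpa using Ag.refl n μ _
  | succ N ih =>
    simp only [Finset.sum_range_succ]
    refine ih.add (h N) ?_ (hf N) ?_ (hg N)
    · exact Finset.analyticAt_fun_sum _ fun k _ => hf k
    · exact Finset.analyticAt_fun_sum _ fun k _ => hg k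

theorem analyticAt_eval (p : Polynomial ℂ) (μ : ℂ) : AnalyticAt ℂ (fun z => p.eval z) μ :=
  p.differentiable.analyticAt μ

/-- the spectrum is contained in the numerical range -/
theorem spectrum_subset_numRange {n : ℕ} (A : Matrix (Fin n) (Fin n) ℂ) :
    spectrum ℂ A ⊆ numRange A := by
  intro μ hμ
  have h1 : Module.End.HasEigenvalue (Matrix.toLin' A) μ := by
    rw [Module.End.hasEigenvalue_iff_mem_spectrum]
    have := Matrix.spectrum_toLin' (R := ℂ) A
    rw [this]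
    exact hμ
  obtain ⟨v, hv⟩ := h1.exists_hasEigenvector
  have hv0 : v ≠ 0 := hv.2
  have hAv : A *ᵥ v = μ • v := by
    have := hv.apply_eq_smul
    simpa using this
  set w : EuclideanSpace ℂ (Fin n) := WithLp.toLp 2 v with hw
  have hw0 : w ≠ 0 := by
    intro h
    apply hv0
    have := congrArg (WithLp.ofLp) h
    simpa [hw] using this
  have hwn : ‖w‖ ≠ 0 := norm_ne_zero_iff.2 hw0
  refine ⟨((‖w‖⁻¹ : ℝ) : ℂ) • w, ?_, ?_⟩
  · rw [norm_smul]
    simp [hwn]
  · have hAw : Matrix.toEuclideanLin A w = μ • w := by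
      have : Matrix.toEuclideanLin A w = WithLp.toLp 2 (A *ᵥ v) := rfl
      rw [this, hAv, WithLp.toLp_smul]
    rw [map_smul, hAw, inner_smul_left, inner_smul_right, inner_smul_right, inner_self_eq_norm_sq_to_K]
    have h3 : (‖w‖ : ℂ) ≠ 0 := by exact_mod_cast hwn
    simp
    field_simp

theorem isCompact_numRange {n : ℕ} (A : Matrix (Fin n) (Fin n) ℂ) : IsCompact (numRange A) := by
  have : numRange A = (fun x : EuclideanSpace ℂ (Fin n) =>
      inner ℂ x (Matrix.toEuclideanLin A x)) '' Metric.sphere 0 1 := by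
    ext z
    simp only [numRange, Set.mem_ofPred_eq, Set.mem_image, mem_sphere_zero_iff_norm]
    constructor
    · rintro ⟨x, hx, rfl⟩
      exact ⟨x, hx, rfl⟩
    · rintro ⟨x, hx, rfl⟩
      exact ⟨x, hx, rfl⟩
  rw [this]
  refine (isCompact_sphere _ _).image ?_
  have h2 : Continuous (Matrix.toEuclideanLin A) := LinearMap.continuous_of_finiteDimensional _
  exact continuous_id.inner h2

/-- The complete Crouzeix bound for analytic matrix functions on a convex open set: the input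
needed for the optimal metric. -/
def CB2Statement : Prop :=
  ∀ (n m : ℕ) (A : Matrix (Fin n) (Fin n) ℂ) (V : Set ℂ), IsOpen V → Convex ℝ V →
    numRange A ⊆ V →
    ∀ F : ℂ → Matrix (Fin m) (Fin m) ℂ, (∀ c d, DifferentiableOn ℂ (fun z => F z c d) V) →
    ∀ M : ℝ, 0 ≤ M → (∀ z ∈ V, ∀ v : Fin m → ℂ, nrm (F z *ᵥ v) ≤ M * nrm v) →
    ∀ q : Fin m → Fin m → Polynomial ℂ,
      (∀ c d, AgreesOnSpectrum A (fun z => F z c d) (q c d)) →
    ∀ y : Matrix (Fin m) (Fin n) ℂ,
      fro (Matrix.of fun (i : Fin m) (l : Fin n) =>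
        ∑ j, ∑ l', Polynomial.aeval A (q i j) l l' * y j l') ≤ 2 * M * fro y

theorem cpb_of_cb2 (cb : CB2Statement) {n : ℕ} (A : Matrix (Fin n) (Fin n) ℂ)
    (V : Set ℂ) (hV : IsOpen V) (hVc : Convex ℝ V) (hA : numRange A ⊆ V) (g : ℂ → ℂ)
    (hg : DifferentiableOn ℂ g V) (hg1 : ∀ z ∈ V, ‖g z‖ ≤ 1) (p : Polynomial ℂ)
    (hp : AgreesOnSpectrum A g p) : CPB (Polynomial.aeval A p) 2 := by
  intro m N B M hM hB y
  set F : ℂ → Matrix (Fin m) (Fin m) ℂ := fun z => ∑ k ∈ Finset.range N, g z ^ k • B k with hF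
  have hFe : ∀ c d, (fun z => F z c d) = fun z => ∑ k ∈ Finset.range N, g z ^ k * B k c d := by
    intro c d
    ext z
    simp [hF, Matrix.sum_apply]
  have hFd : ∀ c d, DifferentiableOn ℂ (fun z => F z c d) V := by
    intro c d
    rw [hFe]
    refine DifferentiableOn.fun_sum fun k _ => ?_
    exact (hg.pow k).mul_const _
  set q : Fin m → Fin m → Polynomial ℂ := fun c d =>
    ∑ k ∈ Finset.range N, p ^ k * Polynomial.C (B k c d) with hq
  have hag : ∀ c d, AgreesOnSpectrum A (fun z => F z c d) (q c d) := by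
    intro c d μ hμ
    rw [hFe]
    have hμV : μ ∈ V := hA (spectrum_subset_numRange A hμ)
    have hgμ : AnalyticAt ℂ g μ := hg.analyticAt (hV.mem_nhds hμV)
    have h1 : Ag n μ (fun z => p.eval z) g := hp μ hμ
    have h2 : Ag n μ (fun z => ∑ k ∈ Finset.range N, (p.eval z) ^ k * B k c d)
        (fun z => ∑ k ∈ Finset.range N, g z ^ k * B k c d) := by
      refine Ag.sum (f := fun k z => (p.eval z) ^ k * B k c d) (g := fun k z => g z ^ k * B k c d)
        N (fun k => ?_) (fun k => ?_) (fun k => ?_)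
      · exact (h1.pow (analyticAt_eval p μ) hgμ k).mul (Ag.refl n μ fun _ => B k c d)
          ((analyticAt_eval p μ).pow k) analyticAt_const (hgμ.pow k) analyticAt_const
      · exact ((analyticAt_eval p μ).pow k).mul analyticAt_const
      · exact (hgμ.pow k).mul analyticAt_const
    have h3 : (fun z => (q c d).eval z)
        = fun z => ∑ k ∈ Finset.range N, (p.eval z) ^ k * B k c d := by
      ext z
      simp [hq, Polynomial.eval_finsetSum]
    rw [h3]
    exact h2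
  have key := cb n m A V hV hVc hA F hFd M hM (fun z hz v => hB (g z) (hg1 z hz) v) q hag y
  convert key using 2
  ext i l
  rw [Matrix.sum_apply, Matrix.of_apply]
  have h4 : ∀ j l', Polynomial.aeval A (q i j) l l' * y j l'
      = ∑ k ∈ Finset.range N, B k i j * y j l' * ((Polynomial.aeval A p) ^ k) l l' := by
    intro j l'
    have : Polynomial.aeval A (q i j) = ∑ k ∈ Finset.range N, B k i j • (Polynomial.aeval A p) ^ k := by
      simp only [hq, map_sum, map_mul, map_pow, Polynomial.aeval_C]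
      refine Finset.sum_congr rfl fun k _ => ?_
      rw [Algebra.algebraMap_eq_smul_one, Matrix.mul_smul, Matrix.mul_one]
    rw [this, Matrix.sum_apply, Finset.sum_mul]
    refine Finset.sum_congr rfl fun k _ => ?_
    rw [Matrix.smul_apply, smul_eq_mul]
    ring
  simp_rw [h4]
  have h5 : ∀ j, ∑ l', ∑ k ∈ Finset.range N, B k i j * y j l' * ((Polynomial.aeval A p) ^ k) l l'
      = ∑ k ∈ Finset.range N, ∑ l', B k i j * y j l' * ((Polynomial.aeval A p) ^ k) l l' :=
    fun j => Finset.sum_comm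
  simp_rw [h5]
  rw [Finset.sum_comm]
  refine Finset.sum_congr rfl fun k _ => ?_
  rw [Matrix.mul_apply]
  simp only [Matrix.mul_apply, Finset.sum_mul]
  rw [Finset.sum_comm]
  refine Finset.sum_congr rfl fun j _ => Finset.sum_congr rfl fun l' _ => ?_
  rw [← Matrix.transpose_pow, Matrix.transpose_apply]

end Crest.Agent.R132.F
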