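import Mathlib

/-!
The Toeplitz–Hausdorff theorem: the numerical range of a linear operator on a complex inner product
space is convex.  Also: compactness and non-emptiness in finite dimension.
-/

set_option autoImplicit false

namespace Crest.Agent.R132

open scoped InnerProductSpace ComplexConjugate

variable {H : Type*} [NormedAddCommGroup H] [InnerProductSpace ℂ H]

/-- numerical range of a linear map. -/
def nRange (T : H →ₗ[ℂ] H) : Set ℂ := {z | ∃ x : H, ‖x‖ = 1 ∧ z = ⟪x, T x⟫_ℂ}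

theorem quad_expand (T : H →ₗ[ℂ] H) (x y : H) (α β : ℂ) :
    ⟪α • x + β • y, T (α • x + β • y)⟫_ℂ =
      conj α * α * ⟪x, T x⟫_ℂ + conj β * β * ⟪y, T y⟫_ℂ
        + conj α * β * ⟪x, T y⟫_ℂ + conj β * α * ⟪y, T x⟫_ℂ := by
  simp only [map_add, map_smul, inner_add_left, inner_add_right, inner_smul_left, inner_smul_right]
  ring

theorem exists_unit_im_zero (w : ℂ) : ∃ u : ℂ, ‖u‖ = 1 ∧ (u * w).im = 0 := by
  by_cases hw : w = 0
  · exact ⟨1, by simp, by simp [hw]⟩
  · refine ⟨conj w / ‖w‖, ?_, ?_⟩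
    · have : ‖w‖ ≠ 0 := norm_ne_zero_iff.2 hw
      rw [norm_div, RCLike.norm_conj, Complex.norm_real, norm_norm, div_self this]
    · have h : conj w / (‖w‖ : ℂ) * w = ((‖w‖ : ℝ) : ℂ) := by
        have : (‖w‖ : ℂ) ≠ 0 := by exact_mod_cast norm_ne_zero_iff.2 hw
        rw [div_mul_eq_mul_div, div_eq_iff this, ← Complex.ofReal_mul, ← sq,
          ← Complex.normSq_eq_norm_sq, ← Complex.normSq_eq_conj_mul_self]
      rw [h, Complex.ofReal_im]

/-- Toeplitz–Hausdorff. -/
theorem convex_nRange (T : H →ₗ[ℂ] H) : Convex ℝ (nRange T) := by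
  rw [convex_iff_forall_pos]
  rintro a ⟨x, hx, hxa⟩ b ⟨y, hy, hyb⟩ p q hp hq hpq
  by_cases hab : a = b
  · refine ⟨x, hx, ?_⟩
    rw [← hab, ← hxa, ← add_smul, hpq, one_smul]
  have hba : b - a ≠ 0 := sub_ne_zero.2 (Ne.symm hab)
  set c : ℂ := (⟪x, T y⟫_ℂ - a * ⟪x, y⟫_ℂ) / (b - a) with hc
  set d : ℂ := (⟪y, T x⟫_ℂ - a * ⟪y, x⟫_ℂ) / (b - a) with hd
  obtain ⟨u, hu, huim⟩ := exists_unit_im_zero (d - conj c)
  have huu : conj u * u = 1 := by
    rw [← Complex.normSq_eq_conj_mul_self, Complex.normSq_eq_norm_sq, hu]; norm_num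
  have him : (conj u * c + u * d).im = 0 := by
    have h1 : (conj u * c).im = -(u * conj c).im := by
      simp [Complex.mul_im]; ring
    rw [Complex.add_im, h1]
    rw [mul_sub, Complex.sub_im] at huim
    linarith
  set ρ : ℝ := (conj u * c + u * d).re with hρ
  have hρ' : conj u * c + u * d = (ρ : ℂ) := by
    apply Complex.ext
    · simp [hρ]
    · simpa using him
  -- the path
  set z : ℝ → H := fun t => ((1 - t : ℝ) * u : ℂ) • x + ((t : ℝ) : ℂ) • y with hz
  have hxx : ⟪x, x⟫_ℂ = 1 := by rw [inner_self_eq_norm_sq_to_K, hx]; norm_num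
  have hyy : ⟪y, y⟫_ℂ = 1 := by rw [inner_self_eq_norm_sq_to_K, hy]; norm_num
  have key : ∀ t : ℝ, ⟪z t, T (z t)⟫_ℂ - a * ((‖z t‖ ^ 2 : ℝ) : ℂ)
      = (b - a) * ((t ^ 2 + t * (1 - t) * ρ : ℝ) : ℂ) := by
    intro t
    have h1 := quad_expand T x y ((1 - t : ℝ) * u : ℂ) ((t : ℝ) : ℂ)
    have h2 := quad_expand (LinearMap.id) x y ((1 - t : ℝ) * u : ℂ) ((t : ℝ) : ℂ)
    have h3 : ((‖z t‖ ^ 2 : ℝ) : ℂ) = ⟪z t, z t⟫_ℂ := by
      rw [inner_self_eq_norm_sq_to_K]; push_cast; rfl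
    simp only [LinearMap.id_apply] at h2
    rw [h3, hz]
    simp only
    rw [h1, h2, ← hxa, ← hyb, hxx, hyy]
    have h4 : ⟪x, T y⟫_ℂ = (b - a) * c + a * ⟪x, y⟫_ℂ := by
      rw [hc]; field_simp; ring
    have h5 : ⟪y, T x⟫_ℂ = (b - a) * d + a * ⟪y, x⟫_ℂ := by
      rw [hd]; field_simp; ring
    rw [h4, h5]
    simp only [map_mul, Complex.conj_ofReal]
    push_cast
    linear_combination ((b - a) * t * (1 - t)) * hρ'
  have hzne : ∀ t : ℝ, z t ≠ 0 := by
    intro t h0
    -- `x` and `y` would be linearly dependent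
    by_cases ht : t = 0
    · rw [hz] at h0
      simp only [ht] at h0
      have : (u : ℂ) • x = 0 := by simpa using h0
      have h1 := congrArg norm this
      rw [norm_smul, hu, hx] at h1
      norm_num at h1
    · have hy' : y = (-((1 - t : ℝ) * u / t) : ℂ) • x := by
        have h1 : ((t : ℝ) : ℂ) • y = -(((1 - t : ℝ) * u : ℂ) • x) := by
          rw [eq_neg_iff_add_eq_zero, add_comm]; exact h0
        have ht' : ((t : ℝ) : ℂ) ≠ 0 := by exact_mod_cast ht
        calc y = (((t : ℝ) : ℂ)⁻¹ * ((t : ℝ) : ℂ)) • y := by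
              rw [inv_mul_cancel₀ ht', one_smul]
          _ = ((t : ℝ) : ℂ)⁻¹ • (((t : ℝ) : ℂ) • y) := by rw [mul_smul]
          _ = _ := by
              rw [h1, smul_neg, ← mul_smul, ← neg_smul]; congr 1; field_simp
      set lam : ℂ := (-((1 - t : ℝ) * u / t) : ℂ)
      have hlam : ‖lam‖ = 1 := by
        have := congrArg norm hy'
        rw [norm_smul, hx, hy, mul_one] at this
        exact this.symm
      have hll : conj lam * lam = 1 := by
        rw [← Complex.normSq_eq_conj_mul_self, Complex.normSq_eq_norm_sq, hlam]; norm_num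
      apply hab
      rw [hyb, hxa, hy', map_smul, inner_smul_left, inner_smul_right, ← mul_assoc, hll, one_mul]
  have hzcont : Continuous z := by
    rw [hz]
    fun_prop
  have hzpos : ∀ t, 0 < ‖z t‖ ^ 2 := fun t => by
    have := norm_pos_iff.2 (hzne t)
    positivity
  -- intermediate value theorem
  set g : ℝ → ℝ := fun t => (t ^ 2 + t * (1 - t) * ρ) / ‖z t‖ ^ 2 with hg
  have hgc : Continuous g := by
    rw [hg]
    refine Continuous.div (by fun_prop) (hzcont.norm.pow 2) (fun t => (hzpos t).ne')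
  have hg0 : g 0 = 0 := by simp [hg]
  have hg1 : g 1 = 1 := by
    have : ‖z 1‖ = 1 := by simp [hz, hy]
    simp [hg, this]
  have hq1 : q ∈ Set.Icc (g 0) (g 1) := by
    rw [hg0, hg1]; exact ⟨hq.le, by linarith⟩
  obtain ⟨t, -, ht⟩ := intermediate_value_Icc zero_le_one hgc.continuousOn hq1
  refine ⟨((‖z t‖ : ℂ)⁻¹) • z t, ?_, ?_⟩
  · rw [norm_smul, norm_inv, Complex.norm_real, norm_norm, inv_mul_cancel₀]
    exact norm_ne_zero_iff.2 (hzne t)
  · have hzt : ((‖z t‖ : ℝ) : ℂ) ≠ 0 := by exact_mod_cast norm_ne_zero_iff.2 (hzne t)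
    have h1 : ⟪z t, T (z t)⟫_ℂ = a * ((‖z t‖ ^ 2 : ℝ) : ℂ) + (b - a) * ((q * ‖z t‖ ^ 2 : ℝ) : ℂ) := by
      have h2 := key t
      have h3 : t ^ 2 + t * (1 - t) * ρ = q * ‖z t‖ ^ 2 := by
        rw [← ht, hg]
        exact (div_mul_cancel₀ _ (hzpos t).ne').symm
      rw [h3] at h2
      linear_combination h2
    rw [map_smul, inner_smul_left, inner_smul_right, h1]
    have h4 : conj ((‖z t‖ : ℂ)⁻¹) = (‖z t‖ : ℂ)⁻¹ := by
      rw [map_inv₀, Complex.conj_ofReal]
    rw [h4]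
    have hp' : (p : ℂ) = 1 - q := by
      have : p = 1 - q := by linarith
      rw [this]; push_cast; ring
    simp only [Complex.real_smul, hp']
    push_cast
    field_simp
    ring

/-- compactness in finite dimension. -/
theorem isCompact_nRange [FiniteDimensional ℂ H] (T : H →ₗ[ℂ] H) : IsCompact (nRange T) := by
  have h : nRange T = (fun x : H => ⟪x, T x⟫_ℂ) '' Metric.sphere 0 1 := by
    ext z
    constructor
    · rintro ⟨x, hx, rfl⟩
      exact ⟨x, by simpa using hx, rfl⟩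
    · rintro ⟨x, hx, rfl⟩
      exact ⟨x, by simpa using hx, rfl⟩
  rw [h]
  have : ProperSpace H := FiniteDimensional.proper ℂ H
  refine (isCompact_sphere 0 1).image ?_
  exact continuous_id.inner (LinearMap.continuous_of_finiteDimensional T)

theorem nRange_nonempty [Nontrivial H] (T : H →ₗ[ℂ] H) : (nRange T).Nonempty := by
  obtain ⟨x, hx⟩ := exists_ne (0 : H)
  refine ⟨_, ((‖x‖ : ℂ)⁻¹) • x, ?_, rfl⟩
  rw [norm_smul, norm_inv, Complex.norm_real, norm_norm, inv_mul_cancel₀]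
  exact norm_ne_zero_iff.2 hx

end Crest.Agent.R132
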