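import Mathlib
import Crest.Prelude.Def_NumRangeMetric
import Crest.Agent.R132.FDual5
import Crest.Agent.R132.ToeplitzHausdorff

set_option autoImplicit false
open scoped ComplexOrder Matrix
open Crest.AnalysisR.NumRange

namespace Crest.Agent.R132.F

/-- a strict version of the metric, for `T` with `ρ⁻¹ T` completely polynomially bounded by 2 -/
theorem exists_strict {n : ℕ} (T : Matrix (Fin n) (Fin n) ℂ) (ρ : ℝ) (h0 : 0 < ρ) (h1 : ρ < 1)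
    (hT : CPB (((ρ⁻¹ : ℝ) : ℂ) • T) 2) :
    ∃ H : Matrix (Fin n) (Fin n) ℂ, MetricFeasible T H 4 ∧
      (H - Tᴴ * H * T).PosDef := by
  obtain ⟨H, hH1, hH2, hH3⟩ := exists_metric (((ρ⁻¹ : ℝ) : ℂ) • T) (2 ^ 2) (by norm_num)
    (dual_ineq _ 2 (by norm_num) hT)
  have hHpos : H.PosSemidef := by
    have := hH1.add Matrix.PosSemidef.one
    simpa using this
  have hT' : (Tᴴ * H * T).PosSemidef := hHpos.conjTranspose_mul_mul_same T
  have hρ2 : 0 < 1 - ρ ^ 2 := by nlinarith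
  have e : H - Tᴴ * H * T = (((1 - ρ ^ 2 : ℝ) : ℂ) • (1 : Matrix (Fin n) (Fin n) ℂ))
      + (((1 - ρ ^ 2 : ℝ) : ℂ) • (H - 1)
      + ((ρ ^ 2 : ℝ) : ℂ) • (H - (((ρ⁻¹ : ℝ) : ℂ) • T)ᴴ * H * (((ρ⁻¹ : ℝ) : ℂ) • T))) := by
    have e1 : (((ρ⁻¹ : ℝ) : ℂ) • T)ᴴ * H * (((ρ⁻¹ : ℝ) : ℂ) • T)
        = ((ρ⁻¹ ^ 2 : ℝ) : ℂ) • (Tᴴ * H * T) := by
      have : star ((ρ⁻¹ : ℝ) : ℂ) = ((ρ⁻¹ : ℝ) : ℂ) := Complex.conj_ofReal _
      simp only [Matrix.conjTranspose_smul, Matrix.smul_mul, Matrix.mul_smul, smul_smul, this]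
      push_cast
      rw [sq]
    rw [e1, smul_sub, smul_sub, smul_smul, ← Complex.ofReal_mul]
    have e2 : ρ ^ 2 * ρ⁻¹ ^ 2 = 1 := by
      field_simp
    rw [e2]
    push_cast
    module
  have hpd : (H - Tᴴ * H * T).PosDef := by
    rw [e]
    refine Matrix.PosDef.add_posSemidef ?_ ?_
    · exact Matrix.PosDef.one.smul (by exact_mod_cast hρ2)
    · refine (hH1.smul (by exact_mod_cast hρ2.le)).add (hH3.smul (by exact_mod_cast sq_nonneg ρ))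
  refine ⟨H, ⟨hH1, ?_, hpd.posSemidef⟩, hpd⟩
  have : ((4 : ℝ) : ℂ) = ((2 ^ 2 : ℝ) : ℂ) := by norm_num
  rw [this]
  exact hH2

theorem one_le_of_feasible {n : ℕ} (hn : 1 ≤ n) (T H : Matrix (Fin n) (Fin n) ℂ) (τ : ℝ)
    (h : MetricFeasible T H τ) : 1 ≤ τ := by
  have h1 := h.1.add h.2.1
  have e : H - 1 + ((τ : ℂ) • (1 : Matrix (Fin n) (Fin n) ℂ) - H)
      = (τ : ℂ) • (1 : Matrix (Fin n) (Fin n) ℂ) - 1 := by abel
  rw [e] at h1
  have h2 := h1.diag_nonneg (i := (⟨0, hn⟩ : Fin n))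
  rw [Matrix.sub_apply, Matrix.smul_apply, Matrix.one_apply_eq, smul_eq_mul, mul_one] at h2
  have h3 := (Complex.le_def.1 h2).1
  simp at h3
  exact h3

theorem exists_optimal {n : ℕ} (hn : 1 ≤ n) (T : Matrix (Fin n) (Fin n) ℂ)
    (hex : ∃ H : Matrix (Fin n) (Fin n) ℂ, MetricFeasible T H 4) :
    ∃ (H : Matrix (Fin n) (Fin n) ℂ) (κsq : ℝ),
      IsOptimalMetric T H κsq ∧ 1 ≤ κsq ∧ κsq ≤ 4 := by
  set S : Set (Matrix (Fin n) (Fin n) ℂ × ℝ) := {x | MetricFeasible T x.1 x.2 ∧ x.2 ∈ Set.Icc (1 : ℝ) 4}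
    with hS
  have hcl : IsClosed S := by
    refine IsClosed.inter (IsClosed.inter ?_ (IsClosed.inter ?_ ?_)) ?_
    · exact isClosed_posSemidef.preimage
        (by fun_prop : Continuous fun x : Matrix (Fin n) (Fin n) ℂ × ℝ => x.1 - 1)
    · exact isClosed_posSemidef.preimage
        (by fun_prop : Continuous fun x : Matrix (Fin n) (Fin n) ℂ × ℝ =>
          (x.2 : ℂ) • (1 : Matrix (Fin n) (Fin n) ℂ) - x.1)
    · exact isClosed_posSemidef.preimage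
        (by fun_prop : Continuous fun x : Matrix (Fin n) (Fin n) ℂ × ℝ =>
          x.1 - Tᴴ * x.1 * T)
    · exact isClosed_Icc.preimage continuous_snd
  have hcomp : IsCompact S := by
    refine ((isCompact_metricSet (n := n) 4).prod (isCompact_Icc (a := (1 : ℝ)) (b := 4))).of_isClosed_subset
      hcl ?_
    rintro ⟨H, τ⟩ ⟨⟨h1, h2, h3⟩, h4⟩
    refine ⟨⟨h1, ?_⟩, h4⟩
    have e : ((4 : ℝ) : ℂ) • (1 : Matrix (Fin n) (Fin n) ℂ) - H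
        = ((τ : ℂ) • (1 : Matrix (Fin n) (Fin n) ℂ) - H)
          + ((4 - τ : ℝ) : ℂ) • (1 : Matrix (Fin n) (Fin n) ℂ) := by
      push_cast
      rw [sub_smul]
      abel
    show (((4 : ℝ) : ℂ) • (1 : Matrix (Fin n) (Fin n) ℂ) - H).PosSemidef
    rw [e]
    refine h2.add (Matrix.PosSemidef.one.smul ?_)
    have : (0 : ℝ) ≤ 4 - τ := by
      have := h4.2
      simp only at this
      linarith
    exact_mod_cast this
  obtain ⟨H₀, hH₀⟩ := hex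
  have hne : S.Nonempty := ⟨(H₀, 4), hH₀, ⟨by norm_num, le_rfl⟩⟩
  obtain ⟨⟨H, τ⟩, hmem, hmin⟩ := hcomp.exists_isMinOn hne continuous_snd.continuousOn
  refine ⟨H, τ, ⟨hmem.1, fun H' τ' h' => ?_⟩, hmem.2.1, hmem.2.2⟩
  rcases le_or_gt τ' 4 with h4 | h4
  · have := hmin (a := (H', τ')) ⟨h', ⟨one_le_of_feasible hn T H' τ' h', h4⟩⟩
    simpa using this
  · exact hmem.2.2.trans h4.le

theorem exists_good_nhd {n : ℕ} (A : Matrix (Fin n) (Fin n) ℂ) (Ω : Set ℂ) (hΩ₁ : IsOpen Ω)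
    (f : ℂ → ℂ) (hf₁ : DifferentiableOn ℂ f Ω)
    (hf₃ : ∀ z ∈ Ω, ‖f z‖ < 1) (hA : numRange A ⊆ Ω) :
    ∃ (V : Set ℂ) (ρ : ℝ), 0 < ρ ∧ ρ < 1 ∧ IsOpen V ∧ Convex ℝ V ∧ numRange A ⊆ V ∧ V ⊆ Ω ∧
      ∀ z ∈ V, ‖f z‖ < ρ := by
  set K := numRange A with hK
  have hKc : IsCompact K := isCompact_numRange A
  have hKΩ : K ⊆ Ω := hA
  have hfK : IsCompact (f '' K) := hKc.image_of_continuousOn (hf₁.continuousOn.mono hKΩ)
  obtain ⟨ρ, ⟨hρ0, hρ1⟩, hρ⟩ := exists_pos_lt_subset_ball (x := (0 : ℂ)) (r := 1) one_pos hfK.isClosed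
    (by rintro _ ⟨z, hz, rfl⟩; rw [mem_ball_zero_iff]; exact hf₃ z (hKΩ hz))
  have hO : IsOpen (Ω ∩ f ⁻¹' Metric.ball 0 ρ) :=
    hf₁.continuousOn.isOpen_inter_preimage hΩ₁ Metric.isOpen_ball
  have hKO : K ⊆ Ω ∩ f ⁻¹' Metric.ball 0 ρ := fun z hz => ⟨hKΩ hz, hρ ⟨z, hz, rfl⟩⟩
  obtain ⟨δ, hδ, hδO⟩ := hKc.exists_thickening_subset_open hO hKO
  refine ⟨Metric.thickening δ K, ρ, hρ0, hρ1, Metric.isOpen_thickening,
    (convex_nRange (Matrix.toEuclideanLin A)).thickening δ, ?_, ?_, ?_⟩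
  · exact Metric.self_subset_thickening hδ K
  · exact fun z hz => (hδO hz).1
  · exact fun z hz => mem_ball_zero_iff.1 (hδO hz).2

/-- S0180 from the complete Crouzeix bound. -/
theorem s0180_of_cb2 (cb : CB2Statement)
    (n : ℕ) (hn : 1 ≤ n) (A : Matrix (Fin n) (Fin n) ℂ)
    (Ω U : Set ℂ) (hΩ₁ : IsOpen Ω) (_hΩ₂ : Bornology.IsBounded Ω) (_hΩ₃ : Convex ℝ Ω)
    (_hU : IsOpen U) (hΩU : closure Ω ⊆ U)
    (f : ℂ → ℂ) (hf₁ : DifferentiableOn ℂ f U) (_hf₂ : Set.InjOn f U)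
    (hf₃ : f '' Ω = Metric.ball 0 1)
    (hA : numRange A ⊆ Ω) (p : Polynomial ℂ) (hp : AgreesOnSpectrum A f p) :
    (∃ (H : Matrix (Fin n) (Fin n) ℂ) (τ : ℝ), MetricStrictlyFeasible (Polynomial.aeval A p) H τ) ∧
    ∃ (H : Matrix (Fin n) (Fin n) ℂ) (κsq : ℝ),
      IsOptimalMetric (Polynomial.aeval A p) H κsq ∧ 1 ≤ κsq ∧ κsq ≤ 4 := by
  have hfΩ : DifferentiableOn ℂ f Ω := hf₁.mono (subset_closure.trans hΩU)
  obtain ⟨V, ρ, hρ0, hρ1, hV, hVc, hAV, hVΩ, hfV⟩ := exists_good_nhd A Ω hΩ₁ f hfΩ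
    (fun z hz => by
      have : f z ∈ Metric.ball (0 : ℂ) 1 := hf₃ ▸ ⟨z, hz, rfl⟩
      exact mem_ball_zero_iff.1 this) hA
  set T := Polynomial.aeval A p with hT
  have hcpb : CPB (((ρ⁻¹ : ℝ) : ℂ) • T) 2 := by
    have := cpb_of_cb2 cb A V hV hVc hAV (fun z => ((ρ⁻¹ : ℝ) : ℂ) * f z)
      ((hfΩ.mono hVΩ).const_mul _) (fun z hz => by
        rw [norm_mul, Complex.norm_real, Real.norm_of_nonneg (by positivity)]
        have := (hfV z hz).le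
        rw [inv_mul_le_iff₀ hρ0]
        linarith) (Polynomial.C ((ρ⁻¹ : ℝ) : ℂ) * p) (fun μ hμ => by
          have hμV : μ ∈ Ω := hA (spectrum_subset_numRange A hμ)
          have hgμ : AnalyticAt ℂ f μ := hfΩ.analyticAt (hΩ₁.mem_nhds hμV)
          have h1 : Ag n μ (fun z => p.eval z) f := hp μ hμ
          have h2 := (Ag.refl n μ fun _ => ((ρ⁻¹ : ℝ) : ℂ)).mul h1 analyticAt_const
            (analyticAt_eval p μ) analyticAt_const hgμ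
          have h3 : (fun z => (Polynomial.C ((ρ⁻¹ : ℝ) : ℂ) * p).eval z)
              = fun z => ((ρ⁻¹ : ℝ) : ℂ) * p.eval z := by
            ext z
            simp
          rw [h3]
          exact h2)
    rw [map_mul, Polynomial.aeval_C, Algebra.algebraMap_eq_smul_one, Matrix.smul_mul,
      Matrix.one_mul] at this
    exact this
  obtain ⟨H, hH, hHpd⟩ := exists_strict T ρ hρ0 hρ1 hcpb
  refine ⟨⟨((2 : ℝ) : ℂ) • H, 9, ?_, ?_, ?_⟩, exists_optimal hn T ⟨H, hH⟩⟩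
  · have e : ((2 : ℝ) : ℂ) • H - 1 = 1 + ((2 : ℝ) : ℂ) • (H - 1) := by
      rw [smul_sub]
      have : ((2 : ℝ) : ℂ) • (1 : Matrix (Fin n) (Fin n) ℂ) = 1 + 1 := by
        push_cast
        rw [two_smul]
      rw [this]
      abel
    rw [e]
    exact Matrix.PosDef.one.add_posSemidef (hH.1.smul (by norm_num))
  · have e : ((9 : ℝ) : ℂ) • (1 : Matrix (Fin n) (Fin n) ℂ) - ((2 : ℝ) : ℂ) • H
        = 1 + ((2 : ℝ) : ℂ) • (((4 : ℝ) : ℂ) • (1 : Matrix (Fin n) (Fin n) ℂ) - H) := by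
      rw [smul_sub, smul_smul]
      have : ((9 : ℝ) : ℂ) • (1 : Matrix (Fin n) (Fin n) ℂ)
          = 1 + (((2 : ℝ) : ℂ) * ((4 : ℝ) : ℂ)) • (1 : Matrix (Fin n) (Fin n) ℂ) := by
        nth_rewrite 2 [← one_smul ℂ (1 : Matrix (Fin n) (Fin n) ℂ)]
        rw [← add_smul]
        norm_num
      rw [this]
      abel
    rw [e]
    exact Matrix.PosDef.one.add_posSemidef (hH.2.1.smul (by norm_num))
  · have e : ((2 : ℝ) : ℂ) • H - Tᴴ * (((2 : ℝ) : ℂ) • H) * T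
        = ((2 : ℝ) : ℂ) • (H - Tᴴ * H * T) := by
      rw [smul_sub, Matrix.mul_smul, Matrix.smul_mul]
    show (((2 : ℝ) : ℂ) • H - Tᴴ * (((2 : ℝ) : ℂ) • H) * T).PosDef
    rw [e]
    exact hHpd.smul (by norm_num)

end Crest.Agent.R132.F
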