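import Mathlib
import Crest.Prelude.Def_NumRangeMetric

/-!
Holomorphic functional calculus for matrices through `AgreesOnSpectrum` (row 132, piece G).
-/

set_option autoImplicit false

namespace Crest.Agent.R132.G

open Polynomial Filter Topology Crest.AnalysisR.NumRange

/-- Division of a holomorphic function by a split polynomial. -/
theorem exists_division (V : Set ℂ) (hV : IsOpen V) (s : Multiset ℂ) (hs : ∀ μ ∈ s, μ ∈ V)
    (F : ℂ → ℂ) (hF : DifferentiableOn ℂ F V) :
    ∃ (q : ℂ[X]) (k : ℂ → ℂ), DifferentiableOn ℂ k V ∧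
      ∀ z, F z = q.eval z + ((s.map (fun a => X - C a)).prod).eval z * k z := by
  induction s using Multiset.induction_on with
  | empty => exact ⟨0, F, hF, fun z => by simp⟩
  | cons μ s ih =>
    obtain ⟨q, k, hk, hq⟩ := ih (fun x hx => hs x (Multiset.mem_cons_of_mem hx))
    have hμ : μ ∈ V := hs μ (Multiset.mem_cons_self μ s)
    refine ⟨q + C (k μ) * (s.map (fun a => X - C a)).prod, dslope k μ,
      (Complex.differentiableOn_dslope (hV.mem_nhds hμ)).mpr hk, fun z => ?_⟩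
    have h1 := sub_smul_dslope k μ z
    rw [smul_eq_mul] at h1
    have h2 : k z = k μ + (z - μ) * dslope k μ z := by rw [h1]; ring
    rw [hq z]
    simp only [eval_add, eval_mul, eval_C, Multiset.map_cons, Multiset.prod_cons, eval_sub, eval_X]
    rw [h2]
    ring

/-- a polynomial vanishing to order `n` at `μ` is divisible by `(X - μ)^n` -/
theorem pow_dvd_of_order (n : ℕ) (P : ℂ[X]) (μ : ℂ)
    (h : (n : ℕ∞) ≤ analyticOrderAt (fun z => P.eval z) μ) : (X - C μ) ^ n ∣ P := by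
  induction n generalizing P with
  | zero => simp
  | succ n ih =>
    have h0 : P.eval μ = 0 := by
      by_contra h0
      have hA : AnalyticAt ℂ (fun z => P.eval z) μ :=
        (Differentiable.analyticAt (by fun_prop) μ)
      rw [(hA.analyticOrderAt_eq_zero).2 h0] at h
      simp at h
    obtain ⟨Q, rfl⟩ := dvd_iff_isRoot.mpr h0
    have hX : analyticOrderAt (fun z => (X - C μ).eval z) μ = 1 := by
      have : (fun z => (X - C μ).eval z) = fun z => id z - id μ := by
        funext z; simp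
      rw [this]
      exact AnalyticAt.analyticOrderAt_sub_eq_one_of_deriv_ne_zero analyticAt_id (by simp)
    have hmul : (fun z => ((X - C μ) * Q).eval z) =
        (fun z => (X - C μ).eval z) • (fun z => Q.eval z) := by
      funext z; simp
    rw [hmul, analyticOrderAt_smul (Differentiable.analyticAt (by fun_prop) μ)
      (Differentiable.analyticAt (by fun_prop) μ), hX] at h
    have h' : (n : ℕ∞) ≤ analyticOrderAt (fun z => Q.eval z) μ := by
      rw [Nat.cast_add, Nat.cast_one, add_comm] at h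
      exact (ENat.add_le_add_iff_left (by simp)).1 h
    rw [pow_succ']
    exact mul_dvd_mul_left _ (ih Q h')

variable {n : ℕ}

theorem isRoot_charpoly_iff (A : Matrix (Fin n) (Fin n) ℂ) (μ : ℂ) :
    μ ∈ spectrum ℂ A ↔ A.charpoly.IsRoot μ :=
  Matrix.mem_spectrum_iff_isRoot_charpoly

theorem aeval_eq_zero_of_order (A : Matrix (Fin n) (Fin n) ℂ) (P : ℂ[X])
    (h : ∀ μ ∈ spectrum ℂ A, (n : ℕ∞) ≤ analyticOrderAt (fun z => P.eval z) μ) :
    aeval A P = 0 := by
  by_cases hP : P = 0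
  · simp [hP]
  have hmonic := A.charpoly_monic
  have hsplit : A.charpoly.Splits := IsAlgClosed.splits _
  have hdvd : A.charpoly ∣ P := by
    have hprod : A.charpoly = (A.charpoly.roots.map (fun a => X - C a)).prod := by
      have := hsplit.eq_prod_roots
      rw [hmonic.leadingCoeff, C_1, one_mul] at this
      exact this
    rw [hprod, Multiset.prod_X_sub_C_dvd_iff_le_roots hP, Multiset.le_iff_count]
    intro μ
    by_cases hμ : μ ∈ A.charpoly.roots
    · have hμ' : μ ∈ spectrum ℂ A := by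
        rw [isRoot_charpoly_iff]
        exact (mem_roots hmonic.ne_zero).1 hμ
      have h1 := pow_dvd_of_order n P μ (h μ hμ')
      have h2 : n ≤ P.rootMultiplicity μ := (le_rootMultiplicity_iff hP).2 h1
      have h3 : A.charpoly.roots.count μ ≤ n := by
        refine (Multiset.count_le_card _ _).trans ((card_roots' _).trans ?_)
        rw [A.charpoly_natDegree_eq_dim]
        simp
      rw [count_roots P]
      exact h3.trans h2
    · rw [Multiset.count_eq_zero_of_notMem hμ]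
      exact Nat.zero_le _
  obtain ⟨Q, rfl⟩ := hdvd
  rw [map_mul, A.aeval_self_charpoly, zero_mul]

/-- `q` agrees with `F` to order `n` on the spectrum, in the order-of-vanishing formulation. -/
def Agr (A : Matrix (Fin n) (Fin n) ℂ) (F : ℂ → ℂ) (q : ℂ[X]) : Prop :=
  ∀ μ ∈ spectrum ℂ A, (n : ℕ∞) ≤ analyticOrderAt (fun z => F z - q.eval z) μ

theorem Agr.of_agrees {A : Matrix (Fin n) (Fin n) ℂ} {F : ℂ → ℂ} {q : ℂ[X]}
    (hF : ∀ μ ∈ spectrum ℂ A, AnalyticAt ℂ F μ) (h : AgreesOnSpectrum A F q) : Agr A F q := by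
  intro μ hμ
  have hq : AnalyticAt ℂ (fun z => q.eval z) μ := Differentiable.analyticAt (by fun_prop) μ
  rw [natCast_le_analyticOrderAt_iff_iteratedDeriv_eq_zero ((hF μ hμ).fun_sub hq)]
  intro j hj
  have h1 := iteratedDeriv_fun_sub (n := j) ((hF μ hμ).contDiffAt (n := (j : WithTop ℕ∞)))
    (hq.contDiffAt (n := (j : WithTop ℕ∞)))
  rw [h1, h μ hμ j hj, sub_self]

theorem Agr.unique {A : Matrix (Fin n) (Fin n) ℂ} {F : ℂ → ℂ} {q₁ q₂ : ℂ[X]}
    (h₁ : Agr A F q₁) (h₂ : Agr A F q₂) : aeval A q₁ = aeval A q₂ := by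
  have : aeval A (q₁ - q₂) = 0 := by
    refine aeval_eq_zero_of_order A _ (fun μ hμ => ?_)
    have h3 := le_analyticOrderAt_sub (f := fun z => F z - q₂.eval z)
      (g := fun z => F z - q₁.eval z) (z₀ := μ)
    have h4 : ((fun z => F z - q₂.eval z) - (fun z => F z - q₁.eval z)) =
        fun z => (q₁ - q₂).eval z := by
      funext z; simp
    rw [h4] at h3
    exact (le_min (h₂ μ hμ) (h₁ μ hμ)).trans h3
  rw [map_sub, sub_eq_zero] at this
  exact this

/-- If `F = q + χ_A ^ n * k` near the spectrum then `q` agrees with `F`. -/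
theorem Agr.of_pow {A : Matrix (Fin n) (Fin n) ℂ} {F k : ℂ → ℂ} {q : ℂ[X]}
    (hk : ∀ μ ∈ spectrum ℂ A, AnalyticAt ℂ k μ)
    (h : ∀ z, F z = q.eval z + (A.charpoly ^ n).eval z * k z) : Agr A F q := by
  intro μ hμ
  have h1 : (fun z => F z - q.eval z) =
      (fun z => (A.charpoly ^ n).eval z) • k := by
    funext z
    simp [h z]
  have hroot : A.charpoly.eval μ = 0 := (isRoot_charpoly_iff A μ).1 hμ
  obtain ⟨R, hR⟩ := dvd_iff_isRoot.mpr ((isRoot_charpoly_iff A μ).1 hμ)
  have hA1 : AnalyticAt ℂ (fun z => (A.charpoly ^ n).eval z) μ :=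
    Differentiable.analyticAt (by fun_prop) μ
  rw [h1, analyticOrderAt_smul hA1 (hk μ hμ)]
  refine le_trans ?_ le_self_add
  rw [natCast_le_analyticOrderAt hA1]
  refine ⟨fun z => (R ^ n).eval z, Differentiable.analyticAt (by fun_prop) μ,
    Eventually.of_forall fun z => ?_⟩
  rw [hR]
  simp [mul_pow]

/-- Existence of the interpolating polynomial together with the analytic remainder. -/
theorem exists_agr (A : Matrix (Fin n) (Fin n) ℂ) (V : Set ℂ) (hV : IsOpen V)
    (hs : spectrum ℂ A ⊆ V) (F : ℂ → ℂ) (hF : DifferentiableOn ℂ F V) :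
    ∃ (q : ℂ[X]) (k : ℂ → ℂ), DifferentiableOn ℂ k V ∧ Agr A F q ∧
      ∀ z, F z = q.eval z + (A.charpoly ^ n).eval z * k z := by
  have hmonic := A.charpoly_monic
  have hsplit : A.charpoly.Splits := IsAlgClosed.splits _
  have hprod : A.charpoly = (A.charpoly.roots.map (fun a => X - C a)).prod := by
    have := hsplit.eq_prod_roots
    rw [hmonic.leadingCoeff, C_1, one_mul] at this
    exact this
  obtain ⟨q, k, hk, hq⟩ := exists_division V hV (n • A.charpoly.roots)
    (fun μ hμ => hs (by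
      rw [isRoot_charpoly_iff]
      exact (mem_roots hmonic.ne_zero).1 (Multiset.mem_of_mem_nsmul hμ))) F hF
  have hq' : ∀ z, F z = q.eval z + (A.charpoly ^ n).eval z * k z := by
    intro z
    rw [hq z, Multiset.map_nsmul, Multiset.prod_nsmul, ← hprod]
  refine ⟨q, k, hk, Agr.of_pow (fun μ hμ => ?_) hq', hq'⟩
  exact hk.analyticAt (hV.mem_nhds (hs hμ))


/-- local vanishing to order `n` -/
def Van (n : ℕ) (μ : ℂ) (F : ℂ → ℂ) : Prop :=
  ∃ k : ℂ → ℂ, AnalyticAt ℂ k μ ∧ ∀ᶠ z in 𝓝 μ, F z = (z - μ) ^ n * k z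

theorem Van.add {n : ℕ} {μ : ℂ} {F₁ F₂ : ℂ → ℂ} (h₁ : Van n μ F₁) (h₂ : Van n μ F₂) :
    Van n μ (fun z => F₁ z + F₂ z) := by
  obtain ⟨k₁, hk₁, e₁⟩ := h₁
  obtain ⟨k₂, hk₂, e₂⟩ := h₂
  refine ⟨fun z => k₁ z + k₂ z, hk₁.fun_add hk₂, ?_⟩
  filter_upwards [e₁, e₂] with z h1 h2
  rw [h1, h2]; ring

theorem Van.mul {n : ℕ} {μ : ℂ} {F₁ F₂ : ℂ → ℂ} (h₁ : AnalyticAt ℂ F₁ μ) (h₂ : Van n μ F₂) :
    Van n μ (fun z => F₁ z * F₂ z) := by
  obtain ⟨k₂, hk₂, e₂⟩ := h₂
  refine ⟨fun z => F₁ z * k₂ z, h₁.fun_mul hk₂, ?_⟩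
  filter_upwards [e₂] with z h2
  rw [h2]; ring

theorem Van.congr {n : ℕ} {μ : ℂ} {F₁ F₂ : ℂ → ℂ} (h₁ : Van n μ F₁)
    (h : ∀ᶠ z in 𝓝 μ, F₂ z = F₁ z) : Van n μ F₂ := by
  obtain ⟨k₁, hk₁, e₁⟩ := h₁
  refine ⟨k₁, hk₁, ?_⟩
  filter_upwards [e₁, h] with z h1 h2
  rw [h2, h1]

theorem Van.analyticAt {n : ℕ} {μ : ℂ} {F : ℂ → ℂ} (h : Van n μ F) : AnalyticAt ℂ F μ := by
  obtain ⟨k, hk, e⟩ := h
  have : AnalyticAt ℂ (fun z => (z - μ) ^ n * k z) μ := by fun_prop
  exact this.congr (by filter_upwards [e] with z hz; exact hz.symm)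

theorem Van.order {n : ℕ} {μ : ℂ} {F : ℂ → ℂ} (h : Van n μ F) :
    (n : ℕ∞) ≤ analyticOrderAt F μ := by
  rw [natCast_le_analyticOrderAt h.analyticAt]
  obtain ⟨k, hk, e⟩ := h
  exact ⟨k, hk, by simpa using e⟩

theorem Van.of_order {n : ℕ} (hn : 1 ≤ n) {μ : ℂ} {F : ℂ → ℂ}
    (h : (n : ℕ∞) ≤ analyticOrderAt F μ) : Van n μ F := by
  have hA : AnalyticAt ℂ F μ := by
    by_contra hA
    rw [analyticOrderAt_of_not_analyticAt hA] at h
    have : n = 0 := by simpa using h
    omega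
  obtain ⟨k, hk, e⟩ := (natCast_le_analyticOrderAt hA).1 h
  exact ⟨k, hk, by simpa using e⟩

/-- Polynomials are "Lipschitz" for `Van`. -/
theorem Van.poly {n : ℕ} {μ : ℂ} {f₁ f₂ : ℂ → ℂ} (h₁ : AnalyticAt ℂ f₁ μ)
    (h₂ : AnalyticAt ℂ f₂ μ) (h : Van n μ (fun z => f₁ z - f₂ z)) (s : ℂ[X]) :
    Van n μ (fun z => s.eval (f₁ z) - s.eval (f₂ z)) := by
  have hpow : ∀ j : ℕ, Van n μ (fun z => f₁ z ^ j - f₂ z ^ j) := by
    intro j
    induction j with
    | zero => exact ⟨fun _ => 0, analyticAt_const, by simp⟩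
    | succ j ih =>
      refine ((ih.mul h₁).add (h.mul (h₂.fun_pow j))).congr (Eventually.of_forall fun z => ?_)
      ring
  induction s using Polynomial.induction_on' with
  | add p q hp hq =>
    refine (hp.add hq).congr (Eventually.of_forall fun z => ?_)
    simp only [eval_add]
    ring
  | monomial j a =>
    refine ((hpow j).mul (analyticAt_const (v := a))).congr (Eventually.of_forall fun z => ?_)
    simp only [eval_monomial]
    ring

/-- composition of the functional calculus -/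
theorem Agr.comp (hn : 1 ≤ n) {A : Matrix (Fin n) (Fin n) ℂ} {f g : ℂ → ℂ} {p s : ℂ[X]}
    (hp : Agr A f p) (hg : Agr (aeval A p) g s)
    (hgA : ∀ μ ∈ spectrum ℂ (aeval A p), AnalyticAt ℂ g μ) :
    Agr A (fun z => g (f z)) (s.comp p) := by
  intro μ hμ
  have hpA : AnalyticAt ℂ (fun z => p.eval z) μ := Differentiable.analyticAt (by fun_prop) μ
  have hv := Van.of_order hn (hp μ hμ)
  have hfA : AnalyticAt ℂ f μ := by
    have := hv.analyticAt.fun_add hpA
    simpa using this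
  have hfp : f μ = p.eval μ := by
    obtain ⟨k, hk, e⟩ := hv
    have := e.self_of_nhds
    simp only [sub_self, zero_pow (show n ≠ 0 by omega), zero_mul] at this
    exact sub_eq_zero.1 this
  have hspec : f μ ∈ spectrum ℂ (aeval A p) := by
    rw [hfp]
    have := spectrum.subset_polynomial_aeval (𝕜 := ℂ) A p
    exact this ⟨μ, hμ, rfl⟩
  -- the first part : (g - s) ∘ f
  have h1 : Van n μ (fun z => g (f z) - s.eval (f z)) := by
    obtain ⟨k, hk, e⟩ := Van.of_order hn (hg (f μ) hspec)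
    have e' : ∀ᶠ z in 𝓝 μ, g (f z) - s.eval (f z) = (f z - f μ) ^ n * k (f z) :=
      hfA.continuousAt.eventually e
    have hds : Van 1 μ (fun z => f z - f μ) := by
      obtain ⟨V, hVs, hV, hμV⟩ := eventually_nhds_iff.1 hfA.eventually_analyticAt
      refine ⟨dslope f μ, ?_, Eventually.of_forall fun z => ?_⟩
      · have hd : DifferentiableOn ℂ f V := fun z hz => (hVs z hz).differentiableAt.differentiableWithinAt
        exact ((Complex.differentiableOn_dslope (hV.mem_nhds hμV)).mpr hd).analyticAt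
          (hV.mem_nhds hμV)
      · rw [pow_one, ← smul_eq_mul, sub_smul_dslope]
    obtain ⟨k₂, hk₂, e₂⟩ := hds
    refine ⟨fun z => k₂ z ^ n * k (f z), (hk₂.fun_pow n).fun_mul ?_, ?_⟩
    · exact hk.fun_comp hfA
    · filter_upwards [e', e₂] with z h3 h4
      rw [h3, h4, mul_pow]; ring
  have h2 : Van n μ (fun z => s.eval (f z) - s.eval (p.eval z)) := Van.poly hfA hpA hv s
  refine Van.order ((h1.add h2).congr (Eventually.of_forall fun z => ?_))
  simp only [eval_comp]
  ring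

/-- `(g ∘ f)(A) = g (f(A))`. -/
theorem aeval_comp_eq (hn : 1 ≤ n) {A : Matrix (Fin n) (Fin n) ℂ} {f g h : ℂ → ℂ} {p s q : ℂ[X]}
    (hp : Agr A f p) (hg : Agr (aeval A p) g s)
    (hgA : ∀ μ ∈ spectrum ℂ (aeval A p), AnalyticAt ℂ g μ)
    (hq : Agr A h q) (hh : ∀ μ ∈ spectrum ℂ A, ∀ᶠ z in 𝓝 μ, h z = g (f z)) :
    aeval (aeval A p) s = aeval A q := by
  have h1 := Agr.comp hn hp hg hgA
  have h2 : Agr A h (s.comp p) := by
    intro μ hμ
    have := h1 μ hμ
    rwa [analyticOrderAt_congr (g := fun z => g (f z) - (s.comp p).eval z)]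
    filter_upwards [hh μ hμ] with z hz
    rw [hz]
  rw [← Agr.unique h2 hq, aeval_comp]

/-- eigenvalues lie in the numerical range -/
theorem spectrum_subset_numRange (A : Matrix (Fin n) (Fin n) ℂ) :
    spectrum ℂ A ⊆ numRange A := by
  intro μ hμ
  rw [← Matrix.spectrum_toLin'] at hμ
  rw [← Module.End.hasEigenvalue_iff_mem_spectrum] at hμ
  obtain ⟨v, hv⟩ := hμ.exists_hasEigenvector
  have hv0 : v ≠ 0 := hv.2
  have hv1 : Matrix.toLin' A v = μ • v := hv.apply_eq_smul
  set x : EuclideanSpace ℂ (Fin n) := WithLp.toLp 2 v with hx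
  have hx0 : x ≠ 0 := by
    intro h
    apply hv0
    have := congrArg (WithLp.ofLp) h
    simpa [hx] using this
  have hAx : Matrix.toEuclideanLin A x = μ • x := by
    rw [hx]
    ext i
    simp only [Matrix.toLpLin_toLp, PiLp.smul_apply]
    have := congrFun hv1 i
    simpa using this
  have hnx : ‖x‖ ≠ 0 := norm_ne_zero_iff.2 hx0
  refine ⟨((‖x‖ : ℂ)⁻¹) • x, ?_, ?_⟩
  · rw [norm_smul, norm_inv, Complex.norm_real, norm_norm, inv_mul_cancel₀ hnx]
  · rw [map_smul, hAx, inner_smul_left, inner_smul_right, inner_smul_right,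
      inner_self_eq_norm_sq_to_K]
    simp only [map_inv₀, Complex.conj_ofReal]
    have : ((‖x‖ : ℝ) : ℂ) ≠ 0 := by exact_mod_cast hnx
    field_simp
    simp

end Crest.Agent.R132.G
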