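import Crest.Agent.R132.Markov

/-!
The resolvent in exterior coordinates and the functional calculus.
-/

namespace Crest.Agent.R132

open Complex MeasureTheory Metric Set Filter Topology
open scoped Real ComplexConjugate InnerProductSpace

variable {φ : ℂ → ℂ} {ρ : ℝ}
variable {H : Type*} [NormedAddCommGroup H] [InnerProductSpace ℂ H] [CompleteSpace H]

set_option linter.unusedSectionVars false

/-- `R(w) = ψ(w) (φ(w) - w A)⁻¹ = t G'(t) (G(t) - A)⁻¹`, `t = 1/w`. -/
noncomputable def Rz (φ : ℂ → ℂ) (A : H →L[ℂ] H) (w : ℂ) : H →L[ℂ] H :=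
  psi φ w • Ring.inverse (φ w • (1 : H →L[ℂ] H) - w • A)

/-- The functional calculus `f[A] = avg f(G(t)) R(t)`. -/
noncomputable def funcalc (φ : ℂ → ℂ) (A : H →L[ℂ] H) (f : ℂ → ℂ) : H →L[ℂ] H :=
  (2 * π)⁻¹ • ∫ θ in (0)..(2 * π),
    (f (φ (circleMap 0 1 θ) / circleMap 0 1 θ) * psi φ (circleMap 0 1 θ)) •
      Ring.inverse (φ (circleMap 0 1 θ) • (1 : H →L[ℂ] H) - circleMap 0 1 θ • A)

theorem funcalc_eq (φ : ℂ → ℂ) (A : H →L[ℂ] H) (f : ℂ → ℂ) :
    funcalc φ A f = ∫ θ, f (φ (e θ) / e θ) • Rz φ A (e θ) ∂nu := by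
  rw [integral_nu, funcalc]
  congr 1
  apply intervalIntegral.integral_congr
  intro θ _
  simp only [Rz, e, smul_smul]

/-- The spectral assumption. -/
def Res (φ : ℂ → ℂ) (ρ : ℝ) (A : H →L[ℂ] H) : Prop :=
  ∀ w ∈ ball (0 : ℂ) ρ, IsUnit (φ w • (1 : H →L[ℂ] H) - w • A)

variable {A : H →L[ℂ] H}

theorem Ext0.diff_Rz (h : Ext0 φ ρ) (hA : Res φ ρ A) : DifferentiableOn ℂ (Rz φ A) (ball 0 ρ) := by
  intro w hw
  have hwn := isOpen_ball.mem_nhds hw
  apply DifferentiableAt.differentiableWithinAt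
  unfold Rz
  have h1 : DifferentiableAt ℂ (psi φ) w := h.diff_psi.differentiableAt hwn
  have h2 : DifferentiableAt ℂ (fun w => φ w • (1 : H →L[ℂ] H) - w • A) w :=
    ((h.differentiableAt hw).smul_const _).sub (differentiableAt_id.smul_const _)
  have h3 : DifferentiableAt ℂ (fun w => Ring.inverse (φ w • (1 : H →L[ℂ] H) - w • A)) w :=
    DifferentiableAt.comp w (g := Ring.inverse) (differentiableAt_inverse (𝕜 := ℂ) (hA w hw)) h2
  exact h1.smul h3

theorem Ext0.Rz_zero (h : Ext0 φ ρ) (hA : Res φ ρ A) : Rz φ A 0 = 1 := by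
  have h0b : (0 : ℂ) ∈ ball (0 : ℂ) ρ := by simpa using lt_trans one_pos h.one_lt
  have h1 := Ring.mul_inverse_cancel _ (hA 0 h0b)
  unfold Rz psi
  simp only [zero_mul, sub_zero, zero_smul] at h1 ⊢
  rwa [smul_mul_assoc, one_mul] at h1

/-- `g R = A R + ψ/w`, left version. -/
theorem Rz_left {w : ℂ} (hw : w ≠ 0) (hA : IsUnit (φ w • (1 : H →L[ℂ] H) - w • A)) :
    (φ w / w) • Rz φ A w = A * Rz φ A w + (psi φ w / w) • (1 : H →L[ℂ] H) := by
  have h1 := Ring.mul_inverse_cancel _ hA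
  rw [sub_mul, smul_mul_assoc, one_mul, smul_mul_assoc] at h1
  unfold Rz
  set Q := Ring.inverse (φ w • (1 : H →L[ℂ] H) - w • A)
  have h2 : (1 : H →L[ℂ] H) = φ w • Q - w • (A * Q) := h1.symm
  rw [h2, mul_smul_comm, smul_sub, smul_smul, smul_smul, smul_smul]
  have h3 : psi φ w / w * w = psi φ w := div_mul_cancel₀ _ hw
  rw [h3]
  have h4 : φ w / w * psi φ w = psi φ w / w * φ w := by ring
  rw [h4]
  abel

/-- `g R = R A + ψ/w`, right version. -/
theorem Rz_right {w : ℂ} (hw : w ≠ 0) (hA : IsUnit (φ w • (1 : H →L[ℂ] H) - w • A)) :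
    (φ w / w) • Rz φ A w = Rz φ A w * A + (psi φ w / w) • (1 : H →L[ℂ] H) := by
  have h1 := Ring.inverse_mul_cancel _ hA
  rw [mul_sub, mul_smul_comm, mul_one, mul_smul_comm] at h1
  unfold Rz
  set Q := Ring.inverse (φ w • (1 : H →L[ℂ] H) - w • A)
  have h2 : (1 : H →L[ℂ] H) = φ w • Q - w • (Q * A) := h1.symm
  rw [h2, smul_mul_assoc, smul_sub, smul_smul, smul_smul, smul_smul]
  have h3 : psi φ w / w * w = psi φ w := div_mul_cancel₀ _ hw
  rw [h3]
  have h4 : φ w / w * psi φ w = psi φ w / w * φ w := by ring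
  rw [h4]
  abel

/-- Curve data for a function `F`: continuous along the curve and analytic on a convex open
neighbourhood. -/
structure OnCurve (φ : ℂ → ℂ) (V : Set ℂ) : Prop where
  isOpen : IsOpen V
  convex : Convex ℝ V
  mem : ∀ u : ℂ, ‖u‖ = 1 → φ u / u ∈ V

variable {V : Set ℂ}

theorem Ext0.continuous_F (h : Ext0 φ ρ) (hV : OnCurve φ V) {F : ℂ → ℂ}
    (hF : DifferentiableOn ℂ F V) : Continuous fun θ => F (φ (e θ) / e θ) :=
  hF.continuousOn.comp_continuous (h.continuous_phi.div continuous_e e_ne_zero)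
      (fun θ => hV.mem _ (norm_e θ))

theorem Ext0.continuous_Rz (h : Ext0 φ ρ) (hA : Res φ ρ A) : Continuous fun θ => Rz φ A (e θ) :=
  continuous_comp_e h.one_lt (h.diff_Rz hA)

theorem Ext0.integrable_F (h : Ext0 φ ρ) (hA : Res φ ρ A) (hV : OnCurve φ V) {F : ℂ → ℂ}
    (hF : DifferentiableOn ℂ F V) :
    Integrable (fun θ => F (φ (e θ) / e θ) • Rz φ A (e θ)) nu :=
  integrable_of_continuous ((h.continuous_F hV hF).smul (h.continuous_Rz hA))

theorem Ext0.funcalc_add (h : Ext0 φ ρ) (hA : Res φ ρ A) (hV : OnCurve φ V) {F F' : ℂ → ℂ}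
    (hF : DifferentiableOn ℂ F V) (hF' : DifferentiableOn ℂ F' V) :
    funcalc φ A (fun z => F z + F' z) = funcalc φ A F + funcalc φ A F' := by
  rw [funcalc_eq, funcalc_eq, funcalc_eq,
    ← integral_add (h.integrable_F hA hV hF) (h.integrable_F hA hV hF')]
  simp only [add_smul]

theorem funcalc_const_mul (c : ℂ) (F : ℂ → ℂ) :
    funcalc φ A (fun z => c * F z) = c • funcalc φ A F := by
  rw [funcalc_eq, funcalc_eq, ← integral_smul]
  simp only [smul_smul]

theorem Ext0.funcalc_X_left (h : Ext0 φ ρ) (hA : Res φ ρ A) (hV : OnCurve φ V) {F : ℂ → ℂ}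
    (hF : DifferentiableOn ℂ F V) :
    funcalc φ A (fun z => z * F z) = A * funcalc φ A F := by
  have hi := h.integrable_F hA hV hF
  have h1 : ∀ θ, (φ (e θ) / e θ * F (φ (e θ) / e θ)) • Rz φ A (e θ)
      = A * (F (φ (e θ) / e θ) • Rz φ A (e θ))
        + (F (φ (e θ) / e θ) * (psi φ (e θ) / e θ)) • (1 : H →L[ℂ] H) := by
    intro θ
    rw [mul_comm (φ (e θ) / e θ), mul_smul, Rz_left (e_ne_zero θ)
      (hA _ (h.mem_of_norm (norm_e θ))), smul_add, mul_smul_comm, smul_smul]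
  have hi2 : Integrable (fun θ => A * (F (φ (e θ) / e θ) • Rz φ A (e θ))) nu :=
    integrable_of_continuous (continuous_const.mul ((h.continuous_F hV hF).smul (h.continuous_Rz hA)))
  have hi3 : Integrable (fun θ => (F (φ (e θ) / e θ) * (psi φ (e θ) / e θ)) • (1 : H →L[ℂ] H)) nu :=
    integrable_of_continuous (((h.continuous_F hV hF).mul
      (h.continuous_psi.div continuous_e e_ne_zero)).smul continuous_const)
  rw [funcalc_eq, funcalc_eq]
  simp only [h1]
  rw [integral_add hi2 hi3, integral_smul_const, h.integral_comp hV.isOpen hV.convex hV.mem hF,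
    zero_smul, add_zero]
  exact (ContinuousLinearMap.integral_comp_comm (ContinuousLinearMap.mul ℂ (H →L[ℂ] H) A) hi)

theorem Ext0.funcalc_X_right (h : Ext0 φ ρ) (hA : Res φ ρ A) (hV : OnCurve φ V) {F : ℂ → ℂ}
    (hF : DifferentiableOn ℂ F V) :
    funcalc φ A (fun z => z * F z) = funcalc φ A F * A := by
  have hi := h.integrable_F hA hV hF
  have h1 : ∀ θ, (φ (e θ) / e θ * F (φ (e θ) / e θ)) • Rz φ A (e θ)
      = (F (φ (e θ) / e θ) • Rz φ A (e θ)) * A
        + (F (φ (e θ) / e θ) * (psi φ (e θ) / e θ)) • (1 : H →L[ℂ] H) := by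
    intro θ
    rw [mul_comm (φ (e θ) / e θ), mul_smul, Rz_right (e_ne_zero θ)
      (hA _ (h.mem_of_norm (norm_e θ))), smul_add, smul_mul_assoc, smul_smul]
  have hi2 : Integrable (fun θ => (F (φ (e θ) / e θ) • Rz φ A (e θ)) * A) nu :=
    integrable_of_continuous (((h.continuous_F hV hF).smul (h.continuous_Rz hA)).mul continuous_const)
  have hi3 : Integrable (fun θ => (F (φ (e θ) / e θ) * (psi φ (e θ) / e θ)) • (1 : H →L[ℂ] H)) nu :=
    integrable_of_continuous (((h.continuous_F hV hF).mul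
      (h.continuous_psi.div continuous_e e_ne_zero)).smul continuous_const)
  rw [funcalc_eq, funcalc_eq]
  simp only [h1]
  rw [integral_add hi2 hi3, integral_smul_const, h.integral_comp hV.isOpen hV.convex hV.mem hF,
    zero_smul, add_zero]
  exact (ContinuousLinearMap.integral_comp_comm ((ContinuousLinearMap.mul ℂ (H →L[ℂ] H)).flip A) hi)

theorem Ext0.funcalc_one (h : Ext0 φ ρ) (hA : Res φ ρ A) : funcalc φ A (fun _ => 1) = 1 := by
  rw [funcalc_eq]
  simp only [one_smul]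
  rw [mean_value h.one_lt (h.diff_Rz hA), h.Rz_zero hA]

/-- multiplication by a polynomial on the left. -/
theorem Ext0.funcalc_poly_left (h : Ext0 φ ρ) (hA : Res φ ρ A) (hV : OnCurve φ V) {F : ℂ → ℂ}
    (hF : DifferentiableOn ℂ F V) (S : Polynomial ℂ) :
    funcalc φ A (fun z => S.eval z * F z) = Polynomial.aeval A S * funcalc φ A F := by
  have hS : ∀ S : Polynomial ℂ, DifferentiableOn ℂ (fun z => S.eval z * F z) V :=
    fun S => S.differentiable.differentiableOn.mul hF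
  induction S using Polynomial.induction_on with
  | C a =>
    simp only [Polynomial.eval_C]
    rw [funcalc_const_mul, Polynomial.aeval_C, Algebra.algebraMap_eq_smul_one, smul_mul_assoc,
      one_mul]
  | add p q hp hq =>
    simp only [Polynomial.eval_add, add_mul, map_add]
    rw [h.funcalc_add hA hV (hS p) (hS q), hp, hq]
  | monomial n a ih =>
    have h1 : (fun z => (Polynomial.C a * Polynomial.X ^ (n + 1)).eval z * F z)
        = fun z => z * ((Polynomial.C a * Polynomial.X ^ n).eval z * F z) := by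
      ext z; simp only [Polynomial.eval_mul, Polynomial.eval_C, Polynomial.eval_pow,
        Polynomial.eval_X]; ring
    rw [h1, h.funcalc_X_left hA hV (hS _), ih, ← mul_assoc]
    congr 1
    have h2 : Polynomial.C a * Polynomial.X ^ (n + 1)
        = Polynomial.X * (Polynomial.C a * Polynomial.X ^ n) := by ring
    rw [h2, map_mul _ Polynomial.X _, Polynomial.aeval_X]

/-- multiplication by a polynomial on the right. -/
theorem Ext0.funcalc_poly_right (h : Ext0 φ ρ) (hA : Res φ ρ A) (hV : OnCurve φ V) {F : ℂ → ℂ}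
    (hF : DifferentiableOn ℂ F V) (S : Polynomial ℂ) :
    funcalc φ A (fun z => S.eval z * F z) = funcalc φ A F * Polynomial.aeval A S := by
  have hS : ∀ S : Polynomial ℂ, DifferentiableOn ℂ (fun z => S.eval z * F z) V :=
    fun S => S.differentiable.differentiableOn.mul hF
  induction S using Polynomial.induction_on with
  | C a =>
    simp only [Polynomial.eval_C]
    rw [funcalc_const_mul, Polynomial.aeval_C, Algebra.algebraMap_eq_smul_one, mul_smul_comm,
      mul_one]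
  | add p q hp hq =>
    simp only [Polynomial.eval_add, add_mul, map_add]
    rw [h.funcalc_add hA hV (hS p) (hS q), hp, hq, mul_add]
  | monomial n a ih =>
    have h1 : (fun z => (Polynomial.C a * Polynomial.X ^ (n + 1)).eval z * F z)
        = fun z => z * ((Polynomial.C a * Polynomial.X ^ n).eval z * F z) := by
      ext z; simp only [Polynomial.eval_mul, Polynomial.eval_C, Polynomial.eval_pow,
        Polynomial.eval_X]; ring
    rw [h1, h.funcalc_X_right hA hV (hS _), ih, mul_assoc]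
    congr 1
    have h2 : Polynomial.C a * Polynomial.X ^ (n + 1)
        = (Polynomial.C a * Polynomial.X ^ n) * Polynomial.X := by ring
    rw [h2, map_mul _ _ Polynomial.X, Polynomial.aeval_X]

/-- The functional calculus extends the polynomial one. -/
theorem Ext0.funcalc_aeval (h : Ext0 φ ρ) (hA : Res φ ρ A) (S : Polynomial ℂ) :
    funcalc φ A (fun z => S.eval z) = Polynomial.aeval A S := by
  have hV : OnCurve φ (univ : Set ℂ) := ⟨isOpen_univ, convex_univ, fun _ _ => mem_univ _⟩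
  have := h.funcalc_poly_left hA hV (F := fun _ => 1) (differentiableOn_const _) S
  simpa [h.funcalc_one hA] using this

/-! ### sesquilinear version -/

/-- `r(x,y)(w) = ⟪x, R(w) y⟫`. -/
noncomputable def rr (φ : ℂ → ℂ) (A : H →L[ℂ] H) (x y : H) (w : ℂ) : ℂ := ⟪x, Rz φ A w y⟫_ℂ

theorem Ext0.diff_rr (h : Ext0 φ ρ) (hA : Res φ ρ A) (x y : H) :
    DifferentiableOn ℂ (rr φ A x y) (ball 0 ρ) := by
  have h1 : DifferentiableOn ℂ (fun w => Rz φ A w y) (ball 0 ρ) :=
    (h.diff_Rz hA).clm_apply (differentiableOn_const _)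
  have h2 : DifferentiableOn ℂ (fun w => innerSL ℂ x (Rz φ A w y)) (ball 0 ρ) :=
    (innerSL ℂ x).differentiable.comp_differentiableOn h1
  exact h2

theorem Ext0.rr_zero (h : Ext0 φ ρ) (hA : Res φ ρ A) (x y : H) : rr φ A x y 0 = ⟪x, y⟫_ℂ := by
  unfold rr
  rw [h.Rz_zero hA]; simp

theorem Ext0.continuous_rr (h : Ext0 φ ρ) (hA : Res φ ρ A) (x y : H) :
    Continuous fun θ => rr φ A x y (e θ) :=
  continuous_comp_e h.one_lt (h.diff_rr hA x y)

theorem Ext0.inner_funcalc (h : Ext0 φ ρ) (hA : Res φ ρ A) (hV : OnCurve φ V) {F : ℂ → ℂ}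
    (hF : DifferentiableOn ℂ F V) (x y : H) :
    ⟪x, funcalc φ A F y⟫_ℂ = ∫ θ, F (φ (e θ) / e θ) * rr φ A x y (e θ) ∂nu := by
  have hi := h.integrable_F hA hV hF
  rw [funcalc_eq]
  have h1 : (∫ θ, F (φ (e θ) / e θ) • Rz φ A (e θ) ∂nu) y
      = ∫ θ, F (φ (e θ) / e θ) • Rz φ A (e θ) y ∂nu := by
    have := (ContinuousLinearMap.integral_comp_comm
      (ContinuousLinearMap.apply ℂ H y : (H →L[ℂ] H) →L[ℂ] H) hi).symm
    simpa using this
  have hi2 : Integrable (fun θ => F (φ (e θ) / e θ) • Rz φ A (e θ) y) nu :=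
    integrable_of_continuous ((h.continuous_F hV hF).smul
      ((h.continuous_Rz hA).clm_apply continuous_const))
  rw [h1]
  have h2 := (ContinuousLinearMap.integral_comp_comm (innerSL ℂ x) hi2).symm
  simp only [innerSL_apply_apply, inner_smul_right] at h2
  exact h2

/-- Positivity of the real part of the resolvent. -/
theorem rr_re_nonneg {w : ℂ} (hw : ‖w‖ = 1) (hA : IsUnit (φ w • (1 : H →L[ℂ] H) - w • A))
    (hW : ∀ x : H, ‖x‖ = 1 → 0 ≤ (conj (psi φ w) * (φ w - w * ⟪x, A x⟫_ℂ)).re) (x : H) :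
    0 ≤ (rr φ A x x w).re := by
  unfold rr Rz
  set Q := Ring.inverse (φ w • (1 : H →L[ℂ] H) - w • A) with hQ
  have h1 := Ring.mul_inverse_cancel _ hA
  set u := Q x with hu
  have hx : x = φ w • u - w • A u := by
    have := congrArg (fun T : H →L[ℂ] H => T x) h1
    simpa [← hQ, ← hu] using this.symm
  have h2 : ⟪x, (psi φ w • Q) x⟫_ℂ
      = psi φ w * conj (φ w * ⟪u, u⟫_ℂ - w * ⟪u, A u⟫_ℂ) := by
    have : (psi φ w • Q) x = psi φ w • u := rfl
    rw [this, inner_smul_right]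
    congr 1
    conv_lhs => rw [hx]
    rw [inner_sub_left, inner_smul_left, inner_smul_left, map_sub, map_mul, map_mul,
      inner_conj_symm, inner_conj_symm]
  rw [h2]
  by_cases hu0 : u = 0
  · rw [hu0]; simp
  have hn : 0 < ‖u‖ := norm_pos_iff.2 hu0
  have h3 := hW ((‖u‖⁻¹ : ℂ) • u) (by
    rw [norm_smul, norm_inv, Complex.norm_real, norm_norm, inv_mul_cancel₀ hn.ne'])
  have hnC : (‖u‖ : ℂ) ≠ 0 := by exact_mod_cast hn.ne'
  have h4 : ⟪(‖u‖⁻¹ : ℂ) • u, A ((‖u‖⁻¹ : ℂ) • u)⟫_ℂ = (‖u‖ : ℂ)⁻¹ ^ 2 * ⟪u, A u⟫_ℂ := by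
    rw [map_smul, inner_smul_left, inner_smul_right, map_inv₀, Complex.conj_ofReal]
    ring
  rw [h4] at h3
  have h5 : φ w * ⟪u, u⟫_ℂ - w * ⟪u, A u⟫_ℂ
      = ((‖u‖ ^ 2 : ℝ) : ℂ) * (φ w - w * ((‖u‖ : ℂ)⁻¹ ^ 2 * ⟪u, A u⟫_ℂ)) := by
    have hin : ⟪u, u⟫_ℂ = ((‖u‖ ^ 2 : ℝ) : ℂ) := by
      rw [inner_self_eq_norm_sq_to_K]; norm_cast
    rw [hin]
    push_cast
    field_simp
  rw [h5]
  have h6 : psi φ w * conj (((‖u‖ ^ 2 : ℝ) : ℂ) * (φ w - w * ((‖u‖ : ℂ)⁻¹ ^ 2 * ⟪u, A u⟫_ℂ)))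
      = ((‖u‖ ^ 2 : ℝ) : ℂ) *
        conj (conj (psi φ w) * (φ w - w * ((‖u‖ : ℂ)⁻¹ ^ 2 * ⟪u, A u⟫_ℂ))) := by
    rw [map_mul, map_mul, Complex.conj_ofReal, Complex.conj_conj]; ring
  rw [h6, Complex.re_ofReal_mul, Complex.conj_re]
  positivity

end Crest.Agent.R132
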