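import Crest.Agent.R132.Domain
import Crest.Agent.R132.Resolvent
import Crest.Agent.R132.GCalc
import Crest.Agent.R132.FDual6

/-!
# Row 132: the complete Crouzeix bound for analytic matrix functions (`CB2Statement`)
from the analytic core.
-/

set_option autoImplicit false
open scoped ComplexOrder Matrix ComplexConjugate
open Crest.AnalysisR.NumRange Metric Set

namespace Crest.Agent.R132.F

/-- The statement of the analytic core (helper921), specialised to Euclidean spaces. -/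
def CoreStatement : Prop :=
  ∀ {n : ℕ} {φ : ℂ → ℂ} {ρ : ℝ}, 1 < ρ → DifferentiableOn ℂ φ (ball 0 ρ) → φ 0 ≠ 0 →
    (∀ u ∈ ball (0:ℂ) ρ, ∀ v ∈ ball (0:ℂ) ρ, u ≠ 0 → v ≠ 0 → φ u / u = φ v / v → u = v) →
    (∀ u v : ℂ, ‖u‖ = 1 → ‖v‖ = 1 → 0 ≤ (conj (psi φ u) * (φ u - u * (φ v / v))).re) →
    ∀ (A : EuclideanSpace ℂ (Fin n) →L[ℂ] EuclideanSpace ℂ (Fin n)),
    (∀ w ∈ ball (0:ℂ) ρ, IsUnit (φ w • (1 : EuclideanSpace ℂ (Fin n) →L[ℂ]
      EuclideanSpace ℂ (Fin n)) - w • A)) →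
    (∀ x : EuclideanSpace ℂ (Fin n), ‖x‖ = 1 → ∀ u : ℂ, ‖u‖ = 1 →
      0 ≤ (conj (psi φ u) * (φ u - u * inner ℂ x (A x))).re) →
    ∀ {m : ℕ} (F : ℂ → Matrix (Fin m) (Fin m) ℂ) (V : Set ℂ), IsOpen V → Convex ℝ V →
    (∀ u : ℂ, ‖u‖ = 1 → φ u / u ∈ V) → (∀ i j, DifferentiableOn ℂ (fun z => F z i j) V) →
    (∀ u : ℂ, ‖u‖ = 1 → ‖Matrix.toEuclideanCLM (n := Fin m) (𝕜 := ℂ) (F (φ u / u))‖ ≤ 1) →
    ∀ (y : PiLp 2 (fun _ : Fin m => EuclideanSpace ℂ (Fin n))),
    ‖(WithLp.toLp 2 (fun i => ∑ j, funcalc φ A (fun z => F z i j) (y j)) :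
      PiLp 2 (fun _ : Fin m => EuclideanSpace ℂ (Fin n)))‖ ≤ 2 * ‖y‖

theorem psi_ne_zero {φ : ℂ → ℂ} {ρ : ℝ} (hφ : DifferentiableOn ℂ φ (ball 0 ρ))
    (h0 : φ 0 ≠ 0)
    (hinj : ∀ u ∈ ball (0:ℂ) ρ, ∀ v ∈ ball (0:ℂ) ρ, u ≠ 0 → v ≠ 0 → φ u / u = φ v / v → u = v) :
    ∀ u ∈ ball (0 : ℂ) ρ, psi φ u ≠ 0 := by
  intro u hu
  by_cases hu0 : u = 0
  · subst hu0
    simpa [psi] using h0
  have hU : IsOpen (ball (0 : ℂ) ρ \ {0}) := isOpen_ball.sdiff isClosed_singleton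
  have hd : DifferentiableOn ℂ (fun u => φ u / u) (ball (0 : ℂ) ρ \ {0}) := by
    intro z hz
    exact ((hφ z hz.1).mono sdiff_subset).div differentiableWithinAt_id hz.2
  have hi : InjOn (fun u => φ u / u) (ball (0 : ℂ) ρ \ {0}) := by
    intro a ha b hb hab
    exact hinj a ha.1 b hb.1 ha.2 hb.2 hab
  have h1 := Crest.Agent.Lib.deriv_ne_zero_of_injOn hU hd hi ⟨hu, hu0⟩
  have h2 : HasDerivAt (fun u => φ u / u) ((deriv φ u * u - φ u * 1) / u ^ 2) u :=
    ((hφ.differentiableAt (isOpen_ball.mem_nhds hu)).hasDerivAt).div (hasDerivAt_id u) hu0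
  rw [h2.deriv] at h1
  intro h3
  apply h1
  unfold psi at h3
  have : deriv φ u * u - φ u * 1 = 0 := by linear_combination -h3
  rw [this, zero_div]

theorem isUnit_res {n : ℕ}
    (A : EuclideanSpace ℂ (Fin n) →L[ℂ] EuclideanSpace ℂ (Fin n)) {a w : ℂ}
    (h : ∀ x : EuclideanSpace ℂ (Fin n), ‖x‖ = 1 → a - w * inner ℂ x (A x) ≠ 0) :
    IsUnit (a • (1 : EuclideanSpace ℂ (Fin n) →L[ℂ] EuclideanSpace ℂ (Fin n)) - w • A) := by
  rw [ContinuousLinearMap.isUnit_iff_isUnit_toLinearMap, LinearMap.isUnit_iff_ker_eq_bot,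
    LinearMap.ker_eq_bot']
  intro x hx
  by_contra hx0
  have hn : ‖x‖ ≠ 0 := norm_ne_zero_iff.2 hx0
  have hx1 : a • x - w • A x = 0 := by simpa using hx
  obtain ⟨y, hy1, hy2⟩ : ∃ y : EuclideanSpace ℂ (Fin n), ‖y‖ = 1 ∧ a • y - w • A y = 0 := by
    refine ⟨((‖x‖ : ℂ)⁻¹) • x, ?_, ?_⟩
    · rw [norm_smul, norm_inv, Complex.norm_real, norm_norm, inv_mul_cancel₀ hn]
    · rw [map_smul, smul_comm a, smul_comm w, ← smul_sub, hx1, smul_zero]
  apply h y hy1
  have h3 : inner ℂ y (a • y - w • A y) = 0 := by rw [hy2, inner_zero_right]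
  rw [inner_sub_right, inner_smul_right, inner_smul_right, inner_self_eq_norm_sq_to_K, hy1] at h3
  simpa using h3

/-- `funcalc F = aeval A q` if `q` agrees with `F` to order `n` on the spectrum. -/
theorem funcalc_of_agrees {n : ℕ} {φ : ℂ → ℂ} {ρ : ℝ} (h : Ext φ ρ)
    (A : Matrix (Fin n) (Fin n) ℂ)
    (hA : Res φ ρ (Matrix.toEuclideanCLM (n := Fin n) (𝕜 := ℂ) A)) {V : Set ℂ}
    (hV : OnCurve φ V) (hs : spectrum ℂ A ⊆ V) {F : ℂ → ℂ} (hF : DifferentiableOn ℂ F V)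
    (q : Polynomial ℂ) (hq : AgreesOnSpectrum A F q) :
    funcalc φ (Matrix.toEuclideanCLM (n := Fin n) (𝕜 := ℂ) A) F
      = Matrix.toEuclideanCLM (n := Fin n) (𝕜 := ℂ) (Polynomial.aeval A q) := by
  obtain ⟨q₀, k, hk, hq₀, hFk⟩ := G.exists_agr A V hV.isOpen hs F hF
  have h1 : G.Agr A F q := G.Agr.of_agrees (fun μ hμ => hF.analyticAt (hV.isOpen.mem_nhds (hs hμ))) hq
  rw [G.Agr.unique h1 hq₀]
  have h2 : F = fun z => q₀.eval z + (A.charpoly ^ n).eval z * k z :=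
    funext hFk
  have hC : Polynomial.aeval A (A.charpoly ^ n) = 0 ∨ n = 0 := by
    rcases Nat.eq_zero_or_pos n with h0 | h0
    · exact Or.inr h0
    · left
      rw [map_pow, Matrix.aeval_self_charpoly, zero_pow (by omega)]
  have haev : ∀ S : Polynomial ℂ,
      Polynomial.aeval (Matrix.toEuclideanCLM (n := Fin n) (𝕜 := ℂ) A) S
        = Matrix.toEuclideanCLM (n := Fin n) (𝕜 := ℂ) (Polynomial.aeval A S) := by
    intro S
    exact Polynomial.aeval_algHom_apply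
      ((Matrix.toEuclideanCLM (n := Fin n) (𝕜 := ℂ)).toAlgEquiv.toAlgHom) A S
  rcases hC with hC | hC
  · have hd2 : DifferentiableOn ℂ (fun z => (A.charpoly ^ n).eval z * k z) V :=
      (A.charpoly ^ n).differentiable.differentiableOn.mul hk
    rw [h2, h.funcalc_add hA hV (F := fun z => q₀.eval z) q₀.differentiable.differentiableOn
      hd2, h.funcalc_aeval hA,
      h.funcalc_poly_left hA hV hk, haev, haev, hC, map_zero, zero_mul, add_zero]
  · subst hC
    exact Subsingleton.elim _ _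

theorem fro_eq_norm {m n : ℕ} (y : Matrix (Fin m) (Fin n) ℂ) :
    fro y = ‖(WithLp.toLp 2 (fun i : Fin m => (WithLp.toLp 2 (y i) : EuclideanSpace ℂ (Fin n))) :
      PiLp 2 (fun _ : Fin m => EuclideanSpace ℂ (Fin n)))‖ := by
  have h1 : fro y ^ 2 = ‖(WithLp.toLp 2 (fun i : Fin m =>
      (WithLp.toLp 2 (y i) : EuclideanSpace ℂ (Fin n))) :
      PiLp 2 (fun _ : Fin m => EuclideanSpace ℂ (Fin n)))‖ ^ 2 := by
    rw [fro_sq, PiLp.norm_sq_eq_of_L2]
    refine Finset.sum_congr rfl fun i _ => ?_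
    rw [EuclideanSpace.norm_sq_eq]
  exact (pow_left_inj₀ (fro_nonneg _) (norm_nonneg _) (by norm_num)).1 h1

theorem cb2_of_core (core : CoreStatement) : CB2Statement := by
  intro n m A V hV hVc hAV F hF M hM hFM q hq y
  rcases Nat.eq_zero_or_pos n with hn | hn
  · subst hn
    have h1 : fro (Matrix.of fun (i : Fin m) (l : Fin 0) =>
        ∑ j, ∑ l', Polynomial.aeval A (q i j) l l' * y j l') = 0 := by
      have : (fro (Matrix.of fun (i : Fin m) (l : Fin 0) =>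
        ∑ j, ∑ l', Polynomial.aeval A (q i j) l l' * y j l')) ^ 2 = 0 := by
        rw [fro_sq]; simp
      exact pow_eq_zero_iff (by norm_num) |>.1 this
    rw [h1]
    have := fro_nonneg y
    positivity
  have hne : (numRange A).Nonempty := by
    refine ⟨_, EuclideanSpace.single (⟨0, hn⟩ : Fin n) (1 : ℂ), by simp, rfl⟩
  have hWc : IsCompact (numRange A) := isCompact_numRange A
  have hWconv : Convex ℝ (numRange A) := convex_nRange (Matrix.toEuclideanLin A)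
  obtain ⟨ε, hε, hεV⟩ := hWc.exists_cthickening_subset_open hV hAV
  obtain ⟨ρ, φ, hρ, hφ, h0, hinj, hconv, hne', hsupp, hclose⟩ :=
    exists_domain hWc hWconv hne hε
  set A' := Matrix.toEuclideanCLM (n := Fin n) (𝕜 := ℂ) A with hA'
  have hmem : ∀ x : EuclideanSpace ℂ (Fin n), ‖x‖ = 1 → inner ℂ x (A' x) ∈ numRange A :=
    fun x hx => ⟨x, hx, rfl⟩
  have hRes : Res φ ρ A' := fun w hw => isUnit_res A' fun x hx => hne' w hw _ (hmem x hx)
  have hExt : Ext φ ρ := ⟨⟨hρ, hφ, h0⟩, hinj, psi_ne_zero hφ h0 hinj, hconv⟩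
  have hOn : OnCurve φ V := ⟨hV, hVc, fun u hu => hεV (hclose u hu)⟩
  have hs : spectrum ℂ A ⊆ V := (spectrum_subset_numRange A).trans hAV
  have key : ∀ M' : ℝ, M < M' → fro (Matrix.of fun (i : Fin m) (l : Fin n) =>
        ∑ j, ∑ l', Polynomial.aeval A (q i j) l l' * y j l') ≤ 2 * M' * fro y := by
    intro M' hM'
    have hM'0 : 0 < M' := lt_of_le_of_lt hM hM'
    have hcore := core hρ hφ h0 hinj hconv A' hRes (fun x hx u hu => hsupp _ (hmem x hx) u hu)
      (fun z => ((M' : ℂ)⁻¹) • F z) V hV hVc (fun u hu => hεV (hclose u hu))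
      (fun i j => by
        have : (fun z => (((M' : ℂ)⁻¹) • F z) i j) = fun z => (M' : ℂ)⁻¹ * F z i j := by
          funext z; simp
        rw [this]
        exact (hF i j).const_mul _)
      (fun u hu => by
        rw [map_smul, norm_smul, norm_inv, Complex.norm_real, Real.norm_eq_abs,
          abs_of_pos hM'0, inv_mul_le_iff₀ hM'0, mul_one]
        refine (ContinuousLinearMap.opNorm_le_bound _ hM fun v => ?_).trans hM'.le
        exact hFM _ (hεV (hclose u hu)) (WithLp.ofLp v))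
      (WithLp.toLp 2 (fun i : Fin m => (WithLp.toLp 2 (y i) : EuclideanSpace ℂ (Fin n))))
    have h2 : (WithLp.toLp 2 (fun i => ∑ j, funcalc φ A' (fun z => (((M' : ℂ)⁻¹) • F z) i j)
        ((WithLp.toLp 2 (fun i : Fin m => (WithLp.toLp 2 (y i) : EuclideanSpace ℂ (Fin n))) :
          PiLp 2 (fun _ : Fin m => EuclideanSpace ℂ (Fin n))) j)) :
        PiLp 2 (fun _ : Fin m => EuclideanSpace ℂ (Fin n)))
        = ((M' : ℂ)⁻¹) • (WithLp.toLp 2 (fun i : Fin m => (WithLp.toLp 2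
          ((Matrix.of fun (i : Fin m) (l : Fin n) =>
            ∑ j, ∑ l', Polynomial.aeval A (q i j) l l' * y j l') i) : EuclideanSpace ℂ (Fin n))) :
            PiLp 2 (fun _ : Fin m => EuclideanSpace ℂ (Fin n))) := by
      apply WithLp.ofLp_injective
      funext i
      simp only [WithLp.ofLp_smul, Pi.smul_apply]
      have h3 : ∀ j, funcalc φ A' (fun z => (((M' : ℂ)⁻¹) • F z) i j)
          = ((M' : ℂ)⁻¹) • Matrix.toEuclideanCLM (n := Fin n) (𝕜 := ℂ)
            (Polynomial.aeval A (q i j)) := by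
        intro j
        have : (fun z => (((M' : ℂ)⁻¹) • F z) i j) = fun z => (M' : ℂ)⁻¹ * F z i j := by
          funext z; simp
        rw [this, funcalc_const_mul, funcalc_of_agrees hExt A hRes hOn hs (hF i j) (q i j) (hq i j)]
      simp_rw [h3]
      rw [← WithLp.toLp_smul]
      apply WithLp.ofLp_injective
      funext l
      simp only [WithLp.ofLp_sum, Finset.sum_apply, Pi.smul_apply, Matrix.of_apply,
        smul_eq_mul, Finset.mul_sum, ContinuousLinearMap.smul_apply, WithLp.ofLp_smul,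
        Matrix.ofLp_toEuclideanCLM, Matrix.mulVec, dotProduct]
    rw [h2, norm_smul, norm_inv, Complex.norm_real, Real.norm_eq_abs, abs_of_pos hM'0,
      inv_mul_le_iff₀ hM'0, ← fro_eq_norm, ← fro_eq_norm] at hcore
    linarith
  have hlim : Filter.Tendsto (fun M' : ℝ => 2 * M' * fro y) (nhdsWithin M (Ioi M))
      (nhds (2 * M * fro y)) := by
    refine Filter.Tendsto.mono_left ?_ nhdsWithin_le_nhds
    exact Continuous.tendsto (by fun_prop) M
  exact ge_of_tendsto hlim (by filter_upwards [self_mem_nhdsWithin] with M' hM' using key M' hM')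

end Crest.Agent.R132.F
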