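import Crest.Agent.R132.Domain
import Crest.Agent.R132.Core
import Crest.Agent.R132.E_Red

/-!
# Row 132: final assembly of S0179
-/

set_option autoImplicit false

open Set Filter Metric Polynomial
open scoped Topology ComplexConjugate

namespace Crest.Agent.R132

theorem isUnit_resolvent {H : Type*} [NormedAddCommGroup H] [InnerProductSpace ℂ H]
    [FiniteDimensional ℂ H] (A : H →L[ℂ] H) {a w : ℂ}
    (h : ∀ x : H, ‖x‖ = 1 → a - w * inner ℂ x (A x) ≠ 0) :
    IsUnit (a • (1 : H →L[ℂ] H) - w • A) := by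
  have : CompleteSpace H := FiniteDimensional.complete ℂ H
  rw [ContinuousLinearMap.isUnit_iff_isUnit_toLinearMap, LinearMap.isUnit_iff_ker_eq_bot,
    LinearMap.ker_eq_bot']
  intro x hx
  by_contra hx0
  have hn : ‖x‖ ≠ 0 := norm_ne_zero_iff.2 hx0
  have hx1 : a • x - w • A x = 0 := by simpa using hx
  obtain ⟨y, hy1, hy2⟩ : ∃ y : H, ‖y‖ = 1 ∧ a • y - w • A y = 0 := by
    refine ⟨((‖x‖ : ℂ)⁻¹) • x, ?_, ?_⟩
    · rw [norm_smul, norm_inv, Complex.norm_real, norm_norm, inv_mul_cancel₀ hn]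
    · rw [map_smul, smul_comm a, smul_comm w, ← smul_sub, hx1, smul_zero]
  apply h y hy1
  have h3 : inner ℂ y (a • y - w • A y) = 0 := by rw [hy2, inner_zero_right]
  rw [inner_sub_right, inner_smul_right, inner_smul_right, inner_self_eq_norm_sq_to_K, hy1] at h3
  simpa using h3

theorem thick_bound {n : ℕ} (hn : 0 < n) (A : EuclideanSpace ℂ (Fin n) →L[ℂ] EuclideanSpace ℂ (Fin n))
    (m d : ℕ) (B : Fin (d + 1) → Matrix (Fin m) (Fin m) ℂ)
    (v : PiLp 2 (fun _ : Fin m => EuclideanSpace ℂ (Fin n))) (M' : ℝ) (hM' : 0 < M') (ε : ℝ)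
    (hε : 0 < ε) (hz : ∀ z ∈ Metric.cthickening ε (E.nr A.toLinearMap),
        ‖Matrix.toEuclideanCLM (n := Fin m) (𝕜 := ℂ) (E.Pz B z)‖ ≤ M') :
    ‖E.PA A B v‖ ≤ 2 * M' * ‖v‖ := by
  classical
  have : Nonempty (Fin n) := ⟨⟨0, hn⟩⟩
  have hnt : Nontrivial (EuclideanSpace ℂ (Fin n)) := inferInstance
  obtain ⟨ρ, φ, hρ, hφ, h0, hinj, hconv, hne, hsupp, hclose⟩ :=
    exists_domain (E.isCompact_nr A.toLinearMap) (E.convex_nr A.toLinearMap)
      (E.nr_nonempty A.toLinearMap) hε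
  have hA : ∀ w ∈ ball (0:ℂ) ρ, IsUnit (φ w • (1 : EuclideanSpace ℂ (Fin n) →L[ℂ]
      EuclideanSpace ℂ (Fin n)) - w • A) := by
    intro w hw
    exact isUnit_resolvent A fun x hx => hne w hw _ ⟨x, hx, rfl⟩
  set F : ℂ → Matrix (Fin m) (Fin m) ℂ := fun z => ((M' : ℂ)⁻¹) • E.Pz B z with hF
  set q : Fin m → Fin m → ℂ[X] := fun i j =>
    ∑ k : Fin (d + 1), C ((M' : ℂ)⁻¹ * B k i j) * X ^ (k : ℕ) with hq
  have hFq : ∀ i j, (fun z => F z i j) = fun z => (q i j).eval z := by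
    intro i j
    funext z
    simp only [hF, hq, E.Pz, Matrix.smul_apply, Matrix.sum_apply, eval_finsetSum, smul_eq_mul,
      eval_mul, eval_C, eval_pow, eval_X, Finset.mul_sum]
    refine Finset.sum_congr rfl fun k _ => ?_
    ring
  have hcore := core hρ hφ h0 hinj hconv A hA (fun x hx u hu => hsupp _ ⟨x, hx, rfl⟩ u hu) F univ
    isOpen_univ convex_univ (fun _ _ => mem_univ _)
    (fun i j => by rw [hFq i j]; exact (q i j).differentiable.differentiableOn)
    (fun u hu => by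
      have h1 := hz _ (hclose u hu)
      simp only [hF]
      rw [map_smul, norm_smul, norm_inv, Complex.norm_real, Real.norm_eq_abs, abs_of_pos hM',
        inv_mul_le_iff₀ hM', mul_one]
      exact h1) v
  have h2 : (WithLp.toLp 2 (fun i => ∑ j, funcalc φ A (fun z => F z i j) (v j)) :
      PiLp 2 (fun _ : Fin m => EuclideanSpace ℂ (Fin n))) = ((M' : ℂ)⁻¹) • E.PA A B v := by
    apply WithLp.ofLp_injective
    funext i
    simp only [E.PA, WithLp.ofLp_smul, Pi.smul_apply]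
    rw [Finset.smul_sum]
    refine Finset.sum_congr rfl fun j _ => ?_
    have hmon : ∀ (c : ℂ) (k : ℕ), aeval A (C c * X ^ k : ℂ[X]) = c • A ^ k := by
      intro c k
      rw [map_mul, aeval_C, map_pow, aeval_X, Algebra.algebraMap_eq_smul_one, smul_mul_assoc,
        one_mul]
    rw [hFq i j, funcalc_aeval hρ hφ h0 A hA, hq]
    simp only [map_sum, hmon]
    rw [FunLike.coe_sum, Finset.sum_apply, Finset.smul_sum]
    refine Finset.sum_congr rfl fun k _ => ?_
    rw [smul_smul]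
    rfl
  rw [h2, norm_smul, norm_inv, Complex.norm_real, Real.norm_eq_abs, abs_of_pos hM',
    inv_mul_le_iff₀ hM'] at hcore
  linarith

theorem final179 {H : Type*} [NormedAddCommGroup H] [InnerProductSpace ℂ H] [CompleteSpace H]
    (A : H →L[ℂ] H) (m d : ℕ) (B : Fin (d + 1) → Matrix (Fin m) (Fin m) ℂ) (M : ℝ)
    (hM : ∀ x : H, ‖x‖ = 1 →
      ‖Matrix.toEuclideanCLM (n := Fin m) (𝕜 := ℂ)
          (∑ k : Fin (d + 1), (inner ℂ x (A x)) ^ (k : ℕ) • B k)‖ ≤ M)
    (v : PiLp 2 (fun _ : Fin m => H)) :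
    ‖(WithLp.toLp 2 (fun i : Fin m => ∑ j : Fin m, ∑ k : Fin (d + 1), B k i j • (A ^ (k : ℕ)) (v j))
        : PiLp 2 (fun _ : Fin m => H))‖ ≤ 2 * M * ‖v‖ :=
  E.main_of_euclidean (fun n A m d B M hM v => E.euclidean_of_thick n A m d B M hM v
    fun hn M' hM' ε hε hz => thick_bound hn A m d B v M' hM' ε hε hz) A m d B M hM v

end Crest.Agent.R132
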