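import Mathlib

/-!
An injective holomorphic function has non-vanishing derivative.
-/

set_option autoImplicit false

open Filter Topology Set

namespace Crest.Agent.R132.GS

/-- local `k`-th root of an analytic function that does not vanish at the point -/
theorem exists_analyticAt_pow_eq {h : ℂ → ℂ} {z₀ : ℂ} (hh : AnalyticAt ℂ h z₀) (h0 : h z₀ ≠ 0)
    {k : ℕ} (hk : k ≠ 0) :
    ∃ g : ℂ → ℂ, AnalyticAt ℂ g z₀ ∧ g z₀ ≠ 0 ∧ ∀ᶠ z in 𝓝 z₀, (g z) ^ k = h z := by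
  obtain ⟨c, hc⟩ : ∃ c : ℂ, c ^ k = h z₀ := IsAlgClosed.exists_pow_nat_eq _ (Nat.pos_of_ne_zero hk)
  have hc0 : c ≠ 0 := by
    rintro rfl
    rw [zero_pow hk] at hc
    exact h0 hc.symm
  have hdiv : AnalyticAt ℂ (fun z => h z / h z₀) z₀ := hh.div analyticAt_const h0
  have h1 : (h z₀ / h z₀) ∈ Complex.slitPlane := by
    rw [div_self h0]; exact Complex.one_mem_slitPlane
  refine ⟨fun z => c * Complex.exp (Complex.log (h z / h z₀) / k), ?_, ?_, ?_⟩
  · exact analyticAt_const.mul (((hdiv.clog h1).div analyticAt_const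
      (by exact_mod_cast hk)).cexp)
  · exact mul_ne_zero hc0 (Complex.exp_ne_zero _)
  · have : ∀ᶠ z in 𝓝 z₀, h z ≠ 0 := hh.continuousAt.eventually_ne h0
    filter_upwards [this] with z hz
    have hkC : (k : ℂ) ≠ 0 := by exact_mod_cast hk
    rw [mul_pow, hc, ← Complex.exp_nat_mul, mul_div_cancel₀ _ hkC,
      Complex.exp_log (div_ne_zero hz h0), mul_div_cancel₀ _ h0]

/-- an injective holomorphic function has non-vanishing derivative -/
theorem deriv_ne_zero_of_injOn {f : ℂ → ℂ} {U : Set ℂ} (hU : IsOpen U)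
    (hf : DifferentiableOn ℂ f U) (hinj : InjOn f U) {z₀ : ℂ} (hz₀ : z₀ ∈ U) :
    deriv f z₀ ≠ 0 := by
  intro hd
  have hUn : U ∈ 𝓝 z₀ := hU.mem_nhds hz₀
  have hfa : AnalyticAt ℂ f z₀ := hf.analyticAt hUn
  have hga : AnalyticAt ℂ (fun z => f z - f z₀) z₀ := hfa.sub analyticAt_const
  have hne : ∀ᶠ z in 𝓝[≠] z₀, f z - f z₀ ≠ 0 := by
    filter_upwards [mem_nhdsWithin_of_mem_nhds hUn, self_mem_nhdsWithin] with z hz hz' h
    exact hz' (hinj hz hz₀ (sub_eq_zero.mp h))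
  have hord : ¬ ∀ᶠ z in 𝓝 z₀, f z - f z₀ = 0 := by
    intro h
    have h1 : ∀ᶠ z in 𝓝[≠] z₀, f z - f z₀ = 0 := h.filter_mono nhdsWithin_le_nhds
    obtain ⟨z, hz1, hz2⟩ := (h1.and hne).exists
    exact hz2 hz1
  obtain ⟨k, h, hh, h0, hk⟩ := hga.exists_eventuallyEq_pow_smul_nonzero_iff.mpr hord
  have hk0 : k ≠ 0 := by
    rintro rfl
    have := hk.self_of_nhds
    simp at this
    exact h0 this.symm
  have hk1 : k ≠ 1 := by
    rintro rfl
    have h1 : deriv (fun z => f z - f z₀) z₀ = deriv (fun z => (z - z₀) ^ 1 • h z) z₀ :=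
      Filter.EventuallyEq.deriv_eq hk
    have h2 : HasDerivAt (fun z => (z - z₀) ^ 1 • h z) (1 * h z₀ + (z₀ - z₀) * deriv h z₀) z₀ := by
      simp only [pow_one, smul_eq_mul]
      exact ((hasDerivAt_id z₀).sub_const z₀).mul hh.differentiableAt.hasDerivAt
    rw [h2.deriv, deriv_sub_const, hd] at h1
    simp at h1
    exact h0 h1.symm
  obtain ⟨g, hg, hg0, hgk⟩ := exists_analyticAt_pow_eq hh h0 hk0
  -- the local coordinate
  have hφd : HasStrictDerivAt (fun z => (z - z₀) * g z) (1 * g z₀ + (z₀ - z₀) * deriv g z₀) z₀ := by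
    have ha : AnalyticAt ℂ (fun z => (z - z₀) * g z) z₀ :=
      (analyticAt_id.sub analyticAt_const).mul hg
    have hb : HasDerivAt (fun z => (z - z₀) * g z) (1 * g z₀ + (z₀ - z₀) * deriv g z₀) z₀ :=
      ((hasDerivAt_id z₀).sub_const z₀).mul hg.differentiableAt.hasDerivAt
    have := ha.hasStrictDerivAt
    rwa [hb.deriv] at this
  have hmap := hφd.map_nhds_eq (by simpa using hg0)
  have hmap' : Filter.map (fun z => (z - z₀) * g z) (𝓝 z₀) = 𝓝 0 := by simpa using hmap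
  have hN : {z | f z - f z₀ = (z - z₀) ^ k • h z ∧ (g z) ^ k = h z ∧ z ∈ U} ∈ 𝓝 z₀ := by
    filter_upwards [hk, hgk, hUn] with z h1 h2 h3 using ⟨h1, h2, h3⟩
  have himg : (fun z => (z - z₀) * g z) ''
      {z | f z - f z₀ = (z - z₀) ^ k • h z ∧ (g z) ^ k = h z ∧ z ∈ U} ∈ 𝓝 (0 : ℂ) := by
    rw [← hmap']
    exact image_mem_map hN
  obtain ⟨δ, hδ, hball⟩ := Metric.mem_nhds_iff.mp himg
  set ω : ℂ := Complex.exp (2 * Real.pi * Complex.I / k) with hω
  have hprim : IsPrimitiveRoot ω k := Complex.isPrimitiveRoot_exp k hk0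
  have hω1 : ω ≠ 1 := by
    have h2 : 1 < k := by omega
    exact hprim.ne_one h2
  have hωk : ω ^ k = 1 := hprim.pow_eq_one
  have hωn : ‖ω‖ = 1 := by
    exact hprim.norm'_eq_one hk0
  have ha : ((δ / 2 : ℝ) : ℂ) ∈ Metric.ball (0 : ℂ) δ := by
    simp only [Metric.mem_ball, dist_zero_right, Complex.norm_real, Real.norm_eq_abs]
    rw [abs_of_pos (by positivity)]; linarith
  have hb : ω * ((δ / 2 : ℝ) : ℂ) ∈ Metric.ball (0 : ℂ) δ := by
    simp only [Metric.mem_ball, dist_zero_right, norm_mul, hωn, one_mul, Complex.norm_real,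
      Real.norm_eq_abs]
    rw [abs_of_pos (by positivity)]; linarith
  obtain ⟨z₁, ⟨h11, h12, h13⟩, h14⟩ := hball ha
  obtain ⟨z₂, ⟨h21, h22, h23⟩, h24⟩ := hball hb
  have e1 : f z₁ - f z₀ = (((δ / 2 : ℝ) : ℂ)) ^ k := by
    rw [h11, ← h12, smul_eq_mul, ← mul_pow]
    exact congrArg (· ^ k) h14
  have e2 : f z₂ - f z₀ = (((δ / 2 : ℝ) : ℂ)) ^ k := by
    rw [h21, ← h22, smul_eq_mul, ← mul_pow]
    have : ((z₂ - z₀) * g z₂) ^ k = (ω * ((δ / 2 : ℝ) : ℂ)) ^ k := congrArg (· ^ k) h24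
    rw [this, mul_pow, hωk, one_mul]
  have e3 : f z₁ = f z₂ := by
    have := e1.trans e2.symm
    exact sub_left_inj.mp this
  have e4 : z₁ = z₂ := hinj h13 h23 e3
  subst e4
  have h14' : (z₁ - z₀) * g z₁ = ((δ / 2 : ℝ) : ℂ) := h14
  have h24' : (z₁ - z₀) * g z₁ = ω * ((δ / 2 : ℝ) : ℂ) := h24
  have hδ0 : ((δ / 2 : ℝ) : ℂ) ≠ 0 := by
    have : (δ / 2 : ℝ) ≠ 0 := by positivity
    exact_mod_cast this
  apply hω1
  have : ω * ((δ / 2 : ℝ) : ℂ) = 1 * ((δ / 2 : ℝ) : ℂ) := by rw [← h24', h14', one_mul]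
  exact mul_right_cancel₀ hδ0 this

end Crest.Agent.R132.GS
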