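import Mathlib
import Crest.Agent.R132.GDeriv

/-!
Closed-contour vanishing, and the average of `t G'(t)/(G(t) - z₀)` for an exterior map `G`.
-/

set_option autoImplicit false

open Filter Topology Set Metric

namespace Crest.Agent.R132.GS

/-- circle average over the unit circle -/
noncomputable abbrev cav (F : ℂ → ℂ) : ℂ := Real.circleAverage F 0 1

/-- integral of the derivative of a function along a closed curve in a convex set vanishes -/
theorem cav_closed {K : Set ℂ} (hK : Convex ℝ K) {G : ℂ → ℂ} {r : ℝ} (hr : r < 1)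
    (hG : DifferentiableOn ℂ G {t : ℂ | r < ‖t‖})
    (hGK : ∀ t : ℂ, ‖t‖ = 1 → G t ∈ K)
    {g : ℂ → ℂ} (hg : DifferentiableOn ℂ g K) :
    cav (fun t => t * deriv G t * g (G t)) = 0 := by
  obtain ⟨Φ, hΦ⟩ := hK.exists_forall_hasDerivWithinAt hg
  have hopen : IsOpen {t : ℂ | r < ‖t‖} := isOpen_lt continuous_const continuous_norm
  have hnorm : ∀ θ : ℝ, ‖circleMap 0 1 θ‖ = 1 := by
    intro θ; simp
  have hGd : ∀ t : ℂ, ‖t‖ = 1 → HasDerivAt G (deriv G t) t := by
    intro t ht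
    have : t ∈ {t : ℂ | r < ‖t‖} := by simp only [mem_ofPred_eq, ht]; exact hr
    exact ((hG t this).differentiableAt (hopen.mem_nhds this)).hasDerivAt
  have hGc : ∀ θ : ℝ, HasDerivAt (fun θ : ℝ => G (circleMap 0 1 θ))
      ((circleMap 0 1 θ * Complex.I) * deriv G (circleMap 0 1 θ)) θ := by
    intro θ
    have h1 := hGd (circleMap 0 1 θ) (hnorm θ)
    have h2 := hasDerivAt_circleMap 0 1 θ
    have := HasDerivAt.scomp θ h1 h2
    simpa [Function.comp_def] using this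
  have hchain : ∀ θ : ℝ, HasDerivAt (fun θ : ℝ => Φ (G (circleMap 0 1 θ)))
      (((circleMap 0 1 θ * Complex.I) * deriv G (circleMap 0 1 θ)) *
        g (G (circleMap 0 1 θ))) θ := by
    intro θ
    have h1 := hΦ (G (circleMap 0 1 θ)) (hGK _ (hnorm θ))
    have h2 := (hGc θ).hasDerivWithinAt (s := univ)
    have := HasDerivWithinAt.scomp θ h1 h2 (fun x _ => hGK _ (hnorm x))
    simpa [Function.comp_def, hasDerivWithinAt_univ] using this
  have hGcont : Continuous (fun θ : ℝ => G (circleMap 0 1 θ)) :=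
    continuous_iff_continuousAt.mpr fun θ => (hGc θ).continuousAt
  have hderivcont : Continuous (fun θ : ℝ => deriv G (circleMap 0 1 θ)) := by
    have h1 : ContinuousOn (deriv G) {t : ℂ | r < ‖t‖} := (hG.deriv hopen).continuousOn
    exact h1.comp_continuous (continuous_circleMap 0 1)
      (fun θ => by simp only [mem_ofPred_eq, hnorm θ]; exact hr)
  have hgcont : Continuous (fun θ : ℝ => g (G (circleMap 0 1 θ))) :=
    hg.continuousOn.comp_continuous hGcont (fun θ => hGK _ (hnorm θ))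
  have hint : ∫ θ in (0:ℝ)..2 * Real.pi, ((circleMap 0 1 θ * Complex.I) *
      deriv G (circleMap 0 1 θ)) * g (G (circleMap 0 1 θ)) = 0 := by
    rw [intervalIntegral.integral_eq_sub_of_hasDerivAt (fun θ _ => hchain θ)
      (Continuous.intervalIntegrable (by
        exact (((continuous_circleMap 0 1).mul continuous_const).mul hderivcont).mul hgcont) _ _)]
    have : circleMap 0 1 (2 * Real.pi) = circleMap 0 1 0 := by
      simp [circleMap]
    rw [this, sub_self]
  unfold cav Real.circleAverage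
  have h2 : ∫ θ in (0:ℝ)..2 * Real.pi, ((circleMap 0 1 θ * Complex.I) *
      deriv G (circleMap 0 1 θ)) * g (G (circleMap 0 1 θ)) =
      Complex.I * ∫ θ in (0:ℝ)..2 * Real.pi, circleMap 0 1 θ *
      deriv G (circleMap 0 1 θ) * g (G (circleMap 0 1 θ)) := by
    rw [← intervalIntegral.integral_const_mul]
    apply intervalIntegral.integral_congr
    intro θ _
    simp only
    ring
  rw [h2] at hint
  have h3 := (mul_eq_zero.mp hint).resolve_left Complex.I_ne_zero
  rw [h3, smul_zero]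

section Exterior

variable {Ω : Set ℂ} {G : ℂ → ℂ} {r : ℝ}

/-- points on the unit circle are mapped into `closure Ω` -/
theorem map_circle_mem_closure (hr₂ : r < 1)
    (hG₂ : Set.InjOn G {t : ℂ | r < ‖t‖})
    (hG₃ : G '' {t : ℂ | 1 < ‖t‖} = (closure Ω)ᶜ) {t : ℂ} (ht : ‖t‖ = 1) : G t ∈ closure Ω := by
  by_contra h
  have h1 : G t ∈ G '' {t : ℂ | 1 < ‖t‖} := by rw [hG₃]; exact h
  obtain ⟨s, hs, hst⟩ := h1
  have hs' : 1 < ‖s‖ := hs
  have : s = t := hG₂ (show r < ‖s‖ by linarith) (show r < ‖t‖ by linarith) hst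
  subst this
  linarith

theorem map_ext_notMem (hG₃ : G '' {t : ℂ | 1 < ‖t‖} = (closure Ω)ᶜ) {t : ℂ} (ht : 1 < ‖t‖) :
    G t ∉ closure Ω := by
  have h1 : G t ∈ G '' {t : ℂ | 1 < ‖t‖} := ⟨t, ht, rfl⟩
  rw [hG₃] at h1
  exact h1

/-- radial approach: for `‖t‖ = 1` there are points of the exterior arbitrarily near `t` -/
theorem frequently_norm_gt {t : ℂ} (ht : ‖t‖ = 1) : ∃ᶠ s in 𝓝 t, 1 < ‖s‖ := by
  rw [Filter.frequently_iff]
  intro V hV
  obtain ⟨ε, hε, hball⟩ := Metric.mem_nhds_iff.mp hV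
  refine ⟨((1 + ε / 2 : ℝ) : ℂ) * t, hball ?_, ?_⟩
  · rw [Metric.mem_ball, dist_eq_norm]
    have : ((1 + ε / 2 : ℝ) : ℂ) * t - t = ((ε / 2 : ℝ) : ℂ) * t := by push_cast; ring
    rw [this, norm_mul, ht, mul_one, Complex.norm_real, Real.norm_eq_abs, abs_of_pos (by positivity)]
    linarith
  · rw [norm_mul, ht, mul_one, Complex.norm_real, Real.norm_eq_abs, abs_of_pos (by positivity)]
    linarith

theorem map_circle_notMem (hΩ₁ : IsOpen Ω) (hr₂ : r < 1)
    (hG₁ : DifferentiableOn ℂ G {t : ℂ | r < ‖t‖})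
    (hG₃ : G '' {t : ℂ | 1 < ‖t‖} = (closure Ω)ᶜ) {t : ℂ} (ht : ‖t‖ = 1) : G t ∉ Ω := by
  intro h
  have hopen : IsOpen {t : ℂ | r < ‖t‖} := isOpen_lt continuous_const continuous_norm
  have htm : t ∈ {t : ℂ | r < ‖t‖} := by simp only [mem_ofPred_eq, ht]; exact hr₂
  have hc : ContinuousAt G t := (hG₁.differentiableAt (hopen.mem_nhds htm)).continuousAt
  have hev : ∀ᶠ s in 𝓝 t, G s ∈ Ω := hc.eventually_mem (hΩ₁.mem_nhds h)
  obtain ⟨s, hs1, hs2⟩ := ((frequently_norm_gt ht).and_eventually hev).exists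
  exact map_ext_notMem hG₃ hs1 (subset_closure hs2)

/-- **The exterior average**: `avg t G'(t)/(G(t) - z₀) = 1`. -/
theorem cav_ext (hΩ₁ : IsOpen Ω) (hΩ₂ : Bornology.IsBounded Ω) (hr₁ : 0 < r) (hr₂ : r < 1)
    (hG₁ : DifferentiableOn ℂ G {t : ℂ | r < ‖t‖}) (hG₂ : Set.InjOn G {t : ℂ | r < ‖t‖})
    (hG₃ : G '' {t : ℂ | 1 < ‖t‖} = (closure Ω)ᶜ) {z₀ : ℂ} (hz₀ : z₀ ∈ Ω) :
    cav (fun t => t * deriv G t * (G t - z₀)⁻¹) = 1 := by
  have hopen : IsOpen {t : ℂ | r < ‖t‖} := isOpen_lt continuous_const continuous_norm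
  have hGdiff : ∀ t : ℂ, 1 ≤ ‖t‖ → DifferentiableAt ℂ G t := by
    intro t ht
    have htm : t ∈ {t : ℂ | r < ‖t‖} := by simp only [mem_ofPred_eq]; linarith
    exact hG₁.differentiableAt (hopen.mem_nhds htm)
  have hGd2 : ∀ t : ℂ, 1 ≤ ‖t‖ → DifferentiableAt ℂ (deriv G) t := by
    intro t ht
    have htm : t ∈ {t : ℂ | r < ‖t‖} := by simp only [mem_ofPred_eq]; linarith
    exact (hG₁.deriv hopen).differentiableAt (hopen.mem_nhds htm)
  have hne : ∀ t : ℂ, 1 ≤ ‖t‖ → G t - z₀ ≠ 0 := by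
    intro t ht h
    have h1 : G t = z₀ := sub_eq_zero.mp h
    rcases ht.eq_or_lt with h2 | h2
    · exact map_circle_notMem hΩ₁ hr₂ hG₁ hG₃ h2.symm (h1 ▸ hz₀)
    · exact map_ext_notMem hG₃ h2 (subset_closure (h1 ▸ hz₀))
  obtain ⟨δ, hδ, hball⟩ := Metric.isOpen_iff.mp hΩ₁ z₀ hz₀
  have hinv : ∀ w : ℂ, w ∈ ball (0:ℂ) 1 \ {0} → 1 < ‖w⁻¹‖ := by
    rintro w ⟨hw1, hw2⟩
    rw [mem_ball_zero_iff] at hw1
    rw [norm_inv]
    exact (one_lt_inv₀ (norm_pos_iff.mpr hw2)).mpr hw1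
  set k : ℂ → ℂ := fun w => (G w⁻¹ - z₀)⁻¹ with hk
  have hkd : ∀ w : ℂ, w ∈ ball (0:ℂ) 1 \ {0} →
      HasDerivAt k ((k w) ^ 2 * (deriv G w⁻¹ * (w ^ 2)⁻¹)) w := by
    intro w hw
    have hw0 : w ≠ 0 := hw.2
    have h1 : HasDerivAt (fun w : ℂ => G w⁻¹) (deriv G w⁻¹ * (-(w ^ 2)⁻¹)) w :=
      HasDerivAt.comp w (hGdiff _ (hinv w hw).le).hasDerivAt (hasDerivAt_inv hw0)
    have h2 := (h1.sub_const z₀).inv (hne _ (hinv w hw).le)
    have h3 : (k w) ^ 2 * (deriv G w⁻¹ * (w ^ 2)⁻¹) =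
        -(deriv G w⁻¹ * (-(w ^ 2)⁻¹)) / (G w⁻¹ - z₀) ^ 2 := by
      have h4 : k w = (G w⁻¹ - z₀)⁻¹ := rfl
      rw [h4]
      field_simp
    rw [h3]
    exact h2
  have hkdiff : DifferentiableOn ℂ k (ball (0:ℂ) 1 \ {0}) := fun w hw =>
    (hkd w hw).differentiableAt.differentiableWithinAt
  have hkb : BddAbove (norm ∘ k '' (ball (0:ℂ) 1 \ {0})) := by
    refine ⟨δ⁻¹, ?_⟩
    rintro _ ⟨w, hw, rfl⟩
    simp only [Function.comp, hk, norm_inv]
    apply inv_anti₀ hδ
    by_contra hlt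
    push Not at hlt
    have : G w⁻¹ ∈ ball z₀ δ := by rw [mem_ball, dist_eq_norm]; exact hlt
    exact map_ext_notMem hG₃ (hinv w hw) (subset_closure (hball this))
  set kk : ℂ → ℂ := Function.update k 0 (limUnder (𝓝[≠] 0) k) with hkk
  have hkkd : DifferentiableOn ℂ kk (ball (0:ℂ) 1) :=
    Complex.differentiableOn_update_limUnder_of_bddAbove (ball_mem_nhds 0 one_pos) hkdiff hkb
  have hkkne : ∀ w : ℂ, w ≠ 0 → kk w = k w := fun w hw => Function.update_of_ne hw _ _
  have hkk0 : kk 0 = 0 := by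
    by_contra h0
    have hc : ContinuousAt kk 0 := (hkkd.differentiableAt (ball_mem_nhds 0 one_pos)).continuousAt
    have hpos : 0 < ‖kk 0‖ / 2 := by
      have := norm_pos_iff.mpr h0
      linarith
    have hev : ∀ᶠ w in 𝓝 (0:ℂ), ‖kk 0‖ / 2 < ‖kk w‖ :=
      (continuous_norm.continuousAt.comp hc).eventually (lt_mem_nhds (by
        simp only [Function.comp]; linarith [norm_pos_iff.mpr h0]))
    obtain ⟨ε, hε, hεb⟩ := Metric.eventually_nhds_iff_ball.mp hev
    -- `G` is bounded on the exterior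
    have hcomp : IsCompact {t : ℂ | 1 ≤ ‖t‖ ∧ ‖t‖ ≤ ε⁻¹ + 1} := by
      have : {t : ℂ | 1 ≤ ‖t‖ ∧ ‖t‖ ≤ ε⁻¹ + 1} =
          closedBall (0:ℂ) (ε⁻¹ + 1) ∩ {t : ℂ | 1 ≤ ‖t‖} := by
        ext t; simp [and_comm]
      rw [this]
      exact (isCompact_closedBall _ _).inter_right (isClosed_le continuous_const continuous_norm)
    have hGc : ContinuousOn G {t : ℂ | 1 ≤ ‖t‖ ∧ ‖t‖ ≤ ε⁻¹ + 1} := fun t ht =>
      (hGdiff t ht.1).continuousAt.continuousWithinAt
    obtain ⟨M, hM⟩ := (hcomp.image_of_continuousOn hGc).isBounded.exists_norm_le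
    have hbd : ∀ t : ℂ, 1 < ‖t‖ → ‖G t‖ ≤ max M (‖z₀‖ + (‖kk 0‖ / 2)⁻¹) := by
      intro t ht
      by_cases hte : ‖t‖ ≤ ε⁻¹ + 1
      · exact (hM _ ⟨t, ⟨ht.le, hte⟩, rfl⟩).trans (le_max_left _ _)
      · push Not at hte
        have ht0 : t ≠ 0 := by rintro rfl; simp at ht; linarith
        have hw : t⁻¹ ∈ ball (0:ℂ) ε := by
          rw [mem_ball_zero_iff, norm_inv]
          have : ε⁻¹ < ‖t‖ := by linarith
          exact inv_lt_of_inv_lt₀ hε this
        have h1 := hεb _ hw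
        rw [hkkne _ (inv_ne_zero ht0)] at h1
        simp only [hk, inv_inv, norm_inv] at h1
        have h2 : ‖G t - z₀‖ < (‖kk 0‖ / 2)⁻¹ := by
          exact lt_inv_of_lt_inv₀ hpos h1
        have h3 : ‖G t‖ ≤ ‖z₀‖ + ‖G t - z₀‖ := by
          calc ‖G t‖ = ‖z₀ + (G t - z₀)‖ := by ring_nf
            _ ≤ _ := norm_add_le _ _
        exact le_trans (by linarith) (le_max_right _ _)
    have hb1 : Bornology.IsBounded ((closure Ω)ᶜ) := by
      rw [← hG₃, isBounded_iff_forall_norm_le]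
      exact ⟨_, by rintro _ ⟨t, ht, rfl⟩; exact hbd t ht⟩
    have hb2 : Bornology.IsBounded (closure Ω ∪ (closure Ω)ᶜ) := hΩ₂.closure.union hb1
    rw [union_compl_self] at hb2
    exact NormedSpace.unbounded_univ ℝ ℂ hb2
  have hkkinj : InjOn kk (ball (0:ℂ) 1) := by
    have hkw : ∀ w : ℂ, w ∈ ball (0:ℂ) 1 → w ≠ 0 → kk w ≠ 0 := by
      intro w hw hw0
      rw [hkkne w hw0]
      exact inv_ne_zero (hne _ (hinv w ⟨hw, hw0⟩).le)
    intro a ha b hb hab
    by_cases ha0 : a = 0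
    · by_contra hne'
      have hb0 : b ≠ 0 := by rintro rfl; exact hne' ha0
      exact hkw b hb hb0 (by rw [← hab, ha0, hkk0])
    · by_cases hb0 : b = 0
      · exact absurd (by rw [hab, hb0, hkk0]) (hkw a ha ha0)
      · rw [hkkne a ha0, hkkne b hb0] at hab
        simp only [hk] at hab
        have h1 : G a⁻¹ = G b⁻¹ := by
          have := inv_injective hab
          exact sub_left_inj.mp this
        have h2 := hG₂ (show r < ‖a⁻¹‖ by linarith [hinv a ⟨ha, ha0⟩])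
          (show r < ‖b⁻¹‖ by linarith [hinv b ⟨hb, hb0⟩]) h1
        exact inv_injective h2
  have hder0 : deriv kk 0 ≠ 0 :=
    deriv_ne_zero_of_injOn isOpen_ball hkkd hkkinj (mem_ball_self one_pos)
  set m : ℂ → ℂ := dslope kk 0 with hm
  have hmd : DifferentiableOn ℂ m (ball (0:ℂ) 1) :=
    (Complex.differentiableOn_dslope (ball_mem_nhds 0 one_pos)).mpr hkkd
  have hmne : ∀ w ∈ ball (0:ℂ) 1, m w ≠ 0 := by
    intro w hw
    by_cases hw0 : w = 0
    · rw [hw0, hm, dslope_same]; exact hder0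
    · rw [hm, dslope_of_ne _ hw0, slope_def_field]
      apply div_ne_zero
      · rw [hkk0, sub_zero]
        intro h
        exact hw0 (hkkinj hw (mem_ball_self one_pos) (by rw [h, hkk0]))
      · simpa using hw0
  have hkm : ∀ w : ℂ, kk w = w * m w := by
    intro w
    by_cases hw0 : w = 0
    · rw [hw0, hkk0, zero_mul]
    · rw [hm, dslope_of_ne _ hw0, slope_def_field, hkk0, sub_zero, sub_zero]
      field_simp
  -- the function on the disc
  set Φ : ℂ → ℂ := fun w => 1 + w * (deriv m w / m w) with hΦ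
  have hΦd : DifferentiableOn ℂ Φ (ball (0:ℂ) 1) := by
    have h1 : DifferentiableOn ℂ (deriv m) (ball (0:ℂ) 1) := hmd.deriv isOpen_ball
    exact (differentiableOn_const 1).add (differentiableOn_id.mul (h1.div hmd hmne))
  set Ψ : ℂ → ℂ := Function.update (fun w => w⁻¹ * deriv G w⁻¹ * (G w⁻¹ - z₀)⁻¹) 0 1 with hΨ
  have hΨne : ∀ w : ℂ, w ≠ 0 → Ψ w = w⁻¹ * deriv G w⁻¹ * (G w⁻¹ - z₀)⁻¹ := fun w hw =>
    Function.update_of_ne hw _ _
  have hΨΦ : EqOn Ψ Φ (ball (0:ℂ) 1) := by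
    intro w hw
    by_cases hw0 : w = 0
    · rw [hw0]; simp [hΨ, hΦ]
    · rw [hΨne w hw0]
      have hd1 : HasDerivAt kk ((k w) ^ 2 * (deriv G w⁻¹ * (w ^ 2)⁻¹)) w := by
        refine (hkd w ⟨hw, hw0⟩).congr_of_eventuallyEq ?_
        filter_upwards [isOpen_ne.mem_nhds hw0] with x hx using hkkne x hx
      have hd2 : HasDerivAt kk (1 * m w + w * deriv m w) w := by
        have hmw : HasDerivAt m (deriv m w) w :=
          (hmd.differentiableAt (isOpen_ball.mem_nhds hw)).hasDerivAt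
        refine ((hasDerivAt_id w).mul hmw).congr_of_eventuallyEq ?_
        exact Eventually.of_forall fun x => by simpa using hkm x
      have he := hd1.unique hd2
      have hkw : k w = w * m w := by rw [← hkkne w hw0, hkm w]
      have hmw := hmne w hw
      have hG0 : (G w⁻¹ - z₀)⁻¹ = w * m w := hkw
      rw [hG0, hΦ]
      simp only
      have : w⁻¹ * deriv G w⁻¹ * (w * m w) = ((k w) ^ 2 * (deriv G w⁻¹ * (w ^ 2)⁻¹)) / m w := by
        rw [hkw]; field_simp
      rw [this, he]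
      field_simp
  have hΨc : ContinuousOn Ψ (closedBall (0:ℂ) 1) := by
    intro w hw
    by_cases hwb : w ∈ ball (0:ℂ) 1
    · have : ContinuousAt Ψ w := by
        have h1 : ContinuousAt Φ w :=
          (hΦd.differentiableAt (isOpen_ball.mem_nhds hwb)).continuousAt
        exact h1.congr (by
          filter_upwards [isOpen_ball.mem_nhds hwb] with x hx using (hΨΦ hx).symm)
      exact this.continuousWithinAt
    · have hw1 : ‖w‖ = 1 := by
        rw [mem_closedBall_zero_iff] at hw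
        rw [mem_ball_zero_iff] at hwb
        linarith
      have hw0 : w ≠ 0 := by rintro rfl; simp at hw1
      have hwi : 1 ≤ ‖w⁻¹‖ := by rw [norm_inv, hw1]; simp
      have hci : ContinuousAt (fun w : ℂ => w⁻¹) w := continuousAt_inv₀ hw0
      have h1 : ContinuousAt (fun w : ℂ => w⁻¹ * deriv G w⁻¹ * (G w⁻¹ - z₀)⁻¹) w := by
        refine (hci.mul (ContinuousAt.comp (f := fun w : ℂ => w⁻¹) (g := deriv G)
          (hGd2 _ hwi).continuousAt hci)).mul ?_
        refine ContinuousAt.inv₀ ?_ (hne _ hwi)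
        exact (ContinuousAt.comp (f := fun w : ℂ => w⁻¹) (g := G)
          (hGdiff _ hwi).continuousAt hci).sub continuousAt_const
      have h2 : ContinuousAt Ψ w := h1.congr (by
          filter_upwards [isOpen_ne.mem_nhds hw0] with x hx using (hΨne x hx).symm)
      exact h2.continuousWithinAt
  have hmean : Real.circleAverage Ψ 0 1 = Ψ 0 := by
    refine circleAverage_of_differentiable_on_off_countable (s := ∅) countable_empty ?_ ?_
    · simpa using hΨc
    · intro z hz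
      have hz' : z ∈ ball (0:ℂ) 1 := by simpa using hz.1
      have h1 : DifferentiableAt ℂ Φ z := hΦd.differentiableAt (isOpen_ball.mem_nhds hz')
      exact h1.congr_of_eventuallyEq (by
        filter_upwards [isOpen_ball.mem_nhds hz'] with x hx using hΨΦ hx)
  have hΨ0 : Ψ 0 = 1 := by simp [hΨ]
  have hfin : cav (fun t => t * deriv G t * (G t - z₀)⁻¹) = Real.circleAverage Ψ 0 1 := by
    unfold cav
    rw [← Real.circleAverage_zero_one_congr_inv]
    apply Real.circleAverage_congr_sphere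
    intro w hw
    have hw1 : ‖w‖ = 1 := by simpa using hw
    have hw0 : w ≠ 0 := by rintro rfl; simp at hw1
    exact (hΨne w hw0).symm
  rw [hfin, hmean, hΨ0]

end Exterior

end Crest.Agent.R132.GS
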