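import Mathlib
import Crest.Agent.R132.GCurve

/-!
Boundary behaviour of `f ∘ G` on the unit circle.
-/

set_option autoImplicit false

open Filter Topology Set Metric
open scoped ComplexConjugate

namespace Crest.Agent.R132.GS

variable {Ω U : Set ℂ} {f G : ℂ → ℂ} {r : ℝ}

theorem norm_le_one_of_mem_closure (hU : IsOpen U) (hΩU : closure Ω ⊆ U)
    (hf₁ : DifferentiableOn ℂ f U) (hf₃ : f '' Ω = ball 0 1) {z : ℂ} (hz : z ∈ closure Ω) :
    ‖f z‖ ≤ 1 := by
  have hc : ContinuousOn f (closure Ω) := hf₁.continuousOn.mono hΩU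
  have h1 : f '' closure Ω ⊆ closure (f '' Ω) := hc.image_closure
  have h2 : f z ∈ closure (f '' Ω) := h1 ⟨z, hz, rfl⟩
  rw [hf₃, closure_ball _ one_ne_zero] at h2
  simpa using h2

theorem closedBall_subset_image (hΩ₂ : Bornology.IsBounded Ω) (hΩU : closure Ω ⊆ U)
    (hf₁ : DifferentiableOn ℂ f U) (hf₃ : f '' Ω = ball 0 1) :
    closedBall (0:ℂ) 1 ⊆ f '' closure Ω := by
  have hc : ContinuousOn f (closure Ω) := hf₁.continuousOn.mono hΩU
  have hcomp : IsCompact (f '' closure Ω) :=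
    (Metric.isCompact_of_isClosed_isBounded isClosed_closure hΩ₂.closure).image_of_continuousOn hc
  rw [← closure_ball _ one_ne_zero, ← hf₃]
  exact closure_minimal (image_mono subset_closure) hcomp.isClosed

theorem norm_eq_one_of_bdry (hU : IsOpen U) (hΩU : closure Ω ⊆ U)
    (hf₁ : DifferentiableOn ℂ f U) (hf₂ : InjOn f U) (hf₃ : f '' Ω = ball 0 1) {z : ℂ}
    (hz : z ∈ closure Ω) (hz' : z ∉ Ω) : ‖f z‖ = 1 := by
  have h1 := norm_le_one_of_mem_closure hU hΩU hf₁ hf₃ hz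
  by_contra h
  have h2 : ‖f z‖ < 1 := lt_of_le_of_ne h1 h
  have h3 : f z ∈ f '' Ω := by rw [hf₃]; simpa using h2
  obtain ⟨w, hw, hwz⟩ := h3
  have := hf₂ (hΩU (subset_closure hw)) (hΩU hz) hwz
  exact hz' (this ▸ hw)

theorem one_lt_norm_of_notMem (hΩ₂ : Bornology.IsBounded Ω) (hΩU : closure Ω ⊆ U)
    (hf₁ : DifferentiableOn ℂ f U) (hf₂ : InjOn f U) (hf₃ : f '' Ω = ball 0 1) {z : ℂ}
    (hz : z ∈ U) (hz' : z ∉ closure Ω) : 1 < ‖f z‖ := by
  by_contra h
  push Not at h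
  have h1 : f z ∈ closedBall (0:ℂ) 1 := by simpa using h
  obtain ⟨w, hw, hwz⟩ := closedBall_subset_image hΩ₂ hΩU hf₁ hf₃ h1
  have := hf₂ (hΩU hw) hz hwz
  exact hz' (this ▸ hw)

theorem norm_comp_eq_one (hΩ₁ : IsOpen Ω) (hU : IsOpen U) (hΩU : closure Ω ⊆ U)
    (hf₁ : DifferentiableOn ℂ f U) (hf₂ : InjOn f U) (hf₃ : f '' Ω = ball 0 1)
    (hr₂ : r < 1)
    (hG₁ : DifferentiableOn ℂ G {t : ℂ | r < ‖t‖}) (hG₂ : Set.InjOn G {t : ℂ | r < ‖t‖})
    (hG₃ : G '' {t : ℂ | 1 < ‖t‖} = (closure Ω)ᶜ) {t : ℂ} (ht : ‖t‖ = 1) : ‖f (G t)‖ = 1 :=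
  norm_eq_one_of_bdry hU hΩU hf₁ hf₂ hf₃ (map_circle_mem_closure hr₂ hG₂ hG₃ ht)
    (map_circle_notMem hΩ₁ hr₂ hG₁ hG₃ ht)

/-- the logarithmic derivative of `f ∘ G` is nonnegative real on the unit circle -/
theorem rho_real (hΩ₁ : IsOpen Ω) (hΩ₂ : Bornology.IsBounded Ω) (hU : IsOpen U)
    (hΩU : closure Ω ⊆ U)
    (hf₁ : DifferentiableOn ℂ f U) (hf₂ : InjOn f U) (hf₃ : f '' Ω = ball 0 1)
    (hr₂ : r < 1)
    (hG₁ : DifferentiableOn ℂ G {t : ℂ | r < ‖t‖}) (hG₂ : Set.InjOn G {t : ℂ | r < ‖t‖})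
    (hG₃ : G '' {t : ℂ | 1 < ‖t‖} = (closure Ω)ᶜ) {t : ℂ} (ht : ‖t‖ = 1) :
    (conj (f (G t)) * (t * deriv G t * deriv f (G t))).im = 0 ∧
      0 ≤ (conj (f (G t)) * (t * deriv G t * deriv f (G t))).re := by
  have hopen : IsOpen {t : ℂ | r < ‖t‖} := isOpen_lt continuous_const continuous_norm
  have hGd : ∀ s : ℂ, ‖s‖ = 1 → HasDerivAt G (deriv G s) s := by
    intro s hs
    have : s ∈ {t : ℂ | r < ‖t‖} := by simp only [mem_ofPred_eq, hs]; exact hr₂
    exact ((hG₁ s this).differentiableAt (hopen.mem_nhds this)).hasDerivAt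
  have hfd : ∀ z ∈ U, HasDerivAt f (deriv f z) z := fun z hz =>
    (hf₁.differentiableAt (hU.mem_nhds hz)).hasDerivAt
  have hmem : ∀ s : ℂ, ‖s‖ = 1 → G s ∈ closure Ω := fun s hs =>
    map_circle_mem_closure hr₂ hG₂ hG₃ hs
  have hcomp : ∀ s : ℂ, ‖s‖ = 1 → HasDerivAt (fun s => f (G s)) (deriv f (G s) * deriv G s) s :=
    fun s hs => HasDerivAt.comp s (hfd _ (hΩU (hmem s hs))) (hGd s hs)
  have hone : ∀ s : ℂ, ‖s‖ = 1 → ‖f (G s)‖ = 1 := fun s hs =>
    norm_comp_eq_one hΩ₁ hU hΩU hf₁ hf₂ hf₃ hr₂ hG₁ hG₂ hG₃ hs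
  constructor
  · -- tangential derivative
    have h1 : HasDerivAt (fun x : ℝ => Complex.exp (x * Complex.I) * t)
        (Complex.exp ((0:ℝ) * Complex.I) * Complex.I * t) 0 := by
      have h2 : HasDerivAt (fun x : ℝ => (x : ℂ) * Complex.I) (1 * Complex.I) (0:ℝ) :=
        (Complex.ofRealCLM.hasDerivAt (x := (0:ℝ))).mul_const Complex.I
      have h3 := (h2.cexp).mul_const t
      simpa using h3
    have h1' : HasDerivAt (fun x : ℝ => Complex.exp (x * Complex.I) * t)
        (Complex.I * t) 0 := by simpa using h1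
    have h4 : HasDerivAt (fun x : ℝ => f (G (Complex.exp (x * Complex.I) * t)))
        ((Complex.I * t) * (deriv f (G t) * deriv G t)) 0 := by
      have h5 : HasDerivAt (fun s => f (G s)) (deriv f (G t) * deriv G t)
          (Complex.exp ((0:ℝ) * Complex.I) * t) := by
        have := hcomp t ht
        simpa using this
      have := HasDerivAt.scomp (0:ℝ) h5 h1'
      simpa [Function.comp_def] using this
    have h6 := h4.norm_sq
    have h7 : HasDerivAt (fun x : ℝ => ‖f (G (Complex.exp (x * Complex.I) * t))‖ ^ 2) 0 0 := by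
      have : (fun x : ℝ => ‖f (G (Complex.exp (x * Complex.I) * t))‖ ^ 2) = fun _ => (1:ℝ) := by
        funext x
        have hx : ‖Complex.exp (x * Complex.I) * t‖ = 1 := by
          rw [norm_mul, Complex.norm_exp_ofReal_mul_I, ht, one_mul]
        rw [hone _ hx]; norm_num
      rw [this]
      exact hasDerivAt_const _ _
    have h8 := h6.unique h7
    simp only [Complex.ofReal_zero, zero_mul, Complex.exp_zero, one_mul] at h8
    have h9 : inner ℝ (f (G t)) (Complex.I * t * (deriv f (G t) * deriv G t)) = 0 := by linarith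
    rw [Complex.inner] at h9
    have h10 : (starRingEnd ℂ) (f (G t)) * (Complex.I * t * (deriv f (G t) * deriv G t)) =
      Complex.I * (conj (f (G t)) * (t * deriv G t * deriv f (G t))) := by ring
    have h11 : Complex.I * t * (deriv f (G t) * deriv G t) * (starRingEnd ℂ) (f (G t)) =
      Complex.I * (conj (f (G t)) * (t * deriv G t * deriv f (G t))) := by ring
    have h12 : ∀ c : ℂ, (Complex.I * c).re = -c.im := by intro c; simp
    first
      | rw [h10, h12] at h9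
        linarith
      | rw [h11, h12] at h9
        linarith
  · -- radial derivative
    have h1 : HasDerivAt (fun x : ℝ => (x : ℂ) * t) (1 * t) (1:ℝ) :=
      (Complex.ofRealCLM.hasDerivAt (x := (1:ℝ))).mul_const t
    have h4 : HasDerivAt (fun x : ℝ => f (G ((x : ℂ) * t)))
        ((1 * t) * (deriv f (G t) * deriv G t)) 1 := by
      have h5 : HasDerivAt (fun s => f (G s)) (deriv f (G t) * deriv G t)
          (((1:ℝ) : ℂ) * t) := by
        have := hcomp t ht
        simpa using this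
      have := HasDerivAt.scomp (1:ℝ) h5 h1
      simpa [Function.comp_def] using this
    have h6 := h4.norm_sq
    have h7 := hasDerivAt_iff_tendsto_slope.mp h6
    have h8 : Tendsto (slope (fun x : ℝ => ‖f (G ((x : ℂ) * t))‖ ^ 2) 1) (𝓝[>] 1)
        (𝓝 (2 * inner ℝ (f (G (((1:ℝ) : ℂ) * t))) (1 * t * (deriv f (G t) * deriv G t)))) :=
      h7.mono_left (nhdsWithin_mono _ (fun x hx => ne_of_gt hx))
    have hev : ∀ᶠ x in 𝓝[>] (1:ℝ), 0 ≤ slope (fun x : ℝ => ‖f (G ((x : ℂ) * t))‖ ^ 2) 1 x := by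
      have hc : ContinuousAt (fun x : ℝ => G ((x : ℂ) * t)) 1 := by
        have h5 : HasDerivAt G (deriv G t) (((1:ℝ) : ℂ) * t) := by simpa using hGd t ht
        exact (HasDerivAt.scomp (1:ℝ) h5 h1).continuousAt
      have hU' : ∀ᶠ x : ℝ in 𝓝 (1:ℝ), G ((x : ℂ) * t) ∈ U := by
        apply hc.eventually_mem
        apply hU.mem_nhds
        simpa using hΩU (hmem t ht)
      filter_upwards [self_mem_nhdsWithin, mem_nhdsWithin_of_mem_nhds hU'] with x hx hxU
      have hx1 : 1 < ‖(x : ℂ) * t‖ := by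
        rw [norm_mul, ht, mul_one, Complex.norm_real, Real.norm_eq_abs]
        exact lt_of_lt_of_le hx (le_abs_self x)
      have h9 := one_lt_norm_of_notMem hΩ₂ hΩU hf₁ hf₂ hf₃ hxU (map_ext_notMem hG₃ hx1)
      rw [slope_def_field]
      have h10 : ‖f (G (((1:ℝ) : ℂ) * t))‖ = 1 := by simpa using hone t ht
      rw [h10]
      apply div_nonneg
      · nlinarith
      · exact sub_nonneg.mpr (le_of_lt hx)
    have h9 := ge_of_tendsto h8 hev
    have h10 : 0 ≤ inner ℝ (f (G t)) (1 * t * (deriv f (G t) * deriv G t)) := by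
      have : f (G (((1:ℝ) : ℂ) * t)) = f (G t) := by simp
      rw [this] at h9
      linarith
    rw [Complex.inner] at h10
    have h11 : (starRingEnd ℂ) (f (G t)) * (1 * t * (deriv f (G t) * deriv G t)) =
      (conj (f (G t)) * (t * deriv G t * deriv f (G t))) := by ring
    have h12 : 1 * t * (deriv f (G t) * deriv G t) * (starRingEnd ℂ) (f (G t)) =
      (conj (f (G t)) * (t * deriv G t * deriv f (G t))) := by ring
    first
      | rw [h11] at h10
        exact h10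
      | rw [h12] at h10
        exact h10

/-- `avg t G'(t) f'(G t)/ f (G t) = 1`. -/
theorem cav_rho (hΩ₁ : IsOpen Ω) (hΩ₂ : Bornology.IsBounded Ω) (hΩ₃ : Convex ℝ Ω) (hU : IsOpen U)
    (hΩU : closure Ω ⊆ U)
    (hf₁ : DifferentiableOn ℂ f U) (hf₂ : InjOn f U) (hf₃ : f '' Ω = ball 0 1)
    (hr₁ : 0 < r) (hr₂ : r < 1)
    (hG₁ : DifferentiableOn ℂ G {t : ℂ | r < ‖t‖}) (hG₂ : Set.InjOn G {t : ℂ | r < ‖t‖})
    (hG₃ : G '' {t : ℂ | 1 < ‖t‖} = (closure Ω)ᶜ) :
    cav (fun t => t * deriv G t * deriv f (G t) * (f (G t))⁻¹) = 1 := by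
  obtain ⟨z₀, hz₀, hfz₀⟩ : ∃ z₀ ∈ Ω, f z₀ = 0 := by
    have : (0:ℂ) ∈ f '' Ω := by rw [hf₃]; exact mem_ball_self one_pos
    exact this
  have hz₀U : z₀ ∈ U := hΩU (subset_closure hz₀)
  set k : ℂ → ℂ := dslope f z₀ with hk
  have hkd : DifferentiableOn ℂ k U :=
    (Complex.differentiableOn_dslope (hU.mem_nhds hz₀U)).mpr hf₁
  have hkne : ∀ z ∈ U, k z ≠ 0 := by
    intro z hz
    by_cases hzz : z = z₀
    · rw [hzz, hk, dslope_same]; exact deriv_ne_zero_of_injOn hU hf₁ hf₂ hz₀U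
    · rw [hk, dslope_of_ne _ hzz, slope_def_field]
      apply div_ne_zero
      · intro h
        exact hzz (hf₂ hz hz₀U (sub_eq_zero.mp h))
      · exact sub_ne_zero.mpr hzz
  have hfk : ∀ z : ℂ, f z = (z - z₀) * k z := by
    intro z
    by_cases hzz : z = z₀
    · rw [hzz, sub_self, zero_mul, hfz₀]
    · rw [hk, dslope_of_ne _ hzz, slope_def_field, hfz₀, sub_zero]
      field_simp [sub_ne_zero.mpr hzz]
  have hG0 : ∀ t : ℂ, ‖t‖ = 1 → G t - z₀ ≠ 0 := by
    intro t ht h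
    exact map_circle_notMem hΩ₁ hr₂ hG₁ hG₃ ht ((sub_eq_zero.mp h) ▸ hz₀)
  have hrew : ∀ t : ℂ, ‖t‖ = 1 → t * deriv G t * deriv f (G t) * (f (G t))⁻¹ =
      t * deriv G t * (G t - z₀)⁻¹ + t * deriv G t * (deriv k (G t) / k (G t)) := by
    intro t ht
    have hGt : G t ∈ U := hΩU (map_circle_mem_closure hr₂ hG₂ hG₃ ht)
    have hd : HasDerivAt f (1 * k (G t) + (G t - z₀) * deriv k (G t)) (G t) := by
      have h1 : HasDerivAt k (deriv k (G t)) (G t) :=
        (hkd.differentiableAt (hU.mem_nhds hGt)).hasDerivAt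
      refine (((hasDerivAt_id (G t)).sub_const z₀).mul h1).congr_of_eventuallyEq ?_
      exact Eventually.of_forall fun x => by simpa using hfk x
    rw [hd.deriv, hfk (G t)]
    have h2 := hkne _ hGt
    have h3 := hG0 t ht
    field_simp
  have hopen : IsOpen {t : ℂ | r < ‖t‖} := isOpen_lt continuous_const continuous_norm
  have hcG : ContinuousOn G (sphere (0:ℂ) 1) := hG₁.continuousOn.mono (by
    intro t ht
    have : ‖t‖ = 1 := by simpa using ht
    simp only [mem_ofPred_eq, this]; exact hr₂)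
  have hcG' : ContinuousOn (deriv G) (sphere (0:ℂ) 1) := (hG₁.deriv hopen).continuousOn.mono (by
    intro t ht
    have : ‖t‖ = 1 := by simpa using ht
    simp only [mem_ofPred_eq, this]; exact hr₂)
  have hmaps : MapsTo G (sphere (0:ℂ) 1) U := by
    intro t ht
    exact hΩU (map_circle_mem_closure hr₂ hG₂ hG₃ (by simpa using ht))
  have hck : ContinuousOn (fun z => deriv k z / k z) U :=
    ((hkd.deriv hU).continuousOn).div hkd.continuousOn hkne
  have hi1 : CircleIntegrable (fun t => t * deriv G t * (G t - z₀)⁻¹) 0 1 := by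
    apply ContinuousOn.circleIntegrable zero_le_one
    refine (continuousOn_id.mul hcG').mul ?_
    exact (hcG.sub continuousOn_const).inv₀ (fun t ht => hG0 t (by simpa using ht))
  have hi2 : CircleIntegrable (fun t => t * deriv G t * (deriv k (G t) / k (G t))) 0 1 := by
    apply ContinuousOn.circleIntegrable zero_le_one
    exact (continuousOn_id.mul hcG').mul (hck.comp hcG hmaps)
  have h1 : cav (fun t => t * deriv G t * deriv f (G t) * (f (G t))⁻¹) =
      cav (fun t => t * deriv G t * (G t - z₀)⁻¹ + t * deriv G t * (deriv k (G t) / k (G t))) := by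
    apply Real.circleAverage_congr_sphere
    intro t ht
    exact hrew t (by simpa using ht)
  rw [h1]
  unfold cav
  rw [Real.circleAverage_fun_add hi1 hi2]
  have h2 := cav_ext hΩ₁ hΩ₂ hr₁ hr₂ hG₁ hG₂ hG₃ hz₀
  have h3 := cav_closed (K := closure Ω) hΩ₃.closure hr₂ hG₁
    (fun t ht => map_circle_mem_closure hr₂ hG₂ hG₃ ht)
    (g := fun z => deriv k z / k z)
    (((hkd.deriv hU).div hkd hkne).mono hΩU)
  unfold cav at h2 h3
  rw [h2, h3, add_zero]

end Crest.Agent.R132.GS
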