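import Mathlib

/-!
The boundary correspondence `f ∘ G` between the interior and exterior conformal maps and the
change of variables on the circle (row 132, piece G).
-/

set_option autoImplicit false

namespace Crest.Agent.R132.G

open Filter Topology Metric Real ComplexConjugate

theorem boundary_change
    (Ω U : Set ℂ) (hΩ₂ : Bornology.IsBounded Ω)
    (hU : IsOpen U) (hΩU : closure Ω ⊆ U)
    (f : ℂ → ℂ) (hf₁ : DifferentiableOn ℂ f U) (hf₂ : Set.InjOn f U)
    (hf₃ : f '' Ω = Metric.ball 0 1)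
    (G : ℂ → ℂ) (r : ℝ) (hr₁ : 0 < r) (hr₂ : r < 1)
    (hG₁ : DifferentiableOn ℂ G {t : ℂ | r < ‖t‖}) (hG₂ : Set.InjOn G {t : ℂ | r < ‖t‖})
    (hG₃ : G '' {t : ℂ | 1 < ‖t‖} = (closure Ω)ᶜ) :
    f '' (closure Ω) = closedBall 0 1 ∧
    ∃ ψ : ℝ → ℝ, Continuous ψ ∧ Function.Periodic ψ (2 * π) ∧ (∀ θ, 0 ≤ ψ θ) ∧
      (∀ θ : ℝ, ‖f (G (Complex.exp (θ * Complex.I)))‖ = 1) ∧
      (∀ θ : ℝ, G (Complex.exp (θ * Complex.I)) ∈ closure Ω) ∧
      Continuous (fun θ : ℝ => G (Complex.exp (θ * Complex.I))) ∧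
      ∀ F : ℂ → ℂ, ContinuousOn F (sphere 0 1) →
        ∫ θ in (0 : ℝ)..2 * π, (ψ θ : ℂ) * F (f (G (Complex.exp (θ * Complex.I)))) =
          ∫ θ in (0 : ℝ)..2 * π, F (Complex.exp (θ * Complex.I)) := by
  -- images of the closure
  have hcomp : IsCompact (closure Ω) := hΩ₂.isCompact_closure
  have hfc : ContinuousOn f (closure Ω) := hf₁.continuousOn.mono hΩU
  have himg : f '' (closure Ω) = closedBall 0 1 := by
    apply Set.Subset.antisymm
    · have h1 := hfc.image_closure
      rw [hf₃, closure_ball _ one_ne_zero] at h1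
      exact h1
    · have h1 : IsClosed (f '' (closure Ω)) := (hcomp.image_of_continuousOn hfc).isClosed
      have h2 : ball (0 : ℂ) 1 ⊆ f '' (closure Ω) := by
        rw [← hf₃]; exact Set.image_mono subset_closure
      have h3 := h1.closure_subset_iff.2 h2
      rwa [closure_ball _ one_ne_zero] at h3
  refine ⟨himg, ?_⟩
  have hopen : IsOpen {t : ℂ | r < ‖t‖} := isOpen_lt continuous_const continuous_norm
  have hGc : ContinuousOn G {t : ℂ | r < ‖t‖} := hG₁.continuousOn
  -- the domain of b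
  set D : Set ℂ := {t : ℂ | r < ‖t‖} ∩ G ⁻¹' U with hD
  have hDo : IsOpen D := hGc.isOpen_inter_preimage hopen hU
  set b : ℂ → ℂ := fun t => f (G t) with hb
  have hbd : DifferentiableOn ℂ b D :=
    hf₁.comp (hG₁.mono Set.inter_subset_left) (fun t ht => ht.2)
  have hGmem : ∀ t : ℂ, ‖t‖ = 1 → G t ∈ closure Ω := by
    intro t ht
    by_contra hcon
    have h1 : G t ∈ G '' {t : ℂ | 1 < ‖t‖} := by rw [hG₃]; exact hcon
    obtain ⟨t', ht', he⟩ := h1
    have ht'' : (1 : ℝ) < ‖t'‖ := ht'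
    have h2 : t' = t := hG₂ (show r < ‖t'‖ by linarith) (show r < ‖t‖ by rw [ht]; exact hr₂) he
    rw [h2, ht] at ht''
    exact lt_irrefl _ ht''
  have hsD : ∀ t : ℂ, ‖t‖ = 1 → t ∈ D := fun t ht =>
    ⟨show r < ‖t‖ by rw [ht]; exact hr₂, hΩU (hGmem t ht)⟩
  have hout : ∀ t ∈ D, 1 < ‖t‖ → 1 < ‖b t‖ := by
    intro t ht h1
    by_contra hcon
    have h2 : b t ∈ closedBall (0 : ℂ) 1 := by simpa using not_lt.1 hcon
    rw [← himg] at h2
    obtain ⟨z, hz, hzt⟩ := h2
    have h3 : z = G t := hf₂ (hΩU hz) ht.2 hzt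
    have h4 : G t ∈ (closure Ω)ᶜ := by
      rw [← hG₃]; exact ⟨t, h1, rfl⟩
    exact h4 (h3 ▸ hz)
  have hle : ∀ t : ℂ, ‖t‖ = 1 → ‖b t‖ ≤ 1 := by
    intro t ht
    have : b t ∈ f '' (closure Ω) := ⟨G t, hGmem t ht, rfl⟩
    rw [himg] at this
    simpa using this
  -- radial path
  have hrad : ∀ t : ℂ, ‖t‖ = 1 → ∀ᶠ ρ : ℝ in 𝓝[>] 1, 1 < ‖b ((ρ : ℂ) * t)‖ := by
    intro t ht
    have hcont : ContinuousAt (fun ρ : ℝ => (ρ : ℂ) * t) 1 := by fun_prop
    have h1 : ∀ᶠ ρ : ℝ in 𝓝 1, (ρ : ℂ) * t ∈ D := by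
      apply hcont.eventually
      simp only [Complex.ofReal_one, one_mul]
      exact hDo.mem_nhds (hsD t ht)
    filter_upwards [h1.filter_mono nhdsWithin_le_nhds, self_mem_nhdsWithin] with ρ h2 h3
    refine hout _ h2 ?_
    have h4 : (1 : ℝ) < ρ := h3
    rw [norm_mul, Complex.norm_real, ht, mul_one, Real.norm_of_nonneg (by linarith)]
    exact h4
  have hnorm : ∀ t : ℂ, ‖t‖ = 1 → ‖b t‖ = 1 := by
    intro t ht
    refine le_antisymm (hle t ht) ?_
    have hcont : ContinuousAt (fun ρ : ℝ => ‖b ((ρ : ℂ) * t)‖) 1 := by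
      have h1 : ContinuousAt b (((1 : ℝ) : ℂ) * t) := by
        rw [Complex.ofReal_one, one_mul]
        exact (hbd.differentiableAt (hDo.mem_nhds (hsD t ht))).continuousAt
      have h2 : ContinuousAt (fun ρ : ℝ => (ρ : ℂ) * t) 1 := by fun_prop
      exact (ContinuousAt.comp (f := fun ρ : ℝ => (ρ : ℂ) * t) h1 h2).norm
    have h3 : Tendsto (fun ρ : ℝ => ‖b ((ρ : ℂ) * t)‖) (𝓝[>] 1) (𝓝 ‖b t‖) := by
      have := hcont.tendsto
      rw [Complex.ofReal_one, one_mul] at this
      exact this.mono_left nhdsWithin_le_nhds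
    exact ge_of_tendsto h3 ((hrad t ht).mono fun ρ h => h.le)
  have hbne : ∀ t : ℂ, ‖t‖ = 1 → b t ≠ 0 := by
    intro t ht h
    have := hnorm t ht
    rw [h, norm_zero] at this
    exact zero_ne_one this
  -- the logarithmic derivative
  set Ψ : ℂ → ℂ := fun t => t * deriv b t / b t with hΨ
  have hbder : ∀ t : ℂ, ‖t‖ = 1 → HasDerivAt b (deriv b t) t := fun t ht =>
    (hbd.differentiableAt (hDo.mem_nhds (hsD t ht))).hasDerivAt
  have hdbc : ContinuousOn (deriv b) D := (hbd.deriv hDo).continuousOn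
  have hexpn : ∀ θ : ℝ, ‖Complex.exp (θ * Complex.I)‖ = 1 := Complex.norm_exp_ofReal_mul_I
  have hexpc : Continuous (fun θ : ℝ => Complex.exp (θ * Complex.I)) := by fun_prop
  have hGcont : Continuous (fun θ : ℝ => G (Complex.exp (θ * Complex.I))) :=
    hGc.comp_continuous hexpc (fun θ => (hsD _ (hexpn θ)).1)
  have hbcont : Continuous (fun θ : ℝ => b (Complex.exp (θ * Complex.I))) :=
    hbd.continuousOn.comp_continuous hexpc (fun θ => hsD _ (hexpn θ))
  have hΨcont : Continuous (fun θ : ℝ => Ψ (Complex.exp (θ * Complex.I))) := by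
    refine Continuous.div (hexpc.mul ?_) hbcont (fun θ => hbne _ (hexpn θ))
    exact hdbc.comp_continuous hexpc (fun θ => hsD _ (hexpn θ))
  have hβ : ∀ θ : ℝ, HasDerivAt (fun θ : ℝ => b (Complex.exp (θ * Complex.I)))
      (Complex.I * Ψ (Complex.exp (θ * Complex.I)) * b (Complex.exp (θ * Complex.I))) θ := by
    intro θ
    have h1 : HasDerivAt (fun θ : ℝ => Complex.exp (θ * Complex.I))
        (Complex.exp (θ * Complex.I) * Complex.I) θ := by
      have h2 : HasDerivAt (fun z : ℂ => Complex.exp (z * Complex.I))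
          (Complex.exp ((θ : ℂ) * Complex.I) * Complex.I) (θ : ℂ) := by
        have := ((hasDerivAt_id (θ : ℂ)).mul_const Complex.I).cexp
        simpa using this
      exact h2.comp_ofReal
    have h3 := (hbder _ (hexpn θ)).comp θ h1
    have h4 : deriv b (Complex.exp (θ * Complex.I)) * (Complex.exp (θ * Complex.I) * Complex.I) =
        Complex.I * Ψ (Complex.exp (θ * Complex.I)) * b (Complex.exp (θ * Complex.I)) := by
      simp only [hΨ]
      have := hbne _ (hexpn θ)
      field_simp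
    rw [h4] at h3
    exact h3
  -- Im Ψ = 0
  have hIm : ∀ θ : ℝ, (Ψ (Complex.exp (θ * Complex.I))).im = 0 := by
    intro θ
    have h1 := (hβ θ).norm_sq
    have h2 : (fun θ : ℝ => ‖b (Complex.exp (θ * Complex.I))‖ ^ 2) = fun _ => (1 : ℝ) := by
      funext s
      rw [hnorm _ (hexpn s), one_pow]
    rw [h2] at h1
    have h3 := h1.unique (hasDerivAt_const θ (1 : ℝ))
    have h4 : inner ℝ (b (Complex.exp (θ * Complex.I)))
        (Complex.I * Ψ (Complex.exp (θ * Complex.I)) * b (Complex.exp (θ * Complex.I))) =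
        - (Ψ (Complex.exp (θ * Complex.I))).im * ‖b (Complex.exp (θ * Complex.I))‖ ^ 2 := by
      rw [Complex.inner, mul_assoc (Complex.I * Ψ _), Complex.mul_conj,
        Complex.normSq_eq_norm_sq]
      simp [Complex.mul_re, Complex.mul_im, ← Complex.ofReal_pow]
    rw [h4, hnorm _ (hexpn θ)] at h3
    linarith
  -- Re Ψ ≥ 0
  have hRe : ∀ θ : ℝ, 0 ≤ (Ψ (Complex.exp (θ * Complex.I))).re := by
    intro θ
    set t := Complex.exp (θ * Complex.I) with ht
    have htn : ‖t‖ = 1 := hexpn θ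
    have h1 : HasDerivAt (fun ρ : ℝ => (ρ : ℂ) * t) t 1 := by
      have h2 : HasDerivAt (fun z : ℂ => z * t) t ((1 : ℝ) : ℂ) := by
        simpa using (hasDerivAt_id ((1 : ℝ) : ℂ)).mul_const t
      exact h2.comp_ofReal
    have h3 : HasDerivAt b (deriv b t) (((1 : ℝ) : ℂ) * t) := by
      rw [Complex.ofReal_one, one_mul]
      exact hbder t htn
    have h4 := (HasDerivAt.comp (1 : ℝ) h3 h1).norm_sq
    have h5 := h4.tendsto_slope
    have h6 : Tendsto (slope (fun ρ : ℝ => ‖(b ∘ fun ρ : ℝ => (ρ : ℂ) * t) ρ‖ ^ 2) 1) (𝓝[>] 1)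
        (𝓝 (2 * inner ℝ ((b ∘ fun ρ : ℝ => (ρ : ℂ) * t) 1) (deriv b t * t))) :=
      h5.mono_left (nhdsWithin_mono _ (fun x hx => ne_of_gt hx))
    have h7 : 0 ≤ 2 * inner ℝ ((b ∘ fun ρ : ℝ => (ρ : ℂ) * t) 1) (deriv b t * t) := by
      refine ge_of_tendsto h6 ?_
      filter_upwards [hrad t htn, self_mem_nhdsWithin] with ρ h8 h9
      have h10 : (1 : ℝ) < ρ := h9
      rw [slope_def_field]
      refine div_nonneg ?_ (by linarith)
      simp only [Function.comp, Complex.ofReal_one, one_mul]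
      rw [hnorm t htn]
      nlinarith
    have h8 : inner ℝ ((b ∘ fun ρ : ℝ => (ρ : ℂ) * t) 1) (deriv b t * t) =
        (Ψ t).re := by
      simp only [Function.comp, Complex.ofReal_one, one_mul]
      rw [Complex.inner]
      have h9 : conj (b t) = (b t)⁻¹ := by
        rw [Complex.inv_def, Complex.normSq_eq_norm_sq, hnorm t htn]
        simp
      rw [h9]
      congr 1
      simp only [hΨ]
      rw [div_eq_mul_inv]
      ring
    rw [h8] at h7
    linarith
  set ψ : ℝ → ℝ := fun θ => (Ψ (Complex.exp (θ * Complex.I))).re with hψ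
  have hψc : Continuous ψ := Complex.continuous_re.comp hΨcont
  have hΨψ : ∀ θ : ℝ, Ψ (Complex.exp (θ * Complex.I)) = (ψ θ : ℂ) := by
    intro θ
    apply Complex.ext
    · simp [hψ]
    · simp [hIm θ]
  -- the lift
  set φ₀ : ℝ := Complex.arg (b (Complex.exp ((0 : ℝ) * Complex.I))) with hφ₀
  set φ : ℝ → ℝ := fun θ => φ₀ + ∫ s in (0 : ℝ)..θ, ψ s with hφ
  have hφd : ∀ θ, HasDerivAt φ (ψ θ) θ := by
    intro θ
    have := intervalIntegral.integral_hasDerivAt_right (hψc.intervalIntegrable 0 θ)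
      (hψc.stronglyMeasurableAtFilter _ _) hψc.continuousAt
    simpa [hφ] using this.const_add φ₀
  have hφc : Continuous φ := continuous_iff_continuousAt.2 fun θ => (hφd θ).continuousAt
  have hlift : ∀ θ : ℝ, b (Complex.exp (θ * Complex.I)) = Complex.exp (φ θ * Complex.I) := by
    have h1 : ∀ θ : ℝ, HasDerivAt (fun θ : ℝ => b (Complex.exp (θ * Complex.I)) *
        Complex.exp (-(φ θ * Complex.I))) 0 θ := by
      intro θ
      have h2 : HasDerivAt (fun θ : ℝ => ((φ θ : ℝ) : ℂ)) ((ψ θ : ℝ) : ℂ) θ :=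
        (hφd θ).ofReal_comp
      have h3 : HasDerivAt (fun θ : ℝ => Complex.exp (-(φ θ * Complex.I)))
          (Complex.exp (-(φ θ * Complex.I)) * (-(ψ θ * Complex.I))) θ :=
        ((h2.mul_const Complex.I).fun_neg).cexp
      have h4 := (hβ θ).mul h3
      have h5 : Complex.I * Ψ (Complex.exp (θ * Complex.I)) * b (Complex.exp (θ * Complex.I)) *
          Complex.exp (-(φ θ * Complex.I)) + b (Complex.exp (θ * Complex.I)) *
          (Complex.exp (-(φ θ * Complex.I)) * (-(ψ θ * Complex.I))) = 0 := by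
        rw [hΨψ]; ring
      rw [h5] at h4
      exact h4
    have h6 : ∀ θ : ℝ, b (Complex.exp (θ * Complex.I)) * Complex.exp (-(φ θ * Complex.I)) =
        b (Complex.exp ((0 : ℝ) * Complex.I)) * Complex.exp (-(φ 0 * Complex.I)) := by
      intro θ
      exact is_const_of_deriv_eq_zero (fun s => (h1 s).differentiableAt)
        (fun s => (h1 s).deriv) θ 0
    have h7 : b (Complex.exp ((0 : ℝ) * Complex.I)) * Complex.exp (-(φ 0 * Complex.I)) = 1 := by
      have h8 : φ 0 = φ₀ := by simp [hφ]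
      have h10 : Complex.exp (φ₀ * Complex.I) = b (Complex.exp ((0 : ℝ) * Complex.I)) := by
        have h := Complex.norm_mul_exp_arg_mul_I (b (Complex.exp ((0 : ℝ) * Complex.I)))
        rw [hnorm _ (hexpn 0), Complex.ofReal_one, one_mul] at h
        exact h
      rw [h8, Complex.exp_neg, h10]
      exact mul_inv_cancel₀ (hbne _ (hexpn 0))
    intro θ
    have h11 := h6 θ
    rw [h7, Complex.exp_neg] at h11
    exact (mul_inv_eq_one₀ (Complex.exp_ne_zero _)).1 h11
  -- monotonicity and total increase of the lift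
  have hφm : Monotone φ := monotone_of_deriv_nonneg (fun θ => (hφd θ).differentiableAt)
    (fun θ => by rw [(hφd θ).deriv]; exact hRe θ)
  have hexp2 : Complex.exp (((2 * π : ℝ) : ℂ) * Complex.I) = 1 := by
    push_cast
    exact Complex.exp_two_pi_mul_I
  have hinj : ∀ θ : ℝ, b (Complex.exp (θ * Complex.I)) = b (Complex.exp ((0 : ℝ) * Complex.I)) →
      Complex.exp (θ * Complex.I) = 1 := by
    intro θ h
    have h1 : G (Complex.exp (θ * Complex.I)) = G (Complex.exp ((0 : ℝ) * Complex.I)) :=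
      hf₂ (hsD _ (hexpn θ)).2 (hsD _ (hexpn 0)).2 h
    have h2 := hG₂ (hsD _ (hexpn θ)).1 (hsD _ (hexpn 0)).1 h1
    rw [h2]; simp
  have htot : φ (2 * π) = φ 0 + 2 * π := by
    have h1 : Complex.exp (φ (2 * π) * Complex.I) = Complex.exp (φ 0 * Complex.I) := by
      rw [← hlift, ← hlift, hexp2]; simp
    obtain ⟨k, hk⟩ := Complex.exp_eq_exp_iff_exists_int.1 h1
    have h2 : φ (2 * π) = φ 0 + k * (2 * π) := by
      have h3 : ((φ (2 * π) : ℝ) : ℂ) * Complex.I = ((φ 0 + k * (2 * π) : ℝ) : ℂ) * Complex.I := by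
        rw [hk]; push_cast; ring
      have h4 := mul_right_cancel₀ Complex.I_ne_zero h3
      exact_mod_cast h4
    have hpi := Real.pi_pos
    have h5 : φ 0 ≤ φ (2 * π) := hφm (by positivity)
    have hk0 : 0 ≤ k := by
      by_contra hcon
      have : (k : ℝ) ≤ -1 := by
        have : k ≤ -1 := by omega
        exact_mod_cast this
      nlinarith
    have hk1 : k ≠ 0 := by
      intro hk1
      rw [hk1, Int.cast_zero, zero_mul, add_zero] at h2
      have h6 : φ π = φ 0 := by
        apply le_antisymm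
        · rw [← h2]; exact hφm (by linarith)
        · exact hφm hpi.le
      have h7 : Complex.exp ((π : ℝ) * Complex.I) = 1 := by
        apply hinj
        rw [hlift, hlift, h6]
      rw [Complex.exp_pi_mul_I] at h7
      norm_num at h7
    have hk2 : ¬ (2 ≤ k) := by
      intro hk2
      have hk2' : (2 : ℝ) ≤ k := by exact_mod_cast hk2
      have h8 : φ 0 + 2 * π ∈ Set.Icc (φ 0) (φ (2 * π)) := by
        constructor
        · linarith
        · rw [h2]; nlinarith
      obtain ⟨θ, hθ, hθφ⟩ := intermediate_value_Icc (by positivity : (0 : ℝ) ≤ 2 * π)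
        hφc.continuousOn h8
      have h9 : Complex.exp (θ * Complex.I) = 1 := by
        apply hinj
        rw [hlift, hlift, hθφ]
        push_cast
        rw [add_mul, Complex.exp_add, Complex.exp_two_pi_mul_I, mul_one]
      obtain ⟨j, hj⟩ := Complex.exp_eq_one_iff.1 h9
      have h10 : θ = j * (2 * π) := by
        have h3 : ((θ : ℝ) : ℂ) * Complex.I = ((j * (2 * π) : ℝ) : ℂ) * Complex.I := by
          rw [hj]; push_cast; ring
        have h4 := mul_right_cancel₀ Complex.I_ne_zero h3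
        exact_mod_cast h4
      have hj0 : 0 ≤ j := by
        by_contra hcon
        have : (j : ℝ) ≤ -1 := by
          have : j ≤ -1 := by omega
          exact_mod_cast this
        have := hθ.1
        nlinarith
      have hj1 : j ≤ 1 := by
        by_contra hcon
        have : (2 : ℝ) ≤ j := by
          have : 2 ≤ j := by omega
          exact_mod_cast this
        have := hθ.2
        nlinarith
      have hj2 : j = 0 ∨ j = 1 := by omega
      rcases hj2 with hj2 | hj2
      · rw [hj2, Int.cast_zero, zero_mul] at h10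
        rw [h10] at hθφ
        linarith
      · rw [hj2, Int.cast_one, one_mul] at h10
        rw [h10, h2] at hθφ
        nlinarith
    have hk3 : k = 1 := by omega
    rw [h2, hk3, Int.cast_one, one_mul]
  refine ⟨ψ, hψc, ?_, hRe, fun θ => hnorm _ (hexpn θ), fun θ => hGmem _ (hexpn θ), hGcont, ?_⟩
  · intro θ
    simp only [hψ]
    have : Complex.exp (((θ + 2 * π : ℝ) : ℂ) * Complex.I) = Complex.exp (θ * Complex.I) := by
      push_cast
      rw [add_mul, Complex.exp_add, Complex.exp_two_pi_mul_I, mul_one]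
    rw [this]
  · intro F hF
    set g : ℝ → ℂ := fun s => F (Complex.exp (s * Complex.I)) with hg
    have hgc : Continuous g := hF.comp_continuous hexpc (fun s => by simpa using hexpn s)
    have hgp : Function.Periodic g (2 * π) := by
      intro s
      simp only [hg]
      congr 1
      push_cast
      rw [add_mul, Complex.exp_add, Complex.exp_two_pi_mul_I, mul_one]
    have h1 : ∫ θ in (0 : ℝ)..2 * π, (ψ θ : ℂ) * F (f (G (Complex.exp (θ * Complex.I)))) =
        ∫ θ in (0 : ℝ)..2 * π, ψ θ • (g ∘ φ) θ := by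
      refine intervalIntegral.integral_congr fun θ _ => ?_
      simp only [Function.comp, hg, Complex.real_smul]
      have h2 : f (G (Complex.exp (θ * Complex.I))) = Complex.exp (φ θ * Complex.I) := hlift θ
      rw [h2]
    rw [h1, intervalIntegral.integral_comp_smul_deriv (fun θ _ => hφd θ) hψc.continuousOn hgc,
      htot, hgp.intervalIntegral_add_eq (φ 0) 0, zero_add]

end Crest.Agent.R132.G
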