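import Mathlib
import Crest.Prelude.Def_NumRangeMetric
import Crest.Agent.R132.GDeriv

/-!
Interpolation of holomorphic functions by polynomials in an injective holomorphic function, and
polynomial facts for matrices.
-/

set_option autoImplicit false

open Filter Topology Set Metric Polynomial
open Crest.AnalysisR.NumRange

namespace Crest.Agent.R132.GS

/-- dividing by `f - f μ` -/
theorem exists_div {W : Set ℂ} (hW : IsOpen W) {f : ℂ → ℂ} (hf : DifferentiableOn ℂ f W)
    (hinj : InjOn f W) {μ : ℂ} (hμ : μ ∈ W) {v : ℂ → ℂ} (hv : DifferentiableOn ℂ v W) :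
    ∃ w : ℂ → ℂ, DifferentiableOn ℂ w W ∧ ∀ z ∈ W, v z = v μ + (f z - f μ) * w z := by
  have hk0 : ∀ z ∈ W, dslope f μ z ≠ 0 := by
    intro z hz
    by_cases hzz : z = μ
    · rw [hzz, dslope_same]; exact deriv_ne_zero_of_injOn hW hf hinj hμ
    · rw [dslope_of_ne _ hzz, slope_def_field]
      apply div_ne_zero
      · intro h
        exact hzz (hinj hz hμ (sub_eq_zero.mp h))
      · exact sub_ne_zero.mpr hzz
  refine ⟨fun z => dslope v μ z / dslope f μ z, ?_, ?_⟩
  · exact ((Complex.differentiableOn_dslope (hW.mem_nhds hμ)).mpr hv).div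
      ((Complex.differentiableOn_dslope (hW.mem_nhds hμ)).mpr hf) hk0
  · intro z hz
    have h0 := hk0 z hz
    have h1 : f z - f μ = (z - μ) * dslope f μ z := by
      have := sub_smul_dslope f μ z
      rw [smul_eq_mul] at this
      exact this.symm
    have h2 : v z - v μ = (z - μ) * dslope v μ z := by
      have := sub_smul_dslope v μ z
      rw [smul_eq_mul] at this
      exact this.symm
    rw [h1]
    have h3 : (z - μ) * dslope f μ z * (dslope v μ z / dslope f μ z) = (z - μ) * dslope v μ z := by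
      field_simp
    simp only
    rw [h3, ← h2]; ring

/-- Newton interpolation in the coordinate `f`. -/
theorem exists_interp {W : Set ℂ} (hW : IsOpen W) {f : ℂ → ℂ} (hf : DifferentiableOn ℂ f W)
    (hinj : InjOn f W) (l : List ℂ) (hl : ∀ μ ∈ l, μ ∈ W) :
    ∀ v : ℂ → ℂ, DifferentiableOn ℂ v W →
    ∃ (P : ℂ[X]) (w : ℂ → ℂ), DifferentiableOn ℂ w W ∧
      ∀ z ∈ W, v z = P.eval (f z) + (l.map (fun μ => f z - f μ)).prod * w z := by
  induction l with
  | nil =>
    intro v hv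
    exact ⟨0, v, hv, fun z _ => by simp⟩
  | cons μ l ih =>
    intro v hv
    obtain ⟨w₁, hw₁, h₁⟩ := exists_div hW hf hinj (hl μ (by simp)) hv
    obtain ⟨P, w, hw, h⟩ := ih (fun ν hν => hl ν (by simp [hν])) w₁ hw₁
    refine ⟨C (v μ) + (X - C (f μ)) * P, w, hw, fun z hz => ?_⟩
    rw [h₁ z hz, h z hz]
    simp only [eval_add, eval_C, eval_mul, eval_sub, eval_X, List.map_cons, List.prod_cons]
    ring

/-- the finite set of eigenvalues -/
noncomputable def eigs {n : ℕ} (A : Matrix (Fin n) (Fin n) ℂ) : Finset ℂ := A.charpoly.roots.toFinset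

theorem mem_eigs {n : ℕ} {A : Matrix (Fin n) (Fin n) ℂ} {μ : ℂ} :
    μ ∈ eigs A ↔ μ ∈ spectrum ℂ A := by
  rw [eigs, Multiset.mem_toFinset, Matrix.mem_spectrum_iff_isRoot_charpoly,
    Polynomial.mem_roots (Matrix.charpoly_monic A).ne_zero]

/-- a high power of the product of linear factors kills the matrix -/
theorem aeval_eq_zero_of_dvd {n : ℕ} {A : Matrix (Fin n) (Fin n) ℂ} {Q : ℂ[X]}
    (hQ : (∏ μ ∈ eigs A, (X - C μ)) ^ n ∣ Q) : aeval A Q = 0 := by
  have hsplit : A.charpoly = (A.charpoly.roots.map (fun a => X - C a)).prod := by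
    have h := (IsAlgClosed.splits A.charpoly).eq_prod_roots_of_monic (Matrix.charpoly_monic A)
    exact h
  have hdvd : A.charpoly ∣ (∏ μ ∈ eigs A, (X - C μ)) ^ n := by
    have h1 : (∏ μ ∈ eigs A, (X - C μ)) ^ n = ((n • (eigs A).val).map (fun a => X - C a)).prod := by
      rw [Multiset.map_nsmul, Multiset.prod_nsmul]
      rfl
    rw [h1]
    conv_lhs => rw [hsplit]
    apply Multiset.prod_dvd_prod_of_le
    apply Multiset.map_le_map
    rw [Multiset.le_iff_count]
    intro a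
    rw [Multiset.count_nsmul]
    by_cases ha : a ∈ A.charpoly.roots
    · have h2 : Multiset.count a (eigs A).val = 1 := by
        apply Multiset.count_eq_one_of_mem (eigs A).nodup
        exact Multiset.mem_toFinset.mpr ha
      rw [h2, mul_one]
      calc Multiset.count a A.charpoly.roots ≤ Multiset.card A.charpoly.roots :=
            Multiset.count_le_card _ _
        _ ≤ A.charpoly.natDegree := Polynomial.card_roots' _
        _ = n := by rw [Matrix.charpoly_natDegree_eq_dim, Fintype.card_fin]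
    · rw [Multiset.count_eq_zero_of_notMem ha]
      exact Nat.zero_le _
  obtain ⟨R, rfl⟩ := hdvd.trans hQ
  rw [map_mul, Matrix.aeval_self_charpoly, zero_mul]

/-- vanishing to order `n` -/
def Van (n : ℕ) (F : ℂ → ℂ) (μ : ℂ) : Prop :=
  ∃ h : ℂ → ℂ, AnalyticAt ℂ h μ ∧ ∀ᶠ z in 𝓝 μ, F z = (z - μ) ^ n * h z

theorem Van.add {n : ℕ} {F₁ F₂ : ℂ → ℂ} {μ : ℂ} (h₁ : Van n F₁ μ) (h₂ : Van n F₂ μ) :
    Van n (fun z => F₁ z + F₂ z) μ := by
  obtain ⟨g₁, hg₁, e₁⟩ := h₁
  obtain ⟨g₂, hg₂, e₂⟩ := h₂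
  refine ⟨fun z => g₁ z + g₂ z, hg₁.add hg₂, ?_⟩
  filter_upwards [e₁, e₂] with z h1 h2
  rw [h1, h2]; ring

theorem Van.mul_right {n : ℕ} {F₁ F₂ : ℂ → ℂ} {μ : ℂ} (h₁ : Van n F₁ μ)
    (h₂ : AnalyticAt ℂ F₂ μ) : Van n (fun z => F₁ z * F₂ z) μ := by
  obtain ⟨g₁, hg₁, e₁⟩ := h₁
  refine ⟨fun z => g₁ z * F₂ z, hg₁.mul h₂, ?_⟩
  filter_upwards [e₁] with z h1
  rw [h1]; ring

theorem Van.congr {n : ℕ} {F₁ F₂ : ℂ → ℂ} {μ : ℂ} (h₁ : Van n F₁ μ)
    (h : ∀ᶠ z in 𝓝 μ, F₂ z = F₁ z) : Van n F₂ μ := by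
  obtain ⟨g₁, hg₁, e₁⟩ := h₁
  refine ⟨g₁, hg₁, ?_⟩
  filter_upwards [e₁, h] with z h1 h2
  rw [h2, h1]

theorem van_of_iteratedDeriv {n : ℕ} {F₁ F₂ : ℂ → ℂ} {μ : ℂ} (h₁ : AnalyticAt ℂ F₁ μ)
    (h₂ : AnalyticAt ℂ F₂ μ) (h : ∀ j < n, iteratedDeriv j F₁ μ = iteratedDeriv j F₂ μ) :
    Van n (fun z => F₁ z - F₂ z) μ := by
  have h3 : AnalyticAt ℂ (fun z => F₁ z - F₂ z) μ := h₁.sub h₂
  have h4 : (n : ℕ∞) ≤ analyticOrderAt (fun z => F₁ z - F₂ z) μ := by
    rw [natCast_le_analyticOrderAt_iff_iteratedDeriv_eq_zero h3]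
    intro i hi
    rw [iteratedDeriv_fun_sub (h₁.contDiffAt) (h₂.contDiffAt), h i hi, sub_self]
  obtain ⟨g, hg, e⟩ := (natCast_le_analyticOrderAt h3).mp h4
  exact ⟨g, hg, by simpa [smul_eq_mul] using e⟩

theorem pow_dvd_of_van {n : ℕ} {Q : ℂ[X]} {μ : ℂ} (h : Van n (fun z => Q.eval z) μ) :
    (X - C μ) ^ n ∣ Q := by
  by_cases hQ : Q = 0
  · rw [hQ]; exact dvd_zero _
  obtain ⟨R, hR, hnd⟩ := Q.exists_eq_pow_rootMultiplicity_mul_and_not_dvd hQ μ
  set m := Q.rootMultiplicity μ with hm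
  by_cases hmn : n ≤ m
  · rw [hR]
    exact (pow_dvd_pow _ hmn).trans (dvd_mul_right _ _)
  · exfalso
    push Not at hmn
    obtain ⟨g, hg, e⟩ := h
    have hR0 : R.eval μ ≠ 0 := by
      intro h0
      exact hnd (dvd_iff_isRoot.mpr h0)
    have h1 : ∀ᶠ z in 𝓝[≠] μ, R.eval z = (z - μ) ^ (n - m) * g z := by
      filter_upwards [mem_nhdsWithin_of_mem_nhds e, self_mem_nhdsWithin] with z hz hz'
      have hz0 : z - μ ≠ 0 := sub_ne_zero.mpr hz'
      have h2 : (z - μ) ^ m * R.eval z = (z - μ) ^ m * ((z - μ) ^ (n - m) * g z) := by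
        have h3 : Q.eval z = (z - μ) ^ n * g z := hz
        have h4 : Q.eval z = (z - μ) ^ m * R.eval z := by
          conv_lhs => rw [hR]
          simp
        rw [← h4, h3, ← mul_assoc, ← pow_add]
        congr 2
        omega
      exact mul_left_cancel₀ (pow_ne_zero _ hz0) h2
    have h5 : Tendsto (fun z => R.eval z) (𝓝[≠] μ) (𝓝 (R.eval μ)) :=
      (R.continuous.tendsto μ).mono_left nhdsWithin_le_nhds
    have h6 : Tendsto (fun z => (z - μ) ^ (n - m) * g z) (𝓝[≠] μ) (𝓝 ((μ - μ) ^ (n - m) * g μ)) := by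
      have : ContinuousAt (fun z => (z - μ) ^ (n - m) * g z) μ :=
        ((continuousAt_id.sub continuousAt_const).pow _).mul hg.continuousAt
      exact this.tendsto.mono_left nhdsWithin_le_nhds
    have h7 := tendsto_nhds_unique (h5.congr' h1) h6
    rw [sub_self, zero_pow (by omega), zero_mul] at h7
    exact hR0 h7

theorem prod_pow_dvd_of_van {n : ℕ} {Q : ℂ[X]} {s : Finset ℂ}
    (h : ∀ μ ∈ s, Van n (fun z => Q.eval z) μ) :
    (∏ μ ∈ s, (X - C μ)) ^ n ∣ Q := by
  rw [← Finset.prod_pow]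
  apply Finset.prod_dvd_of_coprime
  · intro a _ b _ hab
    apply IsCoprime.pow
    exact isCoprime_X_sub_C_of_isUnit_sub (sub_ne_zero.mpr hab).isUnit
  · intro μ hμ
    exact pow_dvd_of_van (h μ hμ)

/-- The key interpolation statement: if `v = P ∘ f + (∏ (f - f μ))^n w` then any polynomial
agreeing with `v` agrees with `P ∘ p`. -/
theorem dvd_sub_comp {n : ℕ} {A : Matrix (Fin n) (Fin n) ℂ} {W : Set ℂ} (hW : IsOpen W)
    (hspec : ∀ μ ∈ eigs A, μ ∈ W) {f v w : ℂ → ℂ} (hf : DifferentiableOn ℂ f W)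
    (hv : DifferentiableOn ℂ v W) (hw : DifferentiableOn ℂ w W) {P p q : ℂ[X]}
    (hvw : ∀ z ∈ W, v z = P.eval (f z) + (∏ μ ∈ eigs A, (f z - f μ)) ^ n * w z)
    (hp : AgreesOnSpectrum A f p) (hq : AgreesOnSpectrum A v q) :
    (∏ μ ∈ eigs A, (X - C μ)) ^ n ∣ q - P.comp p := by
  apply prod_pow_dvd_of_van
  intro μ hμ
  have hμW := hspec μ hμ
  have hμs : μ ∈ spectrum ℂ A := mem_eigs.mp hμ
  have hWn : W ∈ 𝓝 μ := hW.mem_nhds hμW
  have hpa : ∀ Q : ℂ[X], AnalyticAt ℂ (fun z => Q.eval z) μ := fun Q =>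
    (Q.differentiable.analyticAt μ)
  have h1 : Van n (fun z => q.eval z - v z) μ :=
    van_of_iteratedDeriv (hpa q) (hv.analyticAt hWn) (fun j hj => hq μ hμs j hj)
  have h2 : Van n (fun z => p.eval z - f z) μ :=
    van_of_iteratedDeriv (hpa p) (hf.analyticAt hWn) (fun j hj => hp μ hμs j hj)
  -- P ∘ f - P ∘ p
  have h3 : Van n (fun z => P.eval (f z) - P.eval (p.eval z)) μ := by
    -- P(a) - P(b) = (b - a) * S(a,b)
    have h4 : ∀ a b : ℂ, P.eval a - P.eval b =
        (b - a) * (-(∑ i ∈ Finset.range (P.natDegree + 1), P.coeff i *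
          ∑ j ∈ Finset.range i, a ^ j * b ^ (i - 1 - j))) := by
      intro a b
      rw [Polynomial.eval_eq_sum_range, Polynomial.eval_eq_sum_range, ← Finset.sum_sub_distrib]
      rw [mul_neg, ← neg_mul, neg_sub, Finset.mul_sum]
      apply Finset.sum_congr rfl
      intro i _
      have := Commute.geom_sum₂_mul (Commute.all a b) i
      rw [← mul_sub, ← this]; ring
    refine Van.congr (h2.mul_right (F₂ := fun z => (-(∑ i ∈ Finset.range (P.natDegree + 1),
      P.coeff i * ∑ j ∈ Finset.range i, (f z) ^ j * (p.eval z) ^ (i - 1 - j)))) ?_)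
      (Eventually.of_forall fun z => h4 (f z) (p.eval z))
    have hfa := hf.analyticAt hWn
    apply AnalyticAt.neg
    apply Finset.analyticAt_fun_sum
    intro i _
    apply analyticAt_const.mul
    apply Finset.analyticAt_fun_sum
    intro j _
    exact (hfa.pow _).mul ((hpa p).pow _)
  -- the remainder
  have h5 : Van n (fun z => (∏ ν ∈ eigs A, (f z - f ν)) ^ n * w z) μ := by
    have h6 : Van n (fun z => (f z - f μ) ^ n) μ := by
      refine ⟨fun z => (dslope f μ z) ^ n, ?_, Eventually.of_forall fun z => ?_⟩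
      · have : DifferentiableOn ℂ (dslope f μ) W := (Complex.differentiableOn_dslope hWn).mpr hf
        exact (this.analyticAt hWn).pow n
      · have := sub_smul_dslope f μ z
        rw [smul_eq_mul] at this
        simp only
        rw [← this, mul_pow]
    have h7 : AnalyticAt ℂ (fun z => (∏ ν ∈ (eigs A).erase μ, (f z - f ν)) ^ n * w z) μ := by
      have hfa := hf.analyticAt hWn
      apply AnalyticAt.mul _ (hw.analyticAt hWn)
      apply AnalyticAt.pow
      apply Finset.analyticAt_fun_prod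
      intro ν _
      exact hfa.sub analyticAt_const
    refine Van.congr (h6.mul_right h7) (Eventually.of_forall fun z => ?_)
    rw [← Finset.mul_prod_erase _ _ hμ, mul_pow, mul_assoc]
  have h8 := (h1.add h5).add h3
  refine Van.congr h8 ?_
  filter_upwards [hWn] with z hz
  rw [eval_sub, eval_comp, hvw z hz]
  ring

end Crest.Agent.R132.GS
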