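import Mathlib
import Crest.Agent.R132.GBdry
import Crest.Agent.R132.GInterp

/-!
The Poisson-type density and its moments.
-/

set_option autoImplicit false

open Filter Topology Set Metric Polynomial
open Crest.AnalysisR.NumRange
open scoped ComplexConjugate ComplexOrder Matrix

namespace Crest.Agent.R132.GS

/-- the geometric data -/
structure Data (Ω U : Set ℂ) (f G : ℂ → ℂ) (r : ℝ) : Prop where
  hΩ₁ : IsOpen Ω
  hΩ₂ : Bornology.IsBounded Ω
  hΩ₃ : Convex ℝ Ω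
  hU : IsOpen U
  hΩU : closure Ω ⊆ U
  hf₁ : DifferentiableOn ℂ f U
  hf₂ : InjOn f U
  hf₃ : f '' Ω = ball 0 1
  hr₁ : 0 < r
  hr₂ : r < 1
  hG₁ : DifferentiableOn ℂ G {t : ℂ | r < ‖t‖}
  hG₂ : Set.InjOn G {t : ℂ | r < ‖t‖}
  hG₃ : G '' {t : ℂ | 1 < ‖t‖} = (closure Ω)ᶜ

/-- differentiability of determinants -/
theorem differentiableOn_det {n : ℕ} {s : Set ℂ} {M : ℂ → Matrix (Fin n) (Fin n) ℂ}
    (h : ∀ a b, DifferentiableOn ℂ (fun z => M z a b) s) :
    DifferentiableOn ℂ (fun z => (M z).det) s := by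
  simp only [Matrix.det_apply]
  apply DifferentiableOn.fun_sum
  intro σ _
  apply DifferentiableOn.fun_const_smul
  apply DifferentiableOn.fun_finsetProd
  intro i _
  exact h _ _

theorem differentiableOn_adjugate {n : ℕ} {s : Set ℂ} {M : ℂ → Matrix (Fin n) (Fin n) ℂ}
    (h : ∀ a b, DifferentiableOn ℂ (fun z => M z a b) s) (a b : Fin n) :
    DifferentiableOn ℂ (fun z => (M z).adjugate a b) s := by
  simp only [Matrix.adjugate_apply]
  apply differentiableOn_det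
  intro i j
  by_cases hi : i = b
  · subst hi
    simp only [Matrix.updateRow_self]
    exact differentiableOn_const _
  · simp only [Matrix.updateRow_ne hi]
    exact h i j

theorem differentiableOn_inv {n : ℕ} {s : Set ℂ} {M : ℂ → Matrix (Fin n) (Fin n) ℂ}
    (h : ∀ a b, DifferentiableOn ℂ (fun z => M z a b) s) (hdet : ∀ z ∈ s, (M z).det ≠ 0)
    (a b : Fin n) : DifferentiableOn ℂ (fun z => (M z)⁻¹ a b) s := by
  have : EqOn (fun z => (M z)⁻¹ a b) (fun z => ((M z).det)⁻¹ * (M z).adjugate a b) s := by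
    intro z hz
    simp [Matrix.inv_def]
  refine DifferentiableOn.congr ?_ this
  exact ((differentiableOn_det h).inv hdet).mul (differentiableOn_adjugate h a b)

section

variable {Ω U : Set ℂ} {f G : ℂ → ℂ} {r : ℝ} (D : Data Ω U f G r)
include D

theorem Data.mem {t : ℂ} (ht : ‖t‖ = 1) : G t ∈ closure Ω :=
  map_circle_mem_closure D.hr₂ D.hG₂ D.hG₃ ht

theorem Data.norm_one {t : ℂ} (ht : ‖t‖ = 1) : ‖f (G t)‖ = 1 :=
  norm_comp_eq_one D.hΩ₁ D.hU D.hΩU D.hf₁ D.hf₂ D.hf₃ D.hr₂ D.hG₁ D.hG₂ D.hG₃ ht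

theorem Data.norm_le {z : ℂ} (hz : z ∈ closure Ω) : ‖f z‖ ≤ 1 :=
  norm_le_one_of_mem_closure D.hU D.hΩU D.hf₁ D.hf₃ hz

theorem Data.sphere_subset : sphere (0:ℂ) 1 ⊆ {t : ℂ | r < ‖t‖} := by
  intro t ht
  have : ‖t‖ = 1 := by simpa using ht
  simp only [mem_ofPred_eq, this]
  exact D.hr₂

theorem Data.contG : ContinuousOn G (sphere (0:ℂ) 1) := D.hG₁.continuousOn.mono D.sphere_subset

theorem Data.contG' : ContinuousOn (deriv G) (sphere (0:ℂ) 1) :=
  (D.hG₁.deriv (isOpen_lt continuous_const continuous_norm)).continuousOn.mono D.sphere_subset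

theorem Data.comp_cont {u : ℂ → ℂ} (hu : ContinuousOn u (closure Ω)) :
    ContinuousOn (fun t => u (G t)) (sphere (0:ℂ) 1) :=
  hu.comp D.contG (fun t ht => D.mem (by simpa using ht))

theorem Data.df_diff : DifferentiableOn ℂ (deriv f) (closure Ω) :=
  (D.hf₁.deriv D.hU).mono D.hΩU

theorem Data.f_diff : DifferentiableOn ℂ f (closure Ω) := D.hf₁.mono D.hΩU

omit D in
/-- the density `ρ(t) = t G'(t) f'(G t) / f (G t)` -/
noncomputable def rho (f G : ℂ → ℂ) (t : ℂ) : ℂ := t * deriv G t * deriv f (G t) * (f (G t))⁻¹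

theorem Data.rho_cont : ContinuousOn (rho f G) (sphere (0:ℂ) 1) := by
  unfold rho
  refine ((continuousOn_id.mul D.contG').mul (D.comp_cont D.df_diff.continuousOn)).mul ?_
  refine (D.comp_cont D.f_diff.continuousOn).inv₀ ?_
  intro t ht h
  have h1 := D.norm_one (t := t) (by simpa using ht)
  rw [h] at h1
  simp at h1

theorem Data.f_ne {t : ℂ} (ht : ‖t‖ = 1) : f (G t) ≠ 0 := by
  intro h
  have h1 := D.norm_one ht
  rw [h] at h1
  simp at h1

theorem Data.inv_eq_conj {t : ℂ} (ht : ‖t‖ = 1) : (f (G t))⁻¹ = conj (f (G t)) := by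
  rw [Complex.inv_def, Complex.normSq_eq_norm_sq, D.norm_one ht]
  simp

theorem Data.rho_mul {t : ℂ} (ht : ‖t‖ = 1) : rho f G t * f (G t) = t * deriv G t * deriv f (G t) := by
  unfold rho
  rw [mul_assoc, inv_mul_cancel₀ (D.f_ne ht), mul_one]

theorem Data.rho_eq {t : ℂ} (ht : ‖t‖ = 1) :
    ∃ x : ℝ, 0 ≤ x ∧ rho f G t = (x : ℂ) := by
  obtain ⟨h1, h2⟩ := rho_real D.hΩ₁ D.hΩ₂ D.hU D.hΩU D.hf₁ D.hf₂ D.hf₃ D.hr₂ D.hG₁ D.hG₂ D.hG₃ ht
  refine ⟨_, h2, ?_⟩
  unfold rho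
  rw [D.inv_eq_conj ht, mul_comm]
  apply Complex.ext
  · simp
  · simp only [Complex.ofReal_im]
    exact h1

theorem Data.conj_rho {t : ℂ} (ht : ‖t‖ = 1) : conj (rho f G t) = rho f G t := by
  obtain ⟨x, _, hx⟩ := D.rho_eq ht
  rw [hx, Complex.conj_ofReal]

theorem Data.cav_rho : cav (rho f G) = 1 :=
  Crest.Agent.R132.GS.cav_rho D.hΩ₁ D.hΩ₂ D.hΩ₃ D.hU D.hΩU D.hf₁ D.hf₂ D.hf₃ D.hr₁ D.hr₂ D.hG₁ D.hG₂ D.hG₃

/-- `avg ρ h u(G) = 0` for `u` holomorphic -/
theorem Data.cav_zero {u : ℂ → ℂ} (hu : DifferentiableOn ℂ u (closure Ω)) :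
    cav (fun t => rho f G t * f (G t) * u (G t)) = 0 := by
  have h := cav_closed (K := closure Ω) D.hΩ₃.closure D.hr₂ D.hG₁
    (fun t ht => D.mem ht) (g := fun z => deriv f z * u z) (D.df_diff.mul hu)
  rw [← h]
  apply Real.circleAverage_congr_sphere
  intro t ht
  have ht' : ‖t‖ = 1 := by simpa using ht
  simp only
  rw [D.rho_mul ht']; ring

omit D in
theorem cav_add {F₁ F₂ : ℂ → ℂ} (h₁ : ContinuousOn F₁ (sphere (0:ℂ) 1))
    (h₂ : ContinuousOn F₂ (sphere (0:ℂ) 1)) :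
    cav (fun t => F₁ t + F₂ t) = cav F₁ + cav F₂ :=
  Real.circleAverage_fun_add (h₁.circleIntegrable zero_le_one) (h₂.circleIntegrable zero_le_one)

omit D in
theorem cav_congr {F₁ F₂ : ℂ → ℂ} (h : ∀ t : ℂ, ‖t‖ = 1 → F₁ t = F₂ t) : cav F₁ = cav F₂ := by
  apply Real.circleAverage_congr_sphere
  intro t ht
  exact h t (by simpa using ht)

omit D in
theorem cav_const_mul (c : ℂ) (F : ℂ → ℂ) : cav (fun t => c * F t) = c * cav F := by
  have := Real.circleAverage_fun_smul (𝕜 := ℂ) (a := c) (f := F) (c := 0) (R := 1)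
  simpa [smul_eq_mul] using this

omit D in
theorem cav_sum {ι : Type*} (s : Finset ι) {F : ι → ℂ → ℂ}
    (h : ∀ i ∈ s, ContinuousOn (F i) (sphere (0:ℂ) 1)) :
    cav (fun t => ∑ i ∈ s, F i t) = ∑ i ∈ s, cav (F i) :=
  Real.circleAverage_fun_sum (fun i hi => (h i hi).circleIntegrable zero_le_one)

omit D in
theorem cav_conj (F : ℂ → ℂ) : cav (fun t => conj (F t)) = conj (cav F) := by
  unfold cav Real.circleAverage
  have h1 : ∫ θ in (0:ℝ)..2 * Real.pi, conj (F (circleMap 0 1 θ)) =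
      conj (∫ θ in (0:ℝ)..2 * Real.pi, F (circleMap 0 1 θ)) := by
    rw [intervalIntegral.integral_of_le (by positivity), intervalIntegral.integral_of_le (by positivity),
      integral_conj]
  rw [h1]
  simp only [Complex.real_smul, map_mul, Complex.conj_ofReal]

variable {n : ℕ} {C : Matrix (Fin n) (Fin n) ℂ}

omit D in
/-- the resolvent-type function `E(z) = (1 - f(z) Cᴴ)⁻¹` -/
noncomputable def Emat (f : ℂ → ℂ) (C : Matrix (Fin n) (Fin n) ℂ) (z : ℂ) :
    Matrix (Fin n) (Fin n) ℂ := (1 - f z • Cᴴ)⁻¹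

/-- `1 - w Cᴴ` is invertible for `‖w‖ ≤ 1`. -/
def Inv (C : Matrix (Fin n) (Fin n) ℂ) : Prop := ∀ w : ℂ, ‖w‖ ≤ 1 → (1 - w • Cᴴ).det ≠ 0

theorem Data.E_diff (hC : Inv C) (a b : Fin n) :
    DifferentiableOn ℂ (fun z => Emat f C z a b) (closure Ω) := by
  unfold Emat
  apply differentiableOn_inv
  · intro i j
    simp only [Matrix.sub_apply, Matrix.smul_apply, smul_eq_mul]
    exact (differentiableOn_const _).sub (D.f_diff.mul_const _)
  · intro z hz
    exact hC _ (D.norm_le hz)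

theorem Data.E_mul (hC : Inv C) {z : ℂ} (hz : z ∈ closure Ω) :
    (1 - f z • Cᴴ) * Emat f C z = 1 :=
  Matrix.mul_nonsing_inv _ (isUnit_iff_ne_zero.mpr (hC _ (D.norm_le hz)))

theorem Data.mul_E (hC : Inv C) {z : ℂ} (hz : z ∈ closure Ω) :
    Emat f C z * (1 - f z • Cᴴ) = 1 :=
  Matrix.nonsing_inv_mul _ (isUnit_iff_ne_zero.mpr (hC _ (D.norm_le hz)))

theorem Data.E_eq (hC : Inv C) {z : ℂ} (hz : z ∈ closure Ω) :
    Emat f C z = 1 + f z • (Cᴴ * Emat f C z) := by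
  have := D.E_mul hC hz
  rw [sub_mul, one_mul, Matrix.smul_mul] at this
  rw [← this]; abel

/-- `h Eᴴ = h + C Eᴴ` on the circle -/
theorem Data.hE_eq (hC : Inv C) {t : ℂ} (ht : ‖t‖ = 1) :
    f (G t) • (Emat f C (G t))ᴴ = f (G t) • (1 : Matrix (Fin n) (Fin n) ℂ) +
      C * (Emat f C (G t))ᴴ := by
  have h1 := congrArg Matrix.conjTranspose (D.mul_E hC (D.mem ht))
  rw [Matrix.conjTranspose_mul, Matrix.conjTranspose_one, Matrix.conjTranspose_sub,
    Matrix.conjTranspose_one, Matrix.conjTranspose_smul, Matrix.conjTranspose_conjTranspose,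
    sub_mul, one_mul, Matrix.smul_mul] at h1
  have h2 : (Emat f C (G t))ᴴ = 1 + star (f (G t)) • (C * (Emat f C (G t))ᴴ) := by
    rw [← h1]; abel
  have h3 : f (G t) * star (f (G t)) = 1 := by
    rw [Complex.star_def, Complex.mul_conj, Complex.normSq_eq_norm_sq, D.norm_one ht]; simp
  conv_lhs => rw [h2]
  rw [smul_add, smul_smul, h3, one_smul]

/-- positivity of the Poisson density -/
theorem Data.psd (hC : Inv C) (hCC : (1 - Cᴴ * C).PosSemidef) {t : ℂ} (ht : ‖t‖ = 1) :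
    (Emat f C (G t) + (Emat f C (G t))ᴴ - 1).PosSemidef := by
  set E := Emat f C (G t) with hE
  set h := f (G t) with hh
  have h1 := D.mul_E hC (D.mem ht)
  have h2 := congrArg Matrix.conjTranspose h1
  rw [Matrix.conjTranspose_mul, Matrix.conjTranspose_one] at h2
  rw [← hE, ← hh] at h1 h2
  have hN : (1 - Cᴴ * C) = (1 - h • Cᴴ) + (1 - h • Cᴴ)ᴴ - (1 - h • Cᴴ) * (1 - h • Cᴴ)ᴴ := by
    have h3 : h * star h = 1 := by
      rw [Complex.star_def, Complex.mul_conj, Complex.normSq_eq_norm_sq, D.norm_one ht]; simp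
    rw [Matrix.conjTranspose_sub, Matrix.conjTranspose_one, Matrix.conjTranspose_smul,
      Matrix.conjTranspose_conjTranspose, sub_mul, mul_sub, mul_sub, one_mul, mul_one, one_mul,
      Matrix.smul_mul, Matrix.mul_smul, smul_smul, h3, one_smul]
    abel
  have h4 : E + Eᴴ - 1 = E * (1 - Cᴴ * C) * Eᴴ := by
    rw [hN, mul_sub, mul_add, sub_mul, add_mul, h1, one_mul, mul_assoc E _ Eᴴ, h2, mul_one,
      ← mul_assoc, h1, one_mul, h2]
    abel
  rw [h4]
  exact hCC.mul_mul_conjTranspose_same E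

end

end Crest.Agent.R132.GS
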