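import Mathlib
import Crest.Agent.R132.GMat

/-!
Moments of the density.
-/

set_option autoImplicit false

open Filter Topology Set Metric Polynomial
open Crest.AnalysisR.NumRange
open scoped ComplexConjugate ComplexOrder Matrix

namespace Crest.Agent.R132.GS

variable {Ω U : Set ℂ} {f G : ℂ → ℂ} {r : ℝ} (D : Data Ω U f G r)
variable {n : ℕ} {C : Matrix (Fin n) (Fin n) ℂ}

include D

theorem Data.E_cont (hC : Inv C) (a b : Fin n) :
    ContinuousOn (fun t => Emat f C (G t) a b) (sphere (0:ℂ) 1) :=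
  D.comp_cont (D.E_diff hC a b).continuousOn

theorem Data.EH_cont (hC : Inv C) (a b : Fin n) :
    ContinuousOn (fun t => (Emat f C (G t))ᴴ a b) (sphere (0:ℂ) 1) := by
  simp only [Matrix.conjTranspose_apply]
  exact (D.E_cont hC b a).star

theorem Data.base_cont {u : ℂ → ℂ} (hu : DifferentiableOn ℂ u (closure Ω)) :
    ContinuousOn (fun t => rho f G t * u (G t)) (sphere (0:ℂ) 1) :=
  D.rho_cont.mul (D.comp_cont hu.continuousOn)

theorem Data.cav_E (hC : Inv C) {u : ℂ → ℂ} (hu : DifferentiableOn ℂ u (closure Ω)) (a b : Fin n) :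
    cav (fun t => rho f G t * u (G t) * Emat f C (G t) a b) =
      cav (fun t => rho f G t * u (G t)) * (1 : Matrix (Fin n) (Fin n) ℂ) a b := by
  have h1 : cav (fun t => rho f G t * u (G t) * Emat f C (G t) a b) =
      cav (fun t => (1 : Matrix (Fin n) (Fin n) ℂ) a b * (rho f G t * u (G t)) +
        rho f G t * f (G t) * (u (G t) * ∑ k, Cᴴ a k * Emat f C (G t) k b)) := by
    apply cav_congr
    intro t ht
    have h2 := D.E_eq hC (D.mem ht)
    have h3 : Emat f C (G t) a b = (1 : Matrix (Fin n) (Fin n) ℂ) a b +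
        f (G t) * ∑ k, Cᴴ a k * Emat f C (G t) k b := by
      conv_lhs => rw [h2]
      simp only [Matrix.add_apply, Matrix.smul_apply, Matrix.mul_apply, smul_eq_mul]
    rw [h3]; ring
  have hd : DifferentiableOn ℂ (fun z => u z * ∑ k, Cᴴ a k * Emat f C z k b) (closure Ω) := by
    apply hu.mul
    apply DifferentiableOn.fun_sum
    intro k _
    exact (D.E_diff hC k b).const_mul _
  rw [h1, cav_add, cav_const_mul, D.cav_zero hd, add_zero, mul_comm]
  · exact continuousOn_const.mul (D.base_cont hu)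
  · exact (D.rho_cont.mul (D.comp_cont D.f_diff.continuousOn)).mul (D.comp_cont hd.continuousOn)

omit D in
/-- the functional `J(u) = avg ρ u(G) Eᴴ` -/
noncomputable def J (f G : ℂ → ℂ) (C : Matrix (Fin n) (Fin n) ℂ) (u : ℂ → ℂ) :
    Matrix (Fin n) (Fin n) ℂ :=
  Matrix.of fun a b => cav (fun t => rho f G t * u (G t) * (Emat f C (G t))ᴴ a b)

theorem Data.J_one (hC : Inv C) : J f G C (fun _ => 1) = 1 := by
  ext a b
  simp only [J, Matrix.of_apply]
  have h1 : cav (fun t => rho f G t * 1 * (Emat f C (G t))ᴴ a b) =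
      conj (cav (fun t => rho f G t * (fun _ => (1:ℂ)) (G t) * (Emat f C (G t)) b a)) := by
    rw [← cav_conj]
    apply cav_congr
    intro t ht
    rw [map_mul, map_mul, D.conj_rho ht]
    simp
  rw [h1, D.cav_E hC (differentiableOn_const 1) b a]
  have h2 : cav (fun t => rho f G t * (fun _ => (1:ℂ)) (G t)) = 1 := by
    refine Eq.trans ?_ D.cav_rho
    apply cav_congr
    intro t _
    simp
  rw [h2, one_mul]
  by_cases hab : a = b
  · subst hab; simp
  · rw [Matrix.one_apply_ne hab, Matrix.one_apply_ne (Ne.symm hab)]; simp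

theorem Data.J_cont (hC : Inv C) {u : ℂ → ℂ} (hu : DifferentiableOn ℂ u (closure Ω)) (a b : Fin n) :
    ContinuousOn (fun t => rho f G t * u (G t) * (Emat f C (G t))ᴴ a b) (sphere (0:ℂ) 1) :=
  (D.base_cont hu).mul (D.EH_cont hC a b)

theorem Data.J_add (hC : Inv C) {u₁ u₂ : ℂ → ℂ} (h₁ : DifferentiableOn ℂ u₁ (closure Ω))
    (h₂ : DifferentiableOn ℂ u₂ (closure Ω)) :
    J f G C (fun z => u₁ z + u₂ z) = J f G C u₁ + J f G C u₂ := by
  ext a b
  simp only [J, Matrix.of_apply, Matrix.add_apply]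
  rw [← cav_add (D.J_cont hC h₁ a b) (D.J_cont hC h₂ a b)]
  apply cav_congr
  intro t _
  ring

omit D in
theorem J_const_mul (c : ℂ) (u : ℂ → ℂ) :
    J f G C (fun z => c * u z) = c • J f G C u := by
  ext a b
  simp only [J, Matrix.of_apply, Matrix.smul_apply, smul_eq_mul]
  rw [← cav_const_mul]
  apply cav_congr
  intro t _
  ring

theorem Data.J_congr {u₁ u₂ : ℂ → ℂ} (h : ∀ z ∈ closure Ω, u₁ z = u₂ z) :
    J f G C u₁ = J f G C u₂ := by
  ext a b
  simp only [J, Matrix.of_apply]
  apply cav_congr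
  intro t ht
  rw [h _ (D.mem ht)]

theorem Data.J_mul_f (hC : Inv C) {u : ℂ → ℂ} (hu : DifferentiableOn ℂ u (closure Ω)) :
    J f G C (fun z => f z * u z) = C * J f G C u := by
  ext a b
  simp only [J, Matrix.of_apply, Matrix.mul_apply]
  have h1 : cav (fun t => rho f G t * (f (G t) * u (G t)) * (Emat f C (G t))ᴴ a b) =
      cav (fun t => (1 : Matrix (Fin n) (Fin n) ℂ) a b * (rho f G t * f (G t) * u (G t)) +
        ∑ k, C a k * (rho f G t * u (G t) * (Emat f C (G t))ᴴ k b)) := by
    apply cav_congr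
    intro t ht
    have h2 := congrFun (congrFun (D.hE_eq hC ht) a) b
    simp only [Matrix.add_apply, Matrix.smul_apply, smul_eq_mul, Matrix.mul_apply] at h2
    have h3 : rho f G t * (f (G t) * u (G t)) * (Emat f C (G t))ᴴ a b =
        rho f G t * u (G t) * (f (G t) * (Emat f C (G t))ᴴ a b) := by ring
    rw [h3, h2, mul_add, Finset.mul_sum]
    congr 1
    · ring
    · apply Finset.sum_congr rfl
      intro k _
      ring
  rw [h1, cav_add, cav_const_mul, D.cav_zero hu, mul_zero, zero_add, cav_sum]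
  · apply Finset.sum_congr rfl
    intro k _
    rw [cav_const_mul]
  · intro k _
    exact continuousOn_const.mul (D.J_cont hC hu k b)
  · exact continuousOn_const.mul
      ((D.rho_cont.mul (D.comp_cont D.f_diff.continuousOn)).mul (D.comp_cont hu.continuousOn))
  · apply continuousOn_finsetSum
    intro k _
    exact continuousOn_const.mul (D.J_cont hC hu k b)

theorem Data.poly_diff (P : ℂ[X]) {u : ℂ → ℂ} (hu : DifferentiableOn ℂ u (closure Ω)) :
    DifferentiableOn ℂ (fun z => P.eval (f z) * u z) (closure Ω) := by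
  apply DifferentiableOn.mul _ hu
  exact P.differentiable.comp_differentiableOn D.f_diff

theorem Data.J_poly (hC : Inv C) (P : ℂ[X]) {u : ℂ → ℂ} (hu : DifferentiableOn ℂ u (closure Ω)) :
    J f G C (fun z => P.eval (f z) * u z) = aeval C P * J f G C u := by
  induction P using Polynomial.induction_on' with
  | add P Q hP hQ =>
    rw [map_add, add_mul, ← hP, ← hQ, ← D.J_add hC (D.poly_diff P hu) (D.poly_diff Q hu)]
    apply D.J_congr
    intro z _
    rw [eval_add, add_mul]
  | monomial k c =>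
    have h1 : ∀ k : ℕ, J f G C (fun z => (f z) ^ k * u z) = C ^ k * J f G C u := by
      intro k
      induction k with
      | zero => simp
      | succ k ih =>
        have h2 : J f G C (fun z => (f z) ^ (k + 1) * u z) =
            J f G C (fun z => f z * ((f z) ^ k * u z)) := by
          apply D.J_congr
          intro z _
          ring
        have h3 : DifferentiableOn ℂ (fun z => (f z) ^ k * u z) (closure Ω) :=
          (D.f_diff.pow k).mul hu
        rw [h2, D.J_mul_f hC h3, ih, pow_succ', mul_assoc]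
    have h3 : J f G C (fun z => (monomial k c).eval (f z) * u z) =
        J f G C (fun z => c * ((f z) ^ k * u z)) := by
      apply D.J_congr
      intro z _
      rw [eval_monomial]; ring
    rw [h3, J_const_mul, h1, aeval_monomial, mul_assoc, Algebra.algebraMap_eq_smul_one,
      smul_mul_assoc, one_mul]

/-- **Main functional-calculus identity** -/
theorem Data.J_main (hn : 1 ≤ n) (hC : Inv C) {A B : Matrix (Fin n) (Fin n) ℂ} {p : ℂ[X]}
    (hCB : C = aeval B p)
    (hker : ∀ Q : ℂ[X], (∏ μ ∈ eigs A, (X - Polynomial.C μ)) ^ n ∣ Q → aeval B Q = 0)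
    (hspec : ∀ μ ∈ eigs A, μ ∈ Ω) (hp : AgreesOnSpectrum A f p)
    {V : Set ℂ} (hV : IsOpen V) (hΩV : closure Ω ⊆ V) {v : ℂ → ℂ} (hv : DifferentiableOn ℂ v V)
    {q : ℂ[X]} (hq : AgreesOnSpectrum A v q) :
    J f G C v = aeval B q := by
  have hW : IsOpen (V ∩ U) := hV.inter D.hU
  have hΩW : closure Ω ⊆ V ∩ U := subset_inter hΩV D.hΩU
  have hspecW : ∀ μ ∈ eigs A, μ ∈ V ∩ U := fun μ hμ => hΩW (subset_closure (hspec μ hμ))
  have hfW : DifferentiableOn ℂ f (V ∩ U) := D.hf₁.mono inter_subset_right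
  have hvW : DifferentiableOn ℂ v (V ∩ U) := hv.mono inter_subset_left
  obtain ⟨P, w, hw, h⟩ := exists_interp hW hfW (D.hf₂.mono inter_subset_right)
    (n • (eigs A).val).toList (by
      intro μ hμ
      rw [Multiset.mem_toList] at hμ
      exact hspecW μ (Multiset.mem_of_mem_nsmul hμ)) v hvW
  have hprod : ∀ g : ℂ → ℂ, (((n • (eigs A).val).toList).map g).prod = (∏ μ ∈ eigs A, g μ) ^ n := by
    intro g
    have h1 : (((n • (eigs A).val).toList).map g).prod = ((n • (eigs A).val).map g).prod := by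
      conv_rhs => rw [← Multiset.coe_toList (n • (eigs A).val), Multiset.map_coe, Multiset.prod_coe]
    rw [h1, Multiset.map_nsmul, Multiset.prod_nsmul]
    rfl
  have hvw : ∀ z ∈ V ∩ U, v z = P.eval (f z) + (∏ μ ∈ eigs A, (f z - f μ)) ^ n * w z := by
    intro z hz
    rw [h z hz, hprod]
  have hdvd := dvd_sub_comp hW hspecW hfW hvW hw hvw hp hq
  have hwK : DifferentiableOn ℂ w (closure Ω) := hw.mono hΩW
  set Ψ : ℂ[X] := (∏ μ ∈ eigs A, (X - Polynomial.C (f μ))) ^ n with hΨ
  have hJ : J f G C v = J f G C (fun z => P.eval (f z) * (fun _ => (1:ℂ)) z + Ψ.eval (f z) * w z) := by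
    apply D.J_congr
    intro z hz
    rw [hvw z (hΩW hz), hΨ, eval_pow, eval_prod]
    simp
  rw [hJ, D.J_add hC (D.poly_diff P (differentiableOn_const 1)) (D.poly_diff Ψ hwK),
    D.J_poly hC P (differentiableOn_const 1), D.J_poly hC Ψ hwK, D.J_one hC, mul_one]
  have hΨ0 : aeval C Ψ = 0 := by
    rw [hCB, ← aeval_comp]
    apply hker
    rw [hΨ, Polynomial.pow_comp, Polynomial.prod_comp]
    apply pow_dvd_pow_of_dvd
    apply Finset.prod_dvd_prod_of_dvd
    intro μ hμ
    have h1 : f μ = p.eval μ := by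
      have := hp μ (mem_eigs.mp hμ) 0 (by omega)
      simpa using this.symm
    rw [sub_comp, X_comp, C_comp, h1]
    exact X_sub_C_dvd_sub_C_eval
  have hq' : aeval B q = aeval B (P.comp p) := by
    have := hker _ hdvd
    rw [map_sub, sub_eq_zero] at this
    exact this
  rw [hΨ0, zero_mul, add_zero, hq', hCB, aeval_comp]

omit D in
/-- the density -/
noncomputable def Lam (f G : ℂ → ℂ) (C : Matrix (Fin n) (Fin n) ℂ) (t : ℂ) :
    Matrix (Fin n) (Fin n) ℂ :=
  rho f G t • (Emat f C (G t) + (Emat f C (G t))ᴴ - 1)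

theorem Data.Lam_psd (hC : Inv C) (hCC : (1 - Cᴴ * C).PosSemidef) {t : ℂ} (ht : ‖t‖ = 1) :
    (Lam f G C t).PosSemidef := by
  obtain ⟨x, hx, hρ⟩ := D.rho_eq ht
  unfold Lam
  rw [hρ]
  exact (D.psd hC hCC ht).smul (by exact_mod_cast hx)

theorem Data.Lam_cont (hC : Inv C) (a b : Fin n) :
    ContinuousOn (fun t => Lam f G C t a b) (sphere (0:ℂ) 1) := by
  simp only [Lam, Matrix.smul_apply, Matrix.sub_apply, Matrix.add_apply, smul_eq_mul]
  exact D.rho_cont.mul (((D.E_cont hC a b).add (D.EH_cont hC a b)).sub continuousOn_const)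

theorem Data.cav_Lam (hC : Inv C) {u : ℂ → ℂ} (hu : DifferentiableOn ℂ u (closure Ω)) (a b : Fin n) :
    cav (fun t => Lam f G C t a b * u (G t)) = J f G C u a b := by
  have h1 : cav (fun t => Lam f G C t a b * u (G t)) =
      cav (fun t => (rho f G t * u (G t) * Emat f C (G t) a b +
        (-(1 : Matrix (Fin n) (Fin n) ℂ) a b) * (rho f G t * u (G t))) +
        rho f G t * u (G t) * (Emat f C (G t))ᴴ a b) := by
    apply cav_congr
    intro t _
    simp only [Lam, Matrix.smul_apply, Matrix.sub_apply, Matrix.add_apply, smul_eq_mul]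
    ring
  rw [h1, cav_add, cav_add, D.cav_E hC hu, cav_const_mul]
  · simp only [J, Matrix.of_apply]
    ring
  · exact (D.base_cont hu).mul (D.E_cont hC a b)
  · exact continuousOn_const.mul (D.base_cont hu)
  · exact ((D.base_cont hu).mul (D.E_cont hC a b)).add (continuousOn_const.mul (D.base_cont hu))
  · exact D.J_cont hC hu a b

theorem Data.cav_Lam_one (hC : Inv C) (a b : Fin n) :
    cav (fun t => Lam f G C t a b) = (1 : Matrix (Fin n) (Fin n) ℂ) a b := by
  have h := D.cav_Lam hC (differentiableOn_const (c := (1:ℂ))) a b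
  rw [D.J_one hC] at h
  rw [← h]
  apply cav_congr
  intro t _
  simp

end Crest.Agent.R132.GS
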