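import Mathlib
import Crest.Agent.R132.GCalc

/-!
Norm bounds for block matrices given by integrals against a positive density (row 132, piece G).
-/

set_option autoImplicit false

namespace Crest.Agent.R132.G

open Filter Topology Metric Real ComplexConjugate
open scoped ComplexOrder

variable {n m : ℕ}

/-- sesquilinear sum attached to a block matrix -/
noncomputable def ses (Q : Fin n × Fin m → Fin n × Fin m → ℂ) (y x : Fin n × Fin m → ℂ) : ℂ :=
  ∑ i, ∑ j, conj (y i) * Q i j * x j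

/-- auxiliary vectors -/
noncomputable def vecX (v : Fin n → ℂ) (x : Fin n × Fin m → ℂ) : EuclideanSpace ℂ (Fin m) :=
  WithLp.toLp 2 (fun d => ∑ b, conj (v b) * x (b, d))

theorem ses_rankOne (v : Fin n → ℂ) (V : Matrix (Fin m) (Fin m) ℂ) (x y : Fin n × Fin m → ℂ) :
    ses (fun i j => (v i.1 * conj (v j.1)) * V i.2 j.2) y x =
      inner ℂ (vecX v y) (Matrix.toEuclideanCLM (n := Fin m) (𝕜 := ℂ) V (vecX v x)) := by
  have h1 : inner ℂ (vecX v y) (Matrix.toEuclideanCLM (n := Fin m) (𝕜 := ℂ) V (vecX v x)) =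
      ∑ c, (∑ d, V c d * ∑ b, conj (v b) * x (b, d)) * (∑ a, v a * conj (y (a, c))) := by
    rw [PiLp.inner_apply]
    refine Finset.sum_congr rfl fun c _ => ?_
    rw [Matrix.ofLp_toEuclideanCLM]
    simp only [vecX, Matrix.mulVec, dotProduct, RCLike.inner_apply, map_sum, map_mul,
      Complex.conj_conj]
  rw [h1, ses]
  simp only [Fintype.sum_prod_type]
  rw [Finset.sum_comm]
  refine Finset.sum_congr rfl fun c _ => ?_
  rw [Finset.mul_sum]
  refine Finset.sum_congr rfl fun a _ => ?_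
  rw [Finset.sum_comm, Finset.sum_mul]
  refine Finset.sum_congr rfl fun d _ => ?_
  rw [Finset.mul_sum, Finset.sum_mul]
  refine Finset.sum_congr rfl fun b _ => ?_
  ring

theorem ses_sum {ι : Type*} (s : Finset ι) (Q : ι → Fin n × Fin m → Fin n × Fin m → ℂ)
    (x y : Fin n × Fin m → ℂ) :
    ses (fun i j => ∑ e ∈ s, Q e i j) y x = ∑ e ∈ s, ses (Q e) y x := by
  simp only [ses, Finset.mul_sum, Finset.sum_mul]
  rw [Finset.sum_comm (s := s)]
  exact Finset.sum_congr rfl fun i _ => Finset.sum_comm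

theorem ses_bound (L : Matrix (Fin n) (Fin n) ℂ) (hL : L.PosSemidef)
    (V : Matrix (Fin m) (Fin m) ℂ) (M : ℝ)
    (hV : ‖Matrix.toEuclideanCLM (n := Fin m) (𝕜 := ℂ) V‖ ≤ M) (x y : Fin n × Fin m → ℂ) :
    ‖ses (fun i j => L i.1 j.1 * V i.2 j.2) y x‖ ≤
      M / 2 * ((ses (fun i j => L i.1 j.1 * (1 : Matrix (Fin m) (Fin m) ℂ) i.2 j.2) x x).re +
        (ses (fun i j => L i.1 j.1 * (1 : Matrix (Fin m) (Fin m) ℂ) i.2 j.2) y y).re) := by
  obtain ⟨k, v, rfl⟩ := Matrix.posSemidef_iff_eq_sum_vecMulVec.1 hL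
  have hM : 0 ≤ M := (norm_nonneg _).trans hV
  have key : ∀ (W : Matrix (Fin m) (Fin m) ℂ) (x y : Fin n × Fin m → ℂ),
      ses (fun i j => (∑ e, Matrix.vecMulVec (v e) (star (v e))) i.1 j.1 * W i.2 j.2) y x =
      ∑ e, inner ℂ (vecX (v e) y)
        (Matrix.toEuclideanCLM (n := Fin m) (𝕜 := ℂ) W (vecX (v e) x)) := by
    intro W x y
    rw [← Finset.sum_congr rfl fun e _ => ses_rankOne (v e) W x y, ← ses_sum]
    congr 1
    funext i j
    rw [Matrix.sum_apply, Finset.sum_mul]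
    rfl
  rw [key V x y, key 1 x x, key 1 y y]
  simp only [map_one, one_apply_eq_self, inner_self_eq_norm_sq_to_K]
  simp only [Complex.re_sum]
  rw [← Finset.sum_add_distrib, Finset.mul_sum]
  refine (norm_sum_le _ _).trans (Finset.sum_le_sum fun e _ => ?_)
  have h1 : ‖inner ℂ (vecX (v e) y)
        (Matrix.toEuclideanCLM (n := Fin m) (𝕜 := ℂ) V (vecX (v e) x))‖ ≤
      ‖vecX (v e) y‖ * (M * ‖vecX (v e) x‖) := by
    refine (norm_inner_le_norm _ _).trans ?_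
    refine mul_le_mul_of_nonneg_left ?_ (norm_nonneg _)
    exact (ContinuousLinearMap.le_opNorm _ _).trans
      (mul_le_mul_of_nonneg_right hV (norm_nonneg _))
  refine h1.trans ?_
  have h2 : ∀ z : EuclideanSpace ℂ (Fin m), (((‖z‖ : ℝ) : ℂ) ^ 2).re = ‖z‖ ^ 2 := by
    intro z
    rw [← Complex.ofReal_pow, Complex.ofReal_re]
  have h3 : ∀ z : EuclideanSpace ℂ (Fin m), ((((‖z‖ : ℝ) : ℂ)) ^ 2).re = ‖z‖ ^ 2 := h2
  simp only [Complex.coe_algebraMap, h3]
  nlinarith [sq_nonneg (‖vecX (v e) y‖ - ‖vecX (v e) x‖), norm_nonneg (vecX (v e) y),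
    norm_nonneg (vecX (v e) x)]


theorem inner_toEuclideanCLM_eq_ses (Q : Matrix (Fin n × Fin m) (Fin n × Fin m) ℂ)
    (x y : EuclideanSpace ℂ (Fin n × Fin m)) :
    inner ℂ y (Matrix.toEuclideanCLM (n := Fin n × Fin m) (𝕜 := ℂ) Q x) =
      ses (fun i j => Q i j) y x := by
  rw [PiLp.inner_apply, ses]
  refine Finset.sum_congr rfl fun i _ => ?_
  rw [Matrix.ofLp_toEuclideanCLM]
  simp only [Matrix.mulVec, dotProduct, RCLike.inner_apply]
  rw [Finset.sum_mul]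
  refine Finset.sum_congr rfl fun j _ => ?_
  ring

theorem norm_le_of_ses (Q : Matrix (Fin n × Fin m) (Fin n × Fin m) ℂ) (M : ℝ) (hM : 0 ≤ M)
    (h : ∀ x y : EuclideanSpace ℂ (Fin n × Fin m),
      ‖ses (fun i j => Q i j) y x‖ ≤ M / 2 * (‖x‖ ^ 2 + ‖y‖ ^ 2)) :
    ‖Matrix.toEuclideanCLM (n := Fin n × Fin m) (𝕜 := ℂ) Q‖ ≤ M := by
  set T := Matrix.toEuclideanCLM (n := Fin n × Fin m) (𝕜 := ℂ) Q with hT
  refine ContinuousLinearMap.opNorm_le_of_unit_norm hM fun x hx => ?_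
  by_cases h0 : ‖T x‖ = 0
  · rw [h0]; exact hM
  have hne : ((‖T x‖ : ℝ) : ℂ) ≠ 0 := by exact_mod_cast h0
  set y : EuclideanSpace ℂ (Fin n × Fin m) := ((‖T x‖ : ℂ)⁻¹) • T x with hy
  have hny : ‖y‖ = 1 := by
    rw [hy, norm_smul, norm_inv, Complex.norm_real, norm_norm, inv_mul_cancel₀ h0]
  have h1 := h x y
  rw [← inner_toEuclideanCLM_eq_ses, ← hT, hx, hny] at h1
  have h2 : inner ℂ y (T x) = ((‖T x‖ : ℝ) : ℂ) := by
    rw [hy, inner_smul_left, inner_self_eq_norm_sq_to_K]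
    simp only [map_inv₀, Complex.conj_ofReal, Complex.coe_algebraMap]
    field_simp
  rw [h2, Complex.norm_real, norm_norm] at h1
  linarith

theorem ses_smul_integral (c : ℂ) (F : ℝ → Fin n × Fin m → Fin n × Fin m → ℂ)
    (hF : ∀ i j, Continuous fun θ => F θ i j) (x y : Fin n × Fin m → ℂ) :
    ses (fun i j => c * ∫ θ in (0 : ℝ)..2 * π, F θ i j) y x =
      c * ∫ θ in (0 : ℝ)..2 * π, ses (F θ) y x := by
  simp only [ses]
  rw [intervalIntegral.integral_finsetSum]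
  · rw [Finset.mul_sum]
    refine Finset.sum_congr rfl fun i _ => ?_
    rw [intervalIntegral.integral_finsetSum]
    · rw [Finset.mul_sum]
      refine Finset.sum_congr rfl fun j _ => ?_
      rw [intervalIntegral.integral_mul_const, intervalIntegral.integral_const_mul]
      ring
    · intro j _
      exact (Continuous.intervalIntegrable (by fun_prop) _ _)
  · intro i _
    exact (Continuous.intervalIntegrable (by fun_prop) _ _)

theorem continuous_ses {F : ℝ → Fin n × Fin m → Fin n × Fin m → ℂ}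
    (hF : ∀ i j, Continuous fun θ => F θ i j) (x y : Fin n × Fin m → ℂ) :
    Continuous fun θ => ses (F θ) y x := by
  simp only [ses]
  fun_prop

theorem ses_one (x : EuclideanSpace ℂ (Fin n × Fin m)) :
    ses (fun i j => (1 : Matrix (Fin n) (Fin n) ℂ) i.1 j.1 *
      (1 : Matrix (Fin m) (Fin m) ℂ) i.2 j.2) x x = ((‖x‖ ^ 2 : ℝ) : ℂ) := by
  have h1 : (fun i j : Fin n × Fin m => (1 : Matrix (Fin n) (Fin n) ℂ) i.1 j.1 *
      (1 : Matrix (Fin m) (Fin m) ℂ) i.2 j.2) =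
      fun i j => (1 : Matrix (Fin n × Fin m) (Fin n × Fin m) ℂ) i j := by
    funext i j
    simp only [Matrix.one_apply, Prod.ext_iff]
    split_ifs <;> simp_all
  rw [h1, ← inner_toEuclideanCLM_eq_ses]
  simp only [map_one, one_apply_eq_self, inner_self_eq_norm_sq_to_K]
  simp

theorem norm_block_le (Λ : ℝ → Matrix (Fin n) (Fin n) ℂ)
    (hΛ : ∀ a b, Continuous fun θ => Λ θ a b) (hpos : ∀ θ, (Λ θ).PosSemidef)
    (hone : ∀ a b, (2 * π : ℂ)⁻¹ * (∫ θ in (0 : ℝ)..2 * π, Λ θ a b)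
      = (1 : Matrix (Fin n) (Fin n) ℂ) a b)
    (V : ℝ → Matrix (Fin m) (Fin m) ℂ) (hVc : ∀ c d, Continuous fun θ => V θ c d) (M : ℝ)
    (hV : ∀ θ, ‖Matrix.toEuclideanCLM (n := Fin m) (𝕜 := ℂ) (V θ)‖ ≤ M)
    (Q : Matrix (Fin n × Fin m) (Fin n × Fin m) ℂ)
    (hQ : ∀ i j, Q i j = (2 * π : ℂ)⁻¹ *
      ∫ θ in (0 : ℝ)..2 * π, Λ θ i.1 j.1 * V θ i.2 j.2) :
    ‖Matrix.toEuclideanCLM (n := Fin n × Fin m) (𝕜 := ℂ) Q‖ ≤ M := by
  have hM : 0 ≤ M := (norm_nonneg _).trans (hV 0)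
  have hpi : (0 : ℝ) < 2 * π := by positivity
  refine norm_le_of_ses Q M hM fun x y => ?_
  have h1 : (fun i j => Q i j) = fun i j => (2 * π : ℂ)⁻¹ *
      ∫ θ in (0 : ℝ)..2 * π, (fun i j : Fin n × Fin m => Λ θ i.1 j.1 * V θ i.2 j.2) i j := by
    funext i j; exact hQ i j
  have h2 : ∀ z : EuclideanSpace ℂ (Fin n × Fin m), ((2 * π : ℂ)⁻¹ *
      ∫ θ in (0 : ℝ)..2 * π, ses (fun i j : Fin n × Fin m => Λ θ i.1 j.1 *
        (1 : Matrix (Fin m) (Fin m) ℂ) i.2 j.2) z z) = ((‖z‖ ^ 2 : ℝ) : ℂ) := by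
    intro z
    rw [← ses_smul_integral (2 * π : ℂ)⁻¹
      (fun θ => fun i j : Fin n × Fin m => Λ θ i.1 j.1 *
        (1 : Matrix (Fin m) (Fin m) ℂ) i.2 j.2) (fun i j => by fun_prop) z z, ← ses_one z]
    congr 1
    funext i j
    rw [intervalIntegral.integral_mul_const, ← mul_assoc, hone]
  have h3 : ∀ z : EuclideanSpace ℂ (Fin n × Fin m), (2 * π)⁻¹ *
      ∫ θ in (0 : ℝ)..2 * π, (ses (fun i j : Fin n × Fin m => Λ θ i.1 j.1 *
        (1 : Matrix (Fin m) (Fin m) ℂ) i.2 j.2) z z).re = ‖z‖ ^ 2 := by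
    intro z
    have h4 := congrArg Complex.re (h2 z)
    rw [Complex.ofReal_re] at h4
    rw [← h4]
    have h5 : ((2 * π : ℂ)⁻¹) = (((2 * π)⁻¹ : ℝ) : ℂ) := by push_cast; rfl
    rw [h5, Complex.re_ofReal_mul]
    congr 1
    have h6 := Complex.reCLM.intervalIntegral_comp_comm (μ := MeasureTheory.volume) (a := 0) (b := 2 * π)
      (f := fun θ => ses (fun i j : Fin n × Fin m => Λ θ i.1 j.1 *
        (1 : Matrix (Fin m) (Fin m) ℂ) i.2 j.2) z z)
      ((continuous_ses (fun i j => by fun_prop) z z).intervalIntegrable _ _)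
    exact h6
  rw [h1, ses_smul_integral (2 * π : ℂ)⁻¹
    (fun θ => fun i j : Fin n × Fin m => Λ θ i.1 j.1 * V θ i.2 j.2)
    (fun i j => (hΛ _ _).mul (hVc _ _)) x y, norm_mul]
  have h7 : ‖((2 * π : ℂ)⁻¹)‖ = (2 * π)⁻¹ := by
    have h5 : ((2 * π : ℂ)⁻¹) = (((2 * π)⁻¹ : ℝ) : ℂ) := by push_cast; rfl
    rw [h5, Complex.norm_real, Real.norm_of_nonneg (by positivity)]
  rw [h7]
  have h8 : ‖∫ θ in (0 : ℝ)..2 * π,
      ses (fun i j : Fin n × Fin m => Λ θ i.1 j.1 * V θ i.2 j.2) y x‖ ≤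
      ∫ θ in (0 : ℝ)..2 * π, M / 2 * ((ses (fun i j : Fin n × Fin m => Λ θ i.1 j.1 *
        (1 : Matrix (Fin m) (Fin m) ℂ) i.2 j.2) x x).re + (ses (fun i j : Fin n × Fin m =>
        Λ θ i.1 j.1 * (1 : Matrix (Fin m) (Fin m) ℂ) i.2 j.2) y y).re) := by
    refine intervalIntegral.norm_integral_le_of_norm_le hpi.le
      (Eventually.of_forall fun θ _ => ses_bound (Λ θ) (hpos θ) (V θ) M (hV θ) x y) ?_
    refine Continuous.intervalIntegrable ?_ _ _
    refine Continuous.mul continuous_const (Continuous.add ?_ ?_)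
    · exact Complex.continuous_re.comp (continuous_ses (fun i j => by fun_prop) _ _)
    · exact Complex.continuous_re.comp (continuous_ses (fun i j => by fun_prop) _ _)
  rw [intervalIntegral.integral_const_mul, intervalIntegral.integral_add] at h8
  · calc (2 * π)⁻¹ * ‖∫ θ in (0 : ℝ)..2 * π,
        ses (fun i j : Fin n × Fin m => Λ θ i.1 j.1 * V θ i.2 j.2) y x‖
        ≤ (2 * π)⁻¹ * _ := mul_le_mul_of_nonneg_left h8 (by positivity)
      _ = M / 2 * (‖x‖ ^ 2 + ‖y‖ ^ 2) := by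
        rw [← h3 x, ← h3 y]; ring
  · refine Continuous.intervalIntegrable ?_ _ _
    exact Complex.continuous_re.comp (continuous_ses (fun i j => by fun_prop) _ _)
  · refine Continuous.intervalIntegrable ?_ _ _
    exact Complex.continuous_re.comp (continuous_ses (fun i j => by fun_prop) _ _)


open scoped Kronecker in
theorem re_inner_nonneg (P : Matrix (Fin n × Fin m) (Fin n × Fin m) ℂ) (hP : P.PosSemidef)
    (x : EuclideanSpace ℂ (Fin n × Fin m)) :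
    0 ≤ (inner ℂ x (Matrix.toEuclideanCLM (n := Fin n × Fin m) (𝕜 := ℂ) P x)).re := by
  have h := hP.re_dotProduct_nonneg (WithLp.ofLp x)
  rw [EuclideanSpace.inner_eq_star_dotProduct, Matrix.ofLp_toEuclideanCLM, dotProduct_comm]
  exact h

open scoped Kronecker in
theorem norm_sq_kron (S H : Matrix (Fin n) (Fin n) ℂ) (hS₁ : S.PosSemidef) (hS₂ : S * S = H)
    (x : EuclideanSpace ℂ (Fin n × Fin m)) :
    ‖Matrix.toEuclideanCLM (n := Fin n × Fin m) (𝕜 := ℂ)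
      (S ⊗ₖ (1 : Matrix (Fin m) (Fin m) ℂ)) x‖ ^ 2 =
    (inner ℂ x (Matrix.toEuclideanCLM (n := Fin n × Fin m) (𝕜 := ℂ)
      (H ⊗ₖ (1 : Matrix (Fin m) (Fin m) ℂ)) x)).re := by
  have h1 : H ⊗ₖ (1 : Matrix (Fin m) (Fin m) ℂ) =
      star (S ⊗ₖ (1 : Matrix (Fin m) (Fin m) ℂ)) * (S ⊗ₖ (1 : Matrix (Fin m) (Fin m) ℂ)) := by
    rw [Matrix.star_eq_conjTranspose, Matrix.conjTranspose_kronecker, hS₁.isHermitian.eq,
      Matrix.conjTranspose_one, ← Matrix.mul_kronecker_mul, hS₂, one_mul]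
  rw [h1, map_mul, map_star, ContinuousLinearMap.star_eq_adjoint, mul_apply_eq_comp,
    ContinuousLinearMap.adjoint_inner_right, inner_self_eq_norm_sq_to_K]
  simp [← Complex.ofReal_pow]

open scoped Kronecker in
theorem sub_kronecker' (A B : Matrix (Fin n) (Fin n) ℂ) :
    (A - B) ⊗ₖ (1 : Matrix (Fin m) (Fin m) ℂ) =
      A ⊗ₖ (1 : Matrix (Fin m) (Fin m) ℂ) - B ⊗ₖ (1 : Matrix (Fin m) (Fin m) ℂ) := by
  ext i j
  simp only [Matrix.kroneckerMap_apply, Matrix.sub_apply, sub_mul]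

open scoped Kronecker in
theorem norm_similar_le (S H : Matrix (Fin n) (Fin n) ℂ) (hS₁ : S.PosSemidef) (hS₂ : S * S = H)
    (κsq : ℝ) (h1 : (H - 1).PosSemidef)
    (h2 : ((κsq : ℂ) • (1 : Matrix (Fin n) (Fin n) ℂ) - H).PosSemidef) (hκ : 0 ≤ κsq)
    (QA QB : Matrix (Fin n × Fin m) (Fin n × Fin m) ℂ)
    (hQ : (S ⊗ₖ (1 : Matrix (Fin m) (Fin m) ℂ)) * QA = QB * (S ⊗ₖ (1 : Matrix (Fin m) (Fin m) ℂ)))
    (M : ℝ) (hQB : ‖Matrix.toEuclideanCLM (n := Fin n × Fin m) (𝕜 := ℂ) QB‖ ≤ M) :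
    ‖Matrix.toEuclideanCLM (n := Fin n × Fin m) (𝕜 := ℂ) QA‖ ≤ Real.sqrt κsq * M := by
  have hM : 0 ≤ M := (norm_nonneg _).trans hQB
  set K := Matrix.toEuclideanCLM (n := Fin n × Fin m) (𝕜 := ℂ)
      (S ⊗ₖ (1 : Matrix (Fin m) (Fin m) ℂ)) with hK
  have hone : (1 : Matrix (Fin n) (Fin n) ℂ) ⊗ₖ (1 : Matrix (Fin m) (Fin m) ℂ) = 1 :=
    Matrix.one_kronecker_one
  have hself : ∀ x : EuclideanSpace ℂ (Fin n × Fin m), (inner ℂ x x : ℂ).re = ‖x‖ ^ 2 := by
    intro x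
    rw [inner_self_eq_norm_sq_to_K]
    simp [← Complex.ofReal_pow]
  have hlow : ∀ x : EuclideanSpace ℂ (Fin n × Fin m), ‖x‖ ≤ ‖K x‖ := by
    intro x
    have h3 := re_inner_nonneg _ (h1.kronecker (Matrix.PosSemidef.one (n := Fin m) (R := ℂ))) x
    rw [sub_kronecker', hone, map_sub, map_one] at h3
    simp only [_root_.sub_apply, one_apply_eq_self, inner_sub_right, Complex.sub_re] at h3
    rw [← norm_sq_kron S H hS₁ hS₂ x, hself] at h3
    exact abs_le_of_sq_le_sq' (by linarith) (norm_nonneg _) |>.2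
  have hup : ∀ x : EuclideanSpace ℂ (Fin n × Fin m), ‖K x‖ ≤ Real.sqrt κsq * ‖x‖ := by
    intro x
    have h3 := re_inner_nonneg _ (h2.kronecker (Matrix.PosSemidef.one (n := Fin m) (R := ℂ))) x
    rw [sub_kronecker', Matrix.smul_kronecker, hone, map_sub, map_smul, map_one] at h3
    simp only [_root_.sub_apply, _root_.smul_apply, one_apply_eq_self, inner_sub_right,
      inner_smul_right, Complex.sub_re, Complex.re_ofReal_mul] at h3
    rw [← norm_sq_kron S H hS₁ hS₂ x, hself] at h3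
    refine abs_le_of_sq_le_sq' ?_ (by positivity) |>.2
    rw [mul_pow, Real.sq_sqrt hκ]
    linarith
  have hcomm : ∀ x, K (Matrix.toEuclideanCLM (n := Fin n × Fin m) (𝕜 := ℂ) QA x) =
      Matrix.toEuclideanCLM (n := Fin n × Fin m) (𝕜 := ℂ) QB (K x) := by
    intro x
    rw [hK, ← mul_apply_eq_comp, ← map_mul, hQ, map_mul, mul_apply_eq_comp]
  refine ContinuousLinearMap.opNorm_le_bound _ (by positivity) fun x => ?_
  calc ‖Matrix.toEuclideanCLM (n := Fin n × Fin m) (𝕜 := ℂ) QA x‖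
      ≤ ‖K (Matrix.toEuclideanCLM (n := Fin n × Fin m) (𝕜 := ℂ) QA x)‖ := hlow _
    _ = ‖Matrix.toEuclideanCLM (n := Fin n × Fin m) (𝕜 := ℂ) QB (K x)‖ := by rw [hcomm]
    _ ≤ M * ‖K x‖ := (ContinuousLinearMap.le_opNorm _ _).trans
      (mul_le_mul_of_nonneg_right hQB (norm_nonneg _))
    _ ≤ M * (Real.sqrt κsq * ‖x‖) := mul_le_mul_of_nonneg_left (hup x) hM
    _ = Real.sqrt κsq * M * ‖x‖ := by ring

end Crest.Agent.R132.G
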