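import Mathlib
import Crest.Agent.R132.GCalc

/-!
Operator Poisson kernel of a matrix with spectrum in the open unit disc (row 132, piece G).
-/

set_option autoImplicit false

namespace Crest.Agent.R132.G

open Polynomial Filter Topology Metric Real ComplexConjugate

variable {n : ℕ}

/-- `(1 - u C)⁻¹` -/
noncomputable def Nk (C : Matrix (Fin n) (Fin n) ℂ) (u : ℂ) : Matrix (Fin n) (Fin n) ℂ :=
  (1 - u • C)⁻¹

/-- the operator Poisson kernel -/
noncomputable def PK (C : Matrix (Fin n) (Fin n) ℂ) (w : ℂ) : Matrix (Fin n) (Fin n) ℂ :=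
  Nk C (conj w) + (Nk C (conj w)).conjTranspose - 1

theorem det_ne_zero (C : Matrix (Fin n) (Fin n) ℂ) (hC : ∀ μ ∈ spectrum ℂ C, ‖μ‖ < 1)
    (u : ℂ) (hu : ‖u‖ ≤ 1) : (1 - u • C).det ≠ 0 := by
  by_cases hu0 : u = 0
  · simp [hu0]
  intro hdet
  have h1 : u⁻¹ ∈ spectrum ℂ C := by
    rw [spectrum.mem_iff, Matrix.isUnit_iff_isUnit_det]
    have h2 : algebraMap ℂ (Matrix (Fin n) (Fin n) ℂ) u⁻¹ - C = u⁻¹ • (1 - u • C) := by
      rw [smul_sub, smul_smul, inv_mul_cancel₀ hu0, one_smul, Algebra.algebraMap_eq_smul_one]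
    rw [h2, Matrix.det_smul, hdet, mul_zero]
    simp
  have h3 := hC _ h1
  rw [norm_inv] at h3
  have h4 : 0 < ‖u‖ := norm_pos_iff.2 hu0
  have h5 : (1 : ℝ) ≤ ‖u‖⁻¹ := (one_le_inv₀ h4).2 hu
  linarith

theorem differentiable_det_of_entries {m : ℕ} {M : ℂ → Matrix (Fin m) (Fin m) ℂ}
    (hM : ∀ a b, Differentiable ℂ (fun u => M u a b)) : Differentiable ℂ (fun u => (M u).det) := by
  simp only [Matrix.det_apply]
  refine Differentiable.fun_sum fun σ _ => ?_
  refine Differentiable.const_smul ?_ _
  refine Differentiable.fun_finsetProd fun i _ => ?_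
  exact hM _ _

theorem differentiable_adjugate_of_entries {m : ℕ} {M : ℂ → Matrix (Fin m) (Fin m) ℂ}
    (hM : ∀ a b, Differentiable ℂ (fun u => M u a b)) (a b : Fin m) :
    Differentiable ℂ (fun u => (M u).adjugate a b) := by
  simp only [Matrix.adjugate_apply]
  refine differentiable_det_of_entries fun c d => ?_
  by_cases hc : c = b
  · subst hc
    simp only [Matrix.updateRow_self]
    fun_prop
  · simp only [Matrix.updateRow_ne hc]
    exact hM c d

theorem differentiable_entries (C : Matrix (Fin n) (Fin n) ℂ) (a b : Fin n) :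
    Differentiable ℂ (fun u : ℂ => (1 - u • C) a b) := by
  simp only [Matrix.sub_apply, Matrix.smul_apply]
  fun_prop

/-- the open set on which `Nk C` is holomorphic -/
def good (C : Matrix (Fin n) (Fin n) ℂ) : Set ℂ := {u | (1 - u • C).det ≠ 0}

theorem isOpen_good (C : Matrix (Fin n) (Fin n) ℂ) : IsOpen (good C) := by
  have h : Continuous (fun u : ℂ => (1 - u • C).det) :=
    (differentiable_det_of_entries (differentiable_entries C)).continuous
  exact isOpen_ne_fun h continuous_const

theorem closedBall_subset_good (C : Matrix (Fin n) (Fin n) ℂ)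
    (hC : ∀ μ ∈ spectrum ℂ C, ‖μ‖ < 1) : closedBall (0 : ℂ) 1 ⊆ good C := by
  intro u hu
  exact det_ne_zero C hC u (by simpa using hu)

theorem differentiableOn_Nk (C : Matrix (Fin n) (Fin n) ℂ) (a b : Fin n) :
    DifferentiableOn ℂ (fun u => Nk C u a b) (good C) := by
  have h : (fun u => Nk C u a b) =
      fun u => ((1 - u • C).det)⁻¹ * ((1 - u • C).adjugate a b) := by
    funext u
    simp only [Nk]
    rw [Matrix.inv_def, Ring.inverse_eq_inv', Matrix.smul_apply, smul_eq_mul]
  rw [h]
  refine DifferentiableOn.mul (DifferentiableOn.inv ?_ fun u hu => hu) ?_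
  · exact (differentiable_det_of_entries (differentiable_entries C)).differentiableOn
  · exact (differentiable_adjugate_of_entries (differentiable_entries C) a b).differentiableOn

theorem Nk_zero (C : Matrix (Fin n) (Fin n) ℂ) : Nk C 0 = 1 := by simp [Nk]

theorem Nk_mul (C : Matrix (Fin n) (Fin n) ℂ) {u : ℂ} (hu : u ∈ good C) :
    Nk C u = 1 + u • (C * Nk C u) := by
  have h1 : (1 - u • C) * Nk C u = 1 :=
    Matrix.mul_nonsing_inv _ (isUnit_iff_ne_zero.2 hu)
  rw [sub_mul, one_mul, smul_mul_assoc] at h1
  rw [← h1]; simp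

theorem conjTranspose_Nk (C : Matrix (Fin n) (Fin n) ℂ) (u : ℂ) :
    (Nk C (conj u)).conjTranspose = Nk C.conjTranspose u := by
  rw [Nk, Matrix.conjTranspose_nonsing_inv, Nk]
  congr 1
  rw [Matrix.conjTranspose_sub, Matrix.conjTranspose_one, Matrix.conjTranspose_smul]
  simp

theorem good_conjTranspose (C : Matrix (Fin n) (Fin n) ℂ) {u : ℂ} (hu : conj u ∈ good C) :
    u ∈ good C.conjTranspose := by
  have h : (1 - u • C.conjTranspose) = (1 - (conj u) • C).conjTranspose := by
    rw [Matrix.conjTranspose_sub, Matrix.conjTranspose_one, Matrix.conjTranspose_smul]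
    simp
  simp only [good, Set.mem_ofPred_eq] at hu ⊢
  rw [h, Matrix.det_conjTranspose]
  simpa using hu

/-- mean value property in the form we use -/
theorem avg_of_differentiableOn {W : Set ℂ} (hW' : closedBall (0 : ℂ) 1 ⊆ W) {F : ℂ → ℂ}
    (hF : DifferentiableOn ℂ F W) : circleAverage F 0 1 = F 0 := by
  have : DiffContOnCl ℂ F (ball 0 |(1 : ℝ)|) := by
    refine DifferentiableOn.diffContOnCl (hF.mono ?_)
    rw [abs_one, closure_ball _ one_ne_zero]
    exact hW'
  exact this.circleAverage

theorem circleIntegrable_of_continuousOn {F : ℂ → ℂ} (hF : ContinuousOn F (sphere 0 1)) :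
    CircleIntegrable F 0 1 := hF.circleIntegrable zero_le_one

theorem conj_eq_inv {w : ℂ} (hw : w ∈ sphere (0 : ℂ) 1) : conj w = w⁻¹ := by
  have : ‖w‖ = 1 := by simpa using hw
  rw [Complex.inv_def, Complex.normSq_eq_norm_sq, this]
  simp

theorem continuousOn_Nk_conj (C : Matrix (Fin n) (Fin n) ℂ)
    (hC : ∀ μ ∈ spectrum ℂ C, ‖μ‖ < 1) (a b : Fin n) :
    ContinuousOn (fun w => Nk C (conj w) a b) (closedBall 0 1) := by
  have h := (differentiableOn_Nk C a b).continuousOn
  refine h.comp (Complex.continuous_conj.continuousOn) ?_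
  intro w hw
  apply closedBall_subset_good C hC
  simpa using hw

theorem conj_mem_good (C : Matrix (Fin n) (Fin n) ℂ)
    (hC : ∀ μ ∈ spectrum ℂ C, ‖μ‖ < 1) {w : ℂ} (hw : ‖w‖ ≤ 1) : conj w ∈ good C := by
  apply closedBall_subset_good C hC
  simpa using hw

/-- the averages `avg K(w) w^j = C^j` -/
theorem avg_Nk_pow (C : Matrix (Fin n) (Fin n) ℂ)
    (hC : ∀ μ ∈ spectrum ℂ C, ‖μ‖ < 1) (j : ℕ) (a b : Fin n) :
    circleAverage (fun w => Nk C (conj w) a b * w ^ j) 0 1 = (C ^ j) a b := by
  induction j generalizing a b with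
  | zero =>
    have h1 : circleAverage (fun w => Nk C (conj w) a b * w ^ 0) 0 1 =
        circleAverage (fun w => (fun u => Nk C u a b) w⁻¹) 0 1 := by
      refine circleAverage_congr_sphere fun w hw => ?_
      rw [abs_one] at hw
      simp only [pow_zero, mul_one]
      rw [conj_eq_inv hw]
    rw [h1, circleAverage_zero_one_congr_inv (f := fun u => Nk C u a b),
      avg_of_differentiableOn (closedBall_subset_good C hC) (differentiableOn_Nk C a b), Nk_zero,
      pow_zero]
  | succ j ih =>
    have h1 : circleAverage (fun w => Nk C (conj w) a b * w ^ (j + 1)) 0 1 =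
        circleAverage (fun w => (1 : Matrix (Fin n) (Fin n) ℂ) a b * w ^ (j + 1) +
          ∑ c, C a c * (Nk C (conj w) c b * w ^ j)) 0 1 := by
      refine circleAverage_congr_sphere fun w hw => ?_
      rw [abs_one] at hw
      have hw1 : ‖w‖ = 1 := by simpa using hw
      have hw0 : w ≠ 0 := by
        intro h; rw [h] at hw1; simp at hw1
      have h2 := congrFun (congrFun (Nk_mul C (conj_mem_good C hC hw1.le)) a) b
      simp only [Matrix.add_apply, Matrix.smul_apply, Matrix.mul_apply, smul_eq_mul] at h2
      change Nk C (conj w) a b * w ^ (j + 1) = _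
      rw [h2, add_mul]
      congr 1
      rw [conj_eq_inv hw, pow_succ]
      rw [Finset.mul_sum, Finset.sum_mul]
      refine Finset.sum_congr rfl fun c _ => ?_
      field_simp
    rw [h1]
    have hsum : ∀ c, CircleIntegrable (fun w => C a c * (Nk C (conj w) c b * w ^ j)) 0 1 := by
      intro c
      refine circleIntegrable_of_continuousOn ?_
      refine ContinuousOn.mul continuousOn_const (ContinuousOn.mul
        ((continuousOn_Nk_conj C hC c b).mono sphere_subset_closedBall) ?_)
      fun_prop
    rw [circleAverage_fun_add, circleAverage_fun_sum]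
    · have h3 : circleAverage (fun w : ℂ => (1 : Matrix (Fin n) (Fin n) ℂ) a b * w ^ (j + 1)) 0 1
          = 0 := by
        rw [avg_of_differentiableOn (W := Set.univ) (Set.subset_univ _)]
        · simp
        · fun_prop
      rw [h3, zero_add, pow_succ', Matrix.mul_apply]
      refine Finset.sum_congr rfl fun c _ => ?_
      rw [← ih c b, ← smul_eq_mul, ← circleAverage_fun_smul]
      rfl
    · exact fun c _ => hsum c
    · refine circleIntegrable_of_continuousOn ?_
      fun_prop
    · refine CircleIntegrable.fun_sum _ fun c _ => hsum c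


/-- averages against polynomials -/
theorem avg_Nk_poly (C : Matrix (Fin n) (Fin n) ℂ)
    (hC : ∀ μ ∈ spectrum ℂ C, ‖μ‖ < 1) (s : ℂ[X]) (a b : Fin n) :
    circleAverage (fun w => Nk C (conj w) a b * s.eval w) 0 1 = (aeval C s) a b := by
  have hint : ∀ s : ℂ[X], CircleIntegrable (fun w => Nk C (conj w) a b * s.eval w) 0 1 := by
    intro s
    refine circleIntegrable_of_continuousOn (ContinuousOn.mul
        ((continuousOn_Nk_conj C hC a b).mono sphere_subset_closedBall) ?_)
    fun_prop
  induction s using Polynomial.induction_on' with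
  | add p q hp hq =>
    simp only [eval_add, mul_add, map_add, Matrix.add_apply]
    rw [circleAverage_fun_add (hint p) (hint q), hp, hq]
  | monomial j c =>
    have h := avg_Nk_pow C hC j a b
    simp only [eval_monomial, aeval_monomial]
    rw [Algebra.algebraMap_eq_smul_one, smul_mul_assoc, one_mul, Matrix.smul_apply, ← h,
      ← circleAverage_fun_smul]
    refine circleAverage_congr_sphere fun w _ => ?_
    simp only [smul_eq_mul]
    ring

/-- The operator Cauchy formula on the circle. -/
theorem avg_Nk (hn : 1 ≤ n) (C : Matrix (Fin n) (Fin n) ℂ)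
    (hC : ∀ μ ∈ spectrum ℂ C, ‖μ‖ < 1) {W : Set ℂ} (hW : IsOpen W)
    (hW' : closedBall (0 : ℂ) 1 ⊆ W) {g : ℂ → ℂ} (hg : DifferentiableOn ℂ g W)
    {s : ℂ[X]} (hs : Agr C g s) (a b : Fin n) :
    circleAverage (fun w => Nk C (conj w) a b * g w) 0 1 = (aeval C s) a b := by
  have hspec : spectrum ℂ C ⊆ W := fun μ hμ => hW' (by simpa using (hC μ hμ).le)
  obtain ⟨s', k, hk, hs', hgk⟩ := exists_agr C W hW hspec g hg
  obtain ⟨m, rfl⟩ : ∃ m, n = m + 1 := ⟨n - 1, by omega⟩
  rw [Agr.unique hs hs', ← avg_Nk_poly C hC s' a b]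
  have h1 : circleAverage (fun w => Nk C (conj w) a b * g w) 0 1 =
      circleAverage (fun w => Nk C (conj w) a b * s'.eval w +
        w * ((Matrix.scalar (Fin (m + 1)) w - C).adjugate a b * (C.charpoly ^ m).eval w * k w)) 0 1 := by
    refine circleAverage_congr_sphere fun w hw => ?_
    rw [abs_one] at hw
    have hw1 : ‖w‖ = 1 := by simpa using hw
    have hw0 : w ≠ 0 := by
      intro h; rw [h] at hw1; simp at hw1
    have hgood := conj_mem_good C hC hw1.le
    have h2 : (1 - (conj w) • C) * Nk C (conj w) = 1 :=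
      Matrix.mul_nonsing_inv _ (isUnit_iff_ne_zero.2 hgood)
    have h3 : Matrix.scalar (Fin (m + 1)) w - C = w • (1 - (conj w) • C) := by
      rw [smul_sub, smul_smul, conj_eq_inv hw, mul_inv_cancel₀ hw0, one_smul]
      simp [Matrix.smul_one_eq_diagonal]
    have h4 : C.charpoly.eval w • Nk C (conj w) =
        w • (Matrix.scalar (Fin (m + 1)) w - C).adjugate := by
      rw [Matrix.eval_charpoly]
      have h5 : (Matrix.scalar (Fin (m + 1)) w - C).adjugate * (Matrix.scalar (Fin (m + 1)) w - C)
          = (Matrix.scalar (Fin (m + 1)) w - C).det • 1 := Matrix.adjugate_mul _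
      calc (Matrix.scalar (Fin (m + 1)) w - C).det • Nk C (conj w)
          = ((Matrix.scalar (Fin (m + 1)) w - C).adjugate *
            (Matrix.scalar (Fin (m + 1)) w - C)) * Nk C (conj w) := by
            rw [h5, smul_mul_assoc, one_mul]
        _ = (Matrix.scalar (Fin (m + 1)) w - C).adjugate * (w • 1) := by
            rw [mul_assoc]
            congr 1
            rw [h3, smul_mul_assoc, h2]
        _ = _ := by rw [mul_smul_comm, mul_one]
    have h6 := congrFun (congrFun h4 a) b
    simp only [Matrix.smul_apply, smul_eq_mul] at h6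
    change Nk C (conj w) a b * g w = _
    rw [hgk w, pow_succ, eval_mul]
    have h7 : Nk C (conj w) a b * (eval w s' + eval w (C.charpoly ^ m) * eval w C.charpoly * k w)
      = Nk C (conj w) a b * eval w s' +
        (eval w C.charpoly * Nk C (conj w) a b) * (eval w (C.charpoly ^ m) * k w) := by ring
    rw [h7, h6]
    ring
  rw [h1, circleAverage_fun_add]
  · have hd : DifferentiableOn ℂ (fun w => w * ((Matrix.scalar (Fin (m + 1)) w - C).adjugate a b *
        (C.charpoly ^ m).eval w * k w)) W := by
      refine DifferentiableOn.mul differentiableOn_id (DifferentiableOn.mul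
        (DifferentiableOn.mul ?_ ?_) hk)
      · refine (differentiable_adjugate_of_entries (fun c d => ?_) a b).differentiableOn
        simp only [Matrix.scalar_apply, Matrix.sub_apply, Matrix.diagonal_apply]
        split_ifs <;> fun_prop
      · fun_prop
    rw [avg_of_differentiableOn hW' hd, zero_mul, add_zero]
  · refine circleIntegrable_of_continuousOn (ContinuousOn.mul
        ((continuousOn_Nk_conj C hC a b).mono sphere_subset_closedBall) ?_)
    fun_prop
  · refine circleIntegrable_of_continuousOn ?_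
    refine ContinuousOn.mul continuousOn_id (ContinuousOn.mul
        (ContinuousOn.mul ?_ ?_) (hk.continuousOn.mono (sphere_subset_closedBall.trans hW')))
    · refine (differentiable_adjugate_of_entries (fun c d => ?_) a b).continuous.continuousOn
      simp only [Matrix.scalar_apply, Matrix.sub_apply, Matrix.diagonal_apply]
      split_ifs <;> fun_prop
    · fun_prop

/-- The operator Poisson formula on the circle. -/
theorem avg_PK (hn : 1 ≤ n) (C : Matrix (Fin n) (Fin n) ℂ)
    (hC : ∀ μ ∈ spectrum ℂ C, ‖μ‖ < 1) {W : Set ℂ} (hW : IsOpen W)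
    (hW' : closedBall (0 : ℂ) 1 ⊆ W) {g : ℂ → ℂ} (hg : DifferentiableOn ℂ g W)
    {s : ℂ[X]} (hs : Agr C g s) (a b : Fin n) :
    circleAverage (fun w => PK C w a b * g w) 0 1 = (aeval C s) a b := by
  have hspec' : ∀ u : ℂ, ‖u‖ ≤ 1 → u ∈ good C.conjTranspose := fun u hu =>
    good_conjTranspose C (conj_mem_good C hC hu)
  have h1 : (fun w => PK C w a b * g w) =
      fun w => Nk C (conj w) a b * g w +
        (Nk C.conjTranspose w a b - (1 : Matrix (Fin n) (Fin n) ℂ) a b) * g w := by
    funext w
    simp only [PK, conjTranspose_Nk, Matrix.sub_apply, Matrix.add_apply]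
    ring
  have hsub : closedBall (0 : ℂ) 1 ⊆ good C.conjTranspose ∩ W := fun u hu =>
    ⟨hspec' u (by simpa using hu), hW' hu⟩
  have hd : DifferentiableOn ℂ (fun w =>
      (Nk C.conjTranspose w a b - (1 : Matrix (Fin n) (Fin n) ℂ) a b) * g w)
      (good C.conjTranspose ∩ W) := by
    refine DifferentiableOn.mul (DifferentiableOn.sub_const ?_ _) (hg.mono Set.inter_subset_right)
    exact (differentiableOn_Nk C.conjTranspose a b).mono Set.inter_subset_left
  rw [h1, circleAverage_fun_add, avg_Nk hn C hC hW hW' hg hs, avg_of_differentiableOn hsub hd,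
    Nk_zero, sub_self, zero_mul, add_zero]
  · exact circleIntegrable_of_continuousOn (ContinuousOn.mul
        ((continuousOn_Nk_conj C hC a b).mono sphere_subset_closedBall)
        (hg.continuousOn.mono (sphere_subset_closedBall.trans hW')))
  · exact circleIntegrable_of_continuousOn
      (hd.continuousOn.mono (sphere_subset_closedBall.trans hsub))

theorem continuousOn_PK (C : Matrix (Fin n) (Fin n) ℂ)
    (hC : ∀ μ ∈ spectrum ℂ C, ‖μ‖ < 1) (a b : Fin n) :
    ContinuousOn (fun w => PK C w a b) (closedBall 0 1) := by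
  simp only [PK, Matrix.sub_apply, Matrix.add_apply, Matrix.conjTranspose_apply]
  refine ContinuousOn.sub (ContinuousOn.add (continuousOn_Nk_conj C hC a b) ?_)
    continuousOn_const
  exact Complex.continuous_conj.comp_continuousOn (continuousOn_Nk_conj C hC b a)

open scoped ComplexOrder in
/-- positivity of the Poisson kernel of a contraction -/
theorem posSemidef_PK (C : Matrix (Fin n) (Fin n) ℂ)
    (hC : ∀ μ ∈ spectrum ℂ C, ‖μ‖ < 1) (hcon : (1 - C.conjTranspose * C).PosSemidef)
    {w : ℂ} (hw : ‖w‖ = 1) : (PK C w).PosSemidef := by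
  set K := Nk C (conj w) with hK
  have hgood := conj_mem_good C hC hw.le
  have h1 : (1 - (conj w) • C) * K = 1 :=
    Matrix.mul_nonsing_inv _ (isUnit_iff_ne_zero.2 hgood)
  have h2 : K.conjTranspose * (1 - w • C.conjTranspose) = 1 := by
    have := congrArg Matrix.conjTranspose h1
    rw [Matrix.conjTranspose_mul, Matrix.conjTranspose_sub, Matrix.conjTranspose_one,
      Matrix.conjTranspose_smul] at this
    simpa using this
  have h3 : PK C w = K.conjTranspose * (1 - C.conjTranspose * C) * K := by
    have e1 : (1 - C.conjTranspose * C) = (1 - (conj w) • C) + (1 - w • C.conjTranspose) -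
        (1 - w • C.conjTranspose) * (1 - (conj w) • C) := by
      have : w * conj w = 1 := by
        rw [Complex.mul_conj, Complex.normSq_eq_norm_sq, hw]; simp
      rw [sub_mul, mul_sub, mul_sub, smul_mul_smul_comm, this]
      simp
    rw [e1, mul_sub, mul_add, sub_mul, add_mul, mul_assoc K.conjTranspose _ K, h1, h2, mul_one,
      one_mul, ← mul_assoc K.conjTranspose (1 - w • C.conjTranspose), h2, one_mul, h1, PK,
      add_comm K.conjTranspose K]
  rw [h3]
  exact hcon.conjTranspose_mul_mul_same K

end Crest.Agent.R132.G
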