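import Mathlib
import Crest.Agent.Lib.InjHolo
import Crest.Agent.R132.GCalc
import Crest.Agent.R132.GPoisson
import Crest.Agent.R132.GNorm
import Crest.Agent.R132.GBoundary

/-!
Assembly of S0181 (row 132, piece G).
-/

set_option autoImplicit false

namespace Crest.Agent.R132.G

open Polynomial Filter Topology Metric Real ComplexConjugate Crest.AnalysisR.NumRange
open scoped ComplexOrder

variable {n : ℕ}

theorem aeval_conj (S A : Matrix (Fin n) (Fin n) ℂ) (hS : IsUnit S.det) (q : ℂ[X]) :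
    aeval (S * A * S⁻¹) q = S * aeval A q * S⁻¹ := by
  have h1 : S⁻¹ * S = 1 := Matrix.nonsing_inv_mul S hS
  have h2 : S * S⁻¹ = 1 := Matrix.mul_nonsing_inv S hS
  induction q using Polynomial.induction_on' with
  | add p q hp hq => rw [map_add, map_add, hp, hq, mul_add, add_mul]
  | monomial j c =>
    have h3 : (S * A * S⁻¹) ^ j = S * A ^ j * S⁻¹ := by
      induction j with
      | zero => simp [h2]
      | succ j ih =>
        rw [pow_succ, ih, pow_succ]
        calc S * A ^ j * S⁻¹ * (S * A * S⁻¹) = S * A ^ j * (S⁻¹ * S) * A * S⁻¹ := by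
              simp only [mul_assoc]
          _ = S * (A ^ j * A) * S⁻¹ := by rw [h1]; simp only [mul_assoc, one_mul]
    rw [aeval_monomial, aeval_monomial, h3, Algebra.algebraMap_eq_smul_one]
    simp only [smul_mul_assoc, one_mul, mul_smul_comm]

theorem spectrum_conj (S A : Matrix (Fin n) (Fin n) ℂ) (hS : IsUnit S.det) :
    spectrum ℂ (S * A * S⁻¹) = spectrum ℂ A := by
  have hS' : IsUnit S := (Matrix.isUnit_iff_isUnit_det S).2 hS
  obtain ⟨u, hu⟩ := hS'
  have h1 : S⁻¹ = ((u⁻¹ : (Matrix (Fin n) (Fin n) ℂ)ˣ) : Matrix (Fin n) (Fin n) ℂ) := by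
    rw [← hu, Matrix.coe_units_inv]
  rw [h1, ← hu]
  exact spectrum.units_conjugate

/-- the central formula -/
theorem key_formula (hn : 1 ≤ n) (B : Matrix (Fin n) (Fin n) ℂ)
    (Ω U : Set ℂ) (hU : IsOpen U) (hΩU : closure Ω ⊆ U)
    (f : ℂ → ℂ) (hf₁ : DifferentiableOn ℂ f U) (hf₂ : Set.InjOn f U)
    (himg : f '' (closure Ω) = closedBall 0 1)
    (hB : spectrum ℂ B ⊆ Ω) (p : ℂ[X]) (hp : Agr B f p)
    (hC : ∀ μ ∈ spectrum ℂ (aeval B p), ‖μ‖ < 1)
    (V : Set ℂ) (hV : IsOpen V) (hΩV : closure Ω ⊆ V) (h : ℂ → ℂ) (hh : DifferentiableOn ℂ h V)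
    (q : ℂ[X]) (hq : Agr B h q)
    (G : ℂ → ℂ) (ψ : ℝ → ℝ)
    (hG : ∀ θ : ℝ, G (Complex.exp (θ * Complex.I)) ∈ closure Ω)
    (hchg : ∀ F : ℂ → ℂ, ContinuousOn F (sphere 0 1) →
        ∫ θ in (0 : ℝ)..2 * π, (ψ θ : ℂ) * F (f (G (Complex.exp (θ * Complex.I)))) =
          ∫ θ in (0 : ℝ)..2 * π, F (Complex.exp (θ * Complex.I))) (a b : Fin n) :
    aeval B q a b = (2 * π : ℂ)⁻¹ * (∫ θ in (0 : ℝ)..2 * π,
      ((ψ θ : ℂ) • PK (aeval B p) (f (G (Complex.exp (θ * Complex.I))))) a b *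
        h (G (Complex.exp (θ * Complex.I)))) := by
  set C := aeval B p with hCdef
  have hUV : IsOpen (U ∩ V) := hU.inter hV
  have hsub : closure Ω ⊆ U ∩ V := fun z hz => ⟨hΩU hz, hΩV hz⟩
  have hf₁' : DifferentiableOn ℂ f (U ∩ V) := hf₁.mono Set.inter_subset_left
  have hf₂' : Set.InjOn f (U ∩ V) := hf₂.mono Set.inter_subset_left
  obtain ⟨g₀, hg₀, -, hg₀img, hg₀f, -⟩ :=
    Crest.Agent.Lib.exists_holomorphic_inverse hUV hf₁' hf₂'
  set W : Set ℂ := f '' (U ∩ V) with hW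
  have hWo : IsOpen W := Crest.Agent.Lib.isOpen_image_of_injOn hUV hf₁' hf₂'
  have hWball : closedBall (0 : ℂ) 1 ⊆ W := by
    rw [← himg]; exact Set.image_mono hsub
  set g : ℂ → ℂ := fun w => h (g₀ w) with hg
  have hgd : DifferentiableOn ℂ g W := by
    refine DifferentiableOn.fun_comp (hh.mono (Set.inter_subset_right (s := U))) hg₀ ?_
    intro w hw
    rw [← hg₀img]
    exact Set.mem_image_of_mem _ hw
  have hspecW : spectrum ℂ C ⊆ W := fun μ hμ => hWball (by simpa using (hC μ hμ).le)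
  obtain ⟨s, k, -, hs, -⟩ := exists_agr C W hWo hspecW g hgd
  have hgA : ∀ μ ∈ spectrum ℂ C, AnalyticAt ℂ g μ := fun μ hμ =>
    hgd.analyticAt (hWo.mem_nhds (hspecW hμ))
  have hcomp : aeval C s = aeval B q := by
    refine aeval_comp_eq hn hp hs hgA hq fun μ hμ => ?_
    filter_upwards [hUV.mem_nhds (hsub (subset_closure (hB hμ)))] with z hz
    simp only [hg]
    rw [hg₀f z hz]
  rw [← hcomp, ← avg_PK hn C hC hWo hWball hgd hs a b, circleAverage_def]
  have hF : ContinuousOn (fun w => PK C w a b * g w) (sphere 0 1) :=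
    ((continuousOn_PK C hC a b).mono sphere_subset_closedBall).mul
      (hgd.continuousOn.mono (sphere_subset_closedBall.trans hWball))
  have h1 := hchg _ hF
  have h2 : ∫ θ in (0 : ℝ)..2 * π, (fun w => PK C w a b * g w) (circleMap 0 1 θ) =
      ∫ θ in (0 : ℝ)..2 * π, (fun w => PK C w a b * g w) (Complex.exp (θ * Complex.I)) := by
    refine intervalIntegral.integral_congr fun θ _ => ?_
    simp [circleMap]
  rw [h2, ← h1, Complex.real_smul]
  have h3 : (((2 * π)⁻¹ : ℝ) : ℂ) = (2 * π : ℂ)⁻¹ := by push_cast; rfl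
  rw [h3]
  congr 1
  refine intervalIntegral.integral_congr fun θ _ => ?_
  simp only [Matrix.smul_apply, smul_eq_mul, hg]
  rw [hg₀f _ (hsub (hG θ))]
  ring

end Crest.Agent.R132.G
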