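import Mathlib
import Crest.Agent.R132.GFun

/-!
Norm bounds from a positive density.
-/

set_option autoImplicit false

open Filter Topology Set Metric Polynomial
open scoped ComplexConjugate ComplexOrder Matrix

namespace Crest.Agent.R132.GS

variable {n m : ℕ}

/-- PSD matrices are `Xᴴ X`. -/
theorem exists_factor {N : Matrix (Fin n) (Fin n) ℂ} (hN : N.PosSemidef) :
    ∃ X : Matrix (Fin n) (Fin n) ℂ, N = Xᴴ * X := by
  open scoped MatrixOrder in
  have h : 0 ≤ N := hN.nonneg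
  obtain ⟨X, hX⟩ := CStarAlgebra.nonneg_iff_eq_star_mul_self.mp h
  exact ⟨X, hX⟩

/-- Frobenius square -/
noncomputable def fro (Y : Matrix (Fin n) (Fin m) ℂ) : ℝ := ∑ e, ∑ c, ‖Y e c‖ ^ 2

theorem fro_nonneg (Y : Matrix (Fin n) (Fin m) ℂ) : 0 ≤ fro Y :=
  Finset.sum_nonneg fun _ _ => Finset.sum_nonneg fun _ _ => by positivity

theorem trace_conj_mul_self (Y : Matrix (Fin n) (Fin m) ℂ) :
    (Yᴴ * Y).trace = (fro Y : ℂ) := by
  simp only [Matrix.trace, Matrix.diag_apply, Matrix.mul_apply, Matrix.conjTranspose_apply, fro]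
  push_cast
  rw [Finset.sum_comm]
  apply Finset.sum_congr rfl
  intro e _
  apply Finset.sum_congr rfl
  intro c _
  rw [Complex.star_def, Complex.conj_mul']

/-- bilinear pairing `∑_{c,d} (Yᴴ Z)_{cd} V_{cd}` -/
noncomputable def pair (Y Z : Matrix (Fin n) (Fin m) ℂ) (V : Matrix (Fin m) (Fin m) ℂ) : ℂ :=
  ∑ c, ∑ d, (Yᴴ * Z) c d * V c d

theorem pair_eq_inner (Y Z : Matrix (Fin n) (Fin m) ℂ) (V : Matrix (Fin m) (Fin m) ℂ) :
    pair Y Z V = ∑ e, inner ℂ (WithLp.toLp 2 (fun c => Y e c) : EuclideanSpace ℂ (Fin m))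
      (Matrix.toEuclideanCLM (n := Fin m) (𝕜 := ℂ) V (WithLp.toLp 2 (fun c => Z e c))) := by
  simp only [pair, Matrix.mul_apply, Matrix.conjTranspose_apply, Matrix.toEuclideanCLM_toLp,
    PiLp.inner_apply, RCLike.inner_apply, Matrix.mulVec, dotProduct]
  simp only [Finset.sum_mul]
  rw [Finset.sum_comm' (t' := Finset.univ) (s' := fun _ => Finset.univ) (by simp)]
  have h1 : ∀ c d : Fin m, ∀ e : Fin n, star (Y e c) * Z e d * V c d =
      V c d * Z e d * (starRingEnd ℂ) (Y e c) := by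
    intro c d e
    rw [Complex.star_def]; ring
  calc ∑ y, ∑ x, ∑ i, star (Y i x) * Z i y * V x y
      = ∑ y, ∑ x, ∑ i, V x y * Z i y * (starRingEnd ℂ) (Y i x) := by
        simp only [h1]
    _ = ∑ x, ∑ y, ∑ i, V x y * Z i y * (starRingEnd ℂ) (Y i x) := Finset.sum_comm
    _ = ∑ x, ∑ i, ∑ y, V x y * Z i y * (starRingEnd ℂ) (Y i x) := by
        apply Finset.sum_congr rfl; intro x _; exact Finset.sum_comm
    _ = ∑ i, ∑ x, ∑ y, V x y * Z i y * (starRingEnd ℂ) (Y i x) := Finset.sum_comm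
    _ = _ := by
        apply Finset.sum_congr rfl; intro i _
        apply Finset.sum_congr rfl; intro x _
        rfl

theorem re_pair_le {M : ℝ} (Y Z : Matrix (Fin n) (Fin m) ℂ) (V : Matrix (Fin m) (Fin m) ℂ)
    (hV : ‖Matrix.toEuclideanCLM (n := Fin m) (𝕜 := ℂ) V‖ ≤ M) :
    (pair Y Z V).re ≤ M / 2 * (fro Y + fro Z) := by
  have hM : 0 ≤ M := (norm_nonneg _).trans hV
  rw [pair_eq_inner, Complex.re_sum, fro, fro, ← Finset.sum_add_distrib, Finset.mul_sum]
  apply Finset.sum_le_sum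
  intro e _
  set y : EuclideanSpace ℂ (Fin m) := WithLp.toLp 2 (fun c => Y e c) with hy
  set z : EuclideanSpace ℂ (Fin m) := WithLp.toLp 2 (fun c => Z e c) with hz
  have h1 : ‖y‖ ^ 2 = ∑ c, ‖Y e c‖ ^ 2 := by
    rw [EuclideanSpace.norm_sq_eq]
  have h2 : ‖z‖ ^ 2 = ∑ c, ‖Z e c‖ ^ 2 := by
    rw [EuclideanSpace.norm_sq_eq]
  rw [← h1, ← h2]
  calc (inner ℂ y (Matrix.toEuclideanCLM (n := Fin m) (𝕜 := ℂ) V z)).re
      ≤ ‖inner ℂ y (Matrix.toEuclideanCLM (n := Fin m) (𝕜 := ℂ) V z)‖ := Complex.re_le_norm _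
    _ ≤ ‖y‖ * ‖Matrix.toEuclideanCLM (n := Fin m) (𝕜 := ℂ) V z‖ := norm_inner_le_norm _ _
    _ ≤ ‖y‖ * (M * ‖z‖) := by
        gcongr
        exact ((Matrix.toEuclideanCLM (n := Fin m) (𝕜 := ℂ) V).le_opNorm z).trans (by gcongr)
    _ ≤ M / 2 * (‖y‖ ^ 2 + ‖z‖ ^ 2) := by
        nlinarith [mul_nonneg hM (sq_nonneg (‖y‖ - ‖z‖))]

/-- pointwise inequality with a PSD weight -/
theorem re_weighted_le {M : ℝ} {N : Matrix (Fin n) (Fin n) ℂ} (hN : N.PosSemidef)
    (η ξ : Matrix (Fin n) (Fin m) ℂ) (V : Matrix (Fin m) (Fin m) ℂ)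
    (hV : ‖Matrix.toEuclideanCLM (n := Fin m) (𝕜 := ℂ) V‖ ≤ M) :
    (∑ c, ∑ d, (ηᴴ * N * ξ) c d * V c d).re ≤
      M / 2 * (((ηᴴ * N * η).trace).re + ((ξᴴ * N * ξ).trace).re) := by
  obtain ⟨X, rfl⟩ := exists_factor hN
  have h1 : ∀ η ξ : Matrix (Fin n) (Fin m) ℂ, ηᴴ * (Xᴴ * X) * ξ = (X * η)ᴴ * (X * ξ) := by
    intro η ξ
    rw [Matrix.conjTranspose_mul]
    simp only [Matrix.mul_assoc]
  rw [h1, h1, h1, trace_conj_mul_self, trace_conj_mul_self, Complex.ofReal_re, Complex.ofReal_re]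
  exact re_pair_le _ _ V hV

/-- `cav` and the real part -/
theorem re_cav {F : ℂ → ℂ} (hF : ContinuousOn F (sphere (0:ℂ) 1)) :
    (cav F).re = Real.circleAverage (fun t => (F t).re) 0 1 := by
  have h := Complex.reCLM.circleAverage_comp_comm (c := 0) (R := 1)
    (hF.circleIntegrable zero_le_one)
  exact h.symm

theorem cav_re_le {F₁ F₂ : ℂ → ℂ} (h₁ : ContinuousOn F₁ (sphere (0:ℂ) 1))
    (h₂ : ContinuousOn F₂ (sphere (0:ℂ) 1)) (h : ∀ t : ℂ, ‖t‖ = 1 → (F₁ t).re ≤ (F₂ t).re) :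
    (cav F₁).re ≤ (cav F₂).re := by
  rw [re_cav h₁, re_cav h₂]
  apply Real.circleAverage_mono
  · apply ContinuousOn.circleIntegrable zero_le_one
    exact Complex.continuous_re.comp_continuousOn h₁
  · apply ContinuousOn.circleIntegrable zero_le_one
    exact Complex.continuous_re.comp_continuousOn h₂
  · intro t ht
    exact h t (by simpa using ht)

/-- The integrated inequality. -/
theorem re_sum_le {M : ℝ} {L : ℂ → Matrix (Fin n) (Fin n) ℂ} {V : ℂ → Matrix (Fin m) (Fin m) ℂ}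
    (hLc : ∀ a b, ContinuousOn (fun t => L t a b) (sphere (0:ℂ) 1))
    (hVc : ∀ c d, ContinuousOn (fun t => V t c d) (sphere (0:ℂ) 1))
    (hL : ∀ t : ℂ, ‖t‖ = 1 → (L t).PosSemidef)
    (hL1 : ∀ a b, cav (fun t => L t a b) = (1 : Matrix (Fin n) (Fin n) ℂ) a b)
    (hV : ∀ t : ℂ, ‖t‖ = 1 → ‖Matrix.toEuclideanCLM (n := Fin m) (𝕜 := ℂ) (V t)‖ ≤ M)
    {Q : Fin m → Fin m → Matrix (Fin n) (Fin n) ℂ}
    (hQ : ∀ a b c d, Q c d a b = cav (fun t => L t a b * V t c d))
    (η ξ : Matrix (Fin n) (Fin m) ℂ) :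
    (∑ c, ∑ d, (ηᴴ * Q c d * ξ) c d).re ≤ M / 2 * (fro η + fro ξ) := by
  have hLHS : (∑ c, ∑ d, (ηᴴ * Q c d * ξ) c d) =
      cav (fun t => ∑ c, ∑ d, (ηᴴ * L t * ξ) c d * V t c d) := by
    rw [cav_sum]
    · apply Finset.sum_congr rfl
      intro c _
      rw [cav_sum]
      · apply Finset.sum_congr rfl
        intro d _
        simp only [Matrix.mul_apply, Finset.sum_mul]
        rw [cav_sum]
        · apply Finset.sum_congr rfl
          intro b _
          rw [cav_sum]
          · apply Finset.sum_congr rfl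
            intro a _
            rw [hQ a b c d]
            have : cav (fun t => ηᴴ c a * L t a b * ξ b d * V t c d) =
                cav (fun t => (ηᴴ c a * ξ b d) * (L t a b * V t c d)) := by
              apply cav_congr
              intro t _
              ring
            rw [this, cav_const_mul]
            ring
          · intro a _
            exact (((continuousOn_const.mul (hLc a b)).mul continuousOn_const).mul (hVc c d))
        · intro b _
          apply continuousOn_finsetSum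
          intro a _
          exact (((continuousOn_const.mul (hLc a b)).mul continuousOn_const).mul (hVc c d))
      · intro d _
        simp only [Matrix.mul_apply, Finset.sum_mul]
        apply continuousOn_finsetSum
        intro b _
        apply continuousOn_finsetSum
        intro a _
        exact (((continuousOn_const.mul (hLc a b)).mul continuousOn_const).mul (hVc c d))
    · intro c _
      apply continuousOn_finsetSum
      intro d _
      simp only [Matrix.mul_apply, Finset.sum_mul]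
      apply continuousOn_finsetSum
      intro b _
      apply continuousOn_finsetSum
      intro a _
      exact (((continuousOn_const.mul (hLc a b)).mul continuousOn_const).mul (hVc c d))
  have hcLHS : ContinuousOn (fun t => ∑ c, ∑ d, (ηᴴ * L t * ξ) c d * V t c d)
      (sphere (0:ℂ) 1) := by
    apply continuousOn_finsetSum
    intro c _
    apply continuousOn_finsetSum
    intro d _
    simp only [Matrix.mul_apply, Finset.sum_mul]
    apply continuousOn_finsetSum
    intro b _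
    apply continuousOn_finsetSum
    intro a _
    exact (((continuousOn_const.mul (hLc a b)).mul continuousOn_const).mul (hVc c d))
  have hctr : ∀ ζ : Matrix (Fin n) (Fin m) ℂ,
      ContinuousOn (fun t => (ζᴴ * L t * ζ).trace) (sphere (0:ℂ) 1) := by
    intro ζ
    simp only [Matrix.trace, Matrix.diag_apply, Matrix.mul_apply, Finset.sum_mul]
    apply continuousOn_finsetSum
    intro c _
    apply continuousOn_finsetSum
    intro b _
    apply continuousOn_finsetSum
    intro a _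
    exact ((continuousOn_const.mul (hLc a b)).mul continuousOn_const)
  have htr : ∀ ζ : Matrix (Fin n) (Fin m) ℂ,
      cav (fun t => (ζᴴ * L t * ζ).trace) = (fro ζ : ℂ) := by
    intro ζ
    rw [← trace_conj_mul_self]
    have h1 : ζᴴ * ζ = ζᴴ * (1 : Matrix (Fin n) (Fin n) ℂ) * ζ := by rw [Matrix.mul_one]
    rw [h1]
    simp only [Matrix.trace, Matrix.diag_apply, Matrix.mul_apply, Finset.sum_mul]
    rw [cav_sum]
    · apply Finset.sum_congr rfl
      intro c _
      rw [cav_sum]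
      · apply Finset.sum_congr rfl
        intro b _
        rw [cav_sum]
        · apply Finset.sum_congr rfl
          intro a _
          rw [← hL1 a b]
          have : cav (fun t => ζᴴ c a * L t a b * ζ b c) =
                cav (fun t => (ζᴴ c a * ζ b c) * (L t a b)) := by
            apply cav_congr
            intro t _
            ring
          rw [this, cav_const_mul]
          ring
        · intro a _
          exact ((continuousOn_const.mul (hLc a b)).mul continuousOn_const)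
      · intro b _
        apply continuousOn_finsetSum
        intro a _
        exact ((continuousOn_const.mul (hLc a b)).mul continuousOn_const)
    · intro c _
      apply continuousOn_finsetSum
      intro b _
      apply continuousOn_finsetSum
      intro a _
      exact ((continuousOn_const.mul (hLc a b)).mul continuousOn_const)
  have hRHS : M / 2 * (fro η + fro ξ) =
      (cav (fun t => ((M / 2 : ℝ) : ℂ) * ((ηᴴ * L t * η).trace + (ξᴴ * L t * ξ).trace))).re := by
    rw [cav_const_mul, cav_add (hctr η) (hctr ξ), htr, htr, ← Complex.ofReal_add,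
      ← Complex.ofReal_mul, Complex.ofReal_re]
  rw [hLHS, hRHS]
  apply cav_re_le hcLHS (continuousOn_const.mul ((hctr η).add (hctr ξ)))
  intro t ht
  change (∑ c, ∑ d, (ηᴴ * L t * ξ) c d * V t c d).re ≤
    (((M / 2 : ℝ) : ℂ) * ((ηᴴ * L t * η).trace + (ξᴴ * L t * ξ).trace)).re
  rw [Complex.re_ofReal_mul, Complex.add_re]
  exact re_weighted_le (hL t ht) η ξ (V t) (hV t ht)

/-- passing from a sesquilinear bound to an operator norm bound, with a similarity. -/
theorem opNorm_le {M κ : ℝ} (hM : 0 ≤ M) (hκ : 0 < κ)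
    {Q : Fin m → Fin m → Matrix (Fin n) (Fin n) ℂ}
    (h : ∀ η ξ : Matrix (Fin n) (Fin m) ℂ,
      (∑ c, ∑ d, (ηᴴ * Q c d * ξ) c d).re ≤ M / 2 * (fro η + κ * fro ξ)) :
    ‖Matrix.toEuclideanCLM (n := Fin n × Fin m) (𝕜 := ℂ)
      (Matrix.of fun (i : Fin n × Fin m) (j : Fin n × Fin m) => Q i.2 j.2 i.1 j.1)‖ ≤
      Real.sqrt κ * M := by
  set T := Matrix.toEuclideanCLM (n := Fin n × Fin m) (𝕜 := ℂ)
      (Matrix.of fun (i : Fin n × Fin m) (j : Fin n × Fin m) => Q i.2 j.2 i.1 j.1) with hT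
  apply ContinuousLinearMap.opNorm_le_bound _ (by positivity)
  intro x
  -- reshape
  set rs : EuclideanSpace ℂ (Fin n × Fin m) → Matrix (Fin n) (Fin m) ℂ :=
    fun y => Matrix.of fun a c => y (a, c) with hrs
  have hfro : ∀ y, fro (rs y) = ‖y‖ ^ 2 := by
    intro y
    rw [EuclideanSpace.norm_sq_eq, Fintype.sum_prod_type]
    rfl
  have hin : ∀ y z : EuclideanSpace ℂ (Fin n × Fin m), inner ℂ y (T z) =
      ∑ c, ∑ d, ((rs y)ᴴ * Q c d * rs z) c d := by
    intro y z
    rw [hT, PiLp.inner_apply, Fintype.sum_prod_type, Finset.sum_comm]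
    apply Finset.sum_congr rfl
    intro c _
    simp only [RCLike.inner_apply, Matrix.ofLp_toEuclideanCLM, Matrix.mulVec, dotProduct,
      Fintype.sum_prod_type, Matrix.of_apply, Matrix.mul_apply, Matrix.conjTranspose_apply,
      Finset.sum_mul, hrs]
    rw [Finset.sum_comm]
    simp only [Complex.star_def]
    -- LHS: ∑ b, ∑ a, ∑ d ; RHS: ∑ d, ∑ b, ∑ a
    have e1 : ∀ (a b : Fin n) (d : Fin m),
        Q c d a b * z (b, d) * (starRingEnd ℂ) (y (a, c)) =
        (starRingEnd ℂ) (y (a, c)) * Q c d a b * z (b, d) := by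
      intro a b d; ring
    simp only [e1]
    calc ∑ b, ∑ a, ∑ d, (starRingEnd ℂ) (y (a, c)) * Q c d a b * z (b, d)
        = ∑ b, ∑ d, ∑ a, (starRingEnd ℂ) (y (a, c)) * Q c d a b * z (b, d) := by
          apply Finset.sum_congr rfl; intro b _; exact Finset.sum_comm
      _ = ∑ d, ∑ b, ∑ a, (starRingEnd ℂ) (y (a, c)) * Q c d a b * z (b, d) := Finset.sum_comm
  by_cases hTx : ‖T x‖ = 0
  · rw [hTx]; positivity
  by_cases hx : ‖x‖ = 0
  · have : x = 0 := norm_eq_zero.mp hx
    rw [this]; simp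
  have hTx' : 0 < ‖T x‖ := lt_of_le_of_ne (norm_nonneg _) (Ne.symm hTx)
  have hx' : 0 < ‖x‖ := lt_of_le_of_ne (norm_nonneg _) (Ne.symm hx)
  have hsq : 0 < Real.sqrt κ := Real.sqrt_pos.mpr hκ
  set a : ℝ := Real.sqrt κ * ‖x‖ with ha
  set b : ℝ := ‖T x‖ with hb
  have h1 := h (rs ((a : ℂ) • T x)) (rs ((b : ℂ) • x))
  rw [← hin, hfro, hfro] at h1
  rw [map_smul, inner_smul_left, inner_smul_right, norm_smul, norm_smul, Complex.conj_ofReal,
    inner_self_eq_norm_sq_to_K] at h1
  have h2 : ((a : ℂ) * ((b : ℂ) * (((‖T x‖ : ℝ) : ℂ)) ^ 2)).re = a * b * ‖T x‖ ^ 2 := by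
    rw [show ((a : ℂ) * ((b : ℂ) * (((‖T x‖ : ℝ) : ℂ)) ^ 2)) = ((a * b * ‖T x‖ ^ 2 : ℝ) : ℂ) by
      push_cast; ring]
    exact Complex.ofReal_re _
  have h3 : ((a : ℂ) * ((b : ℂ) * ((RCLike.ofReal ‖T x‖ : ℂ)) ^ 2)).re = a * b * ‖T x‖ ^ 2 := h2
  rw [h3] at h1
  simp only [Complex.norm_real, Real.norm_eq_abs] at h1
  have ha0 : 0 < a := by positivity
  rw [abs_of_pos ha0, abs_of_pos hTx'] at h1
  have hκs : κ = Real.sqrt κ ^ 2 := (Real.sq_sqrt hκ.le).symm
  have h4 : a * b * b ^ 2 ≤ M / 2 * ((a * b) ^ 2 + Real.sqrt κ ^ 2 * (b * ‖x‖) ^ 2) := by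
    rw [← hκs]; exact h1
  have h5 : a * b * b ^ 2 ≤ M * (a * b) ^ 2 := by
    have : Real.sqrt κ ^ 2 * (b * ‖x‖) ^ 2 = (a * b) ^ 2 := by rw [ha]; ring
    rw [this] at h4
    linarith
  have h6 : b * (a * b ^ 2) ≤ (Real.sqrt κ * M * ‖x‖) * (a * b ^ 2) := by
    calc b * (a * b ^ 2) = a * b * b ^ 2 := by ring
      _ ≤ M * (a * b) ^ 2 := h5
      _ = (Real.sqrt κ * M * ‖x‖) * (a * b ^ 2) := by rw [ha]; ring
  exact le_of_mul_le_mul_right h6 (by positivity)

end Crest.Agent.R132.GS
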