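import Mathlib
import Crest.Agent.R132.GNormP

/-!
Similarity facts for matrices.
-/

set_option autoImplicit false

open Filter Topology Set Metric Polynomial
open Crest.AnalysisR.NumRange
open scoped ComplexConjugate ComplexOrder Matrix

namespace Crest.Agent.R132.GS

variable {n m : ℕ}

/-- eigenvalues lie in the numerical range -/
theorem mem_numRange_of_mem_spectrum {A : Matrix (Fin n) (Fin n) ℂ} {μ : ℂ}
    (hμ : μ ∈ spectrum ℂ A) : μ ∈ numRange A := by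
  rw [← Matrix.spectrum_toLpLin 2] at hμ
  have h := Module.End.hasEigenvalue_iff_mem_spectrum.mpr hμ
  obtain ⟨x, hx⟩ := h.exists_hasEigenvector
  have hx0 : x ≠ 0 := hx.2
  have hxn : ‖x‖ ≠ 0 := norm_ne_zero_iff.mpr hx0
  refine ⟨((‖x‖ : ℂ)⁻¹) • x, ?_, ?_⟩
  · rw [norm_smul, norm_inv, Complex.norm_real, norm_norm, inv_mul_cancel₀ hxn]
  · rw [map_smul, Module.End.HasEigenvector.apply_eq_smul hx, inner_smul_left, inner_smul_right,
      inner_smul_right, inner_self_eq_norm_sq_to_K, map_inv₀, Complex.conj_ofReal]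
    have h2 : ((‖x‖ : ℝ) : ℂ) ≠ 0 := by exact_mod_cast hxn
    have h3 : (RCLike.ofReal ‖x‖ : ℂ) = ((‖x‖ : ℝ) : ℂ) := rfl
    rw [h3]
    field_simp

theorem aeval_conj {S A : Matrix (Fin n) (Fin n) ℂ} (hS : IsUnit S.det) (Q : ℂ[X]) :
    aeval (S * A * S⁻¹) Q = S * aeval A Q * S⁻¹ := by
  have h1 : S⁻¹ * S = 1 := Matrix.nonsing_inv_mul _ hS
  have h2 : S * S⁻¹ = 1 := Matrix.mul_nonsing_inv _ hS
  induction Q using Polynomial.induction_on' with
  | add P Q hP hQ => rw [map_add, map_add, hP, hQ, mul_add, add_mul]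
  | monomial k c =>
    have h3 : (S * A * S⁻¹) ^ k = S * A ^ k * S⁻¹ := by
      induction k with
      | zero => rw [pow_zero, pow_zero, mul_one, h2]
      | succ k ih =>
        rw [pow_succ, ih, pow_succ]
        calc S * A ^ k * S⁻¹ * (S * A * S⁻¹) = S * A ^ k * (S⁻¹ * S) * A * S⁻¹ := by
              simp only [mul_assoc]
          _ = S * (A ^ k * A) * S⁻¹ := by rw [h1, mul_one]; simp only [mul_assoc]
    rw [aeval_monomial, aeval_monomial, h3, Algebra.algebraMap_eq_smul_one, smul_mul_assoc, one_mul,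
      smul_mul_assoc, one_mul, Matrix.mul_smul, Matrix.smul_mul]

theorem spectrum_conj {S A : Matrix (Fin n) (Fin n) ℂ} (hS : IsUnit S.det) :
    spectrum ℂ (S * A * S⁻¹) = spectrum ℂ A := by
  have hU : IsUnit S := (Matrix.isUnit_iff_isUnit_det S).mpr hS
  obtain ⟨u, hu⟩ := hU
  have h1 : S⁻¹ = ((u⁻¹ : (Matrix (Fin n) (Fin n) ℂ)ˣ) : Matrix (Fin n) (Fin n) ℂ) := by
    rw [← hu]; exact (Matrix.coe_units_inv u).symm
  rw [h1, ← hu]
  exact spectrum.units_conjugate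

/-- the set-up of an invertible Hermitian square root -/
structure Metr (T H S : Matrix (Fin n) (Fin n) ℂ) (κ : ℝ) : Prop where
  h1 : (H - 1).PosSemidef
  h2 : ((κ : ℂ) • (1 : Matrix (Fin n) (Fin n) ℂ) - H).PosSemidef
  h3 : (H - Tᴴ * H * T).PosSemidef
  hS : S.PosSemidef
  hSS : S * S = H

variable {T H S : Matrix (Fin n) (Fin n) ℂ} {κ : ℝ}

theorem Metr.isUnit_det (M : Metr T H S κ) : IsUnit S.det := by
  have h1 : H.PosDef := by
    have : H = (H - 1) + 1 := by abel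
    rw [this]
    exact Matrix.PosDef.posSemidef_add M.h1 Matrix.PosDef.one
  have h2 : IsUnit H.det := (Matrix.isUnit_iff_isUnit_det H).mp h1.isUnit
  rw [← M.hSS, Matrix.det_mul] at h2
  exact isUnit_of_mul_isUnit_left h2

theorem Metr.herm (M : Metr T H S κ) : Sᴴ = S := M.hS.isHermitian

theorem Metr.inv_herm (M : Metr T H S κ) : (S⁻¹)ᴴ = S⁻¹ := by
  rw [Matrix.conjTranspose_nonsing_inv, M.herm]

theorem Metr.contraction (M : Metr T H S κ) :
    (1 - (S * T * S⁻¹)ᴴ * (S * T * S⁻¹)).PosSemidef := by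
  have hu := M.isUnit_det
  have h1 : S⁻¹ * S = 1 := Matrix.nonsing_inv_mul _ hu
  have h2 : S * S⁻¹ = 1 := Matrix.mul_nonsing_inv _ hu
  have h3 : 1 - (S * T * S⁻¹)ᴴ * (S * T * S⁻¹) = (S⁻¹)ᴴ * (H - Tᴴ * H * T) * S⁻¹ := by
    have e1 : S⁻¹ * (S * S) * S⁻¹ = 1 := by
      calc S⁻¹ * (S * S) * S⁻¹ = (S⁻¹ * S) * (S * S⁻¹) := by simp only [Matrix.mul_assoc]
        _ = 1 := by rw [h1, h2, Matrix.mul_one]
    have e2 : (S * T * S⁻¹)ᴴ * (S * T * S⁻¹) = S⁻¹ * (Tᴴ * (S * S) * T) * S⁻¹ := by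
      rw [Matrix.conjTranspose_mul, Matrix.conjTranspose_mul, M.inv_herm, M.herm]
      simp only [Matrix.mul_assoc]
    rw [e2, M.inv_herm, ← M.hSS, Matrix.mul_sub, Matrix.sub_mul, e1]
  rw [h3]
  exact M.h3.conjTranspose_mul_mul_same S⁻¹

theorem fro_le_of_psd {N₁ N₂ : Matrix (Fin n) (Fin n) ℂ} (h : (N₂ - N₁).PosSemidef)
    (η : Matrix (Fin n) (Fin m) ℂ) :
    ((ηᴴ * N₁ * η).trace).re ≤ ((ηᴴ * N₂ * η).trace).re := by
  have h1 : (ηᴴ * (N₂ - N₁) * η).PosSemidef := h.conjTranspose_mul_mul_same η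
  have h2 := h1.trace_nonneg
  rw [Matrix.mul_sub, Matrix.sub_mul, Matrix.trace_sub] at h2
  have h3 := (Complex.le_def.mp h2).1
  simp only [Complex.zero_re, Complex.sub_re] at h3
  linarith

theorem fro_mul (S : Matrix (Fin n) (Fin n) ℂ) (η : Matrix (Fin n) (Fin m) ℂ) :
    fro (S * η) = ((ηᴴ * (Sᴴ * S) * η).trace).re := by
  have h := trace_conj_mul_self (S * η)
  rw [Matrix.conjTranspose_mul] at h
  have h2 : ηᴴ * (Sᴴ * S) * η = ηᴴ * Sᴴ * (S * η) := by simp only [Matrix.mul_assoc]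
  rw [h2, h, Complex.ofReal_re]

theorem Metr.fro_le (M : Metr T H S κ) (ξ : Matrix (Fin n) (Fin m) ℂ) :
    fro (S * ξ) ≤ κ * fro ξ := by
  rw [fro_mul, M.herm, M.hSS]
  refine (fro_le_of_psd M.h2 ξ).trans (le_of_eq ?_)
  have h1 : ξᴴ * ((κ : ℂ) • (1 : Matrix (Fin n) (Fin n) ℂ)) * ξ = (κ : ℂ) • (ξᴴ * ξ) := by
    rw [Matrix.mul_smul, Matrix.mul_one, Matrix.smul_mul]
  rw [h1, Matrix.trace_smul, trace_conj_mul_self, smul_eq_mul, ← Complex.ofReal_mul,
    Complex.ofReal_re]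

theorem Metr.le_fro (M : Metr T H S κ) (ξ : Matrix (Fin n) (Fin m) ℂ) :
    fro ξ ≤ fro (S * ξ) := by
  rw [fro_mul, M.herm, M.hSS]
  refine le_trans (le_of_eq ?_) (fro_le_of_psd M.h1 ξ)
  rw [Matrix.mul_one, trace_conj_mul_self, Complex.ofReal_re]

theorem Metr.fro_inv_le (M : Metr T H S κ) (ξ : Matrix (Fin n) (Fin m) ℂ) :
    fro (S⁻¹ * ξ) ≤ fro ξ := by
  have h := M.le_fro (S⁻¹ * ξ)
  rwa [← Matrix.mul_assoc, Matrix.mul_nonsing_inv _ M.isUnit_det, Matrix.one_mul] at h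

theorem Metr.kappa (M : Metr T H S κ) (hn : 1 ≤ n) : 1 ≤ κ := by
  have h : ((H - 1) + ((κ : ℂ) • (1 : Matrix (Fin n) (Fin n) ℂ) - H)).PosSemidef := M.h1.add M.h2
  have h2 : (H - 1) + ((κ : ℂ) • (1 : Matrix (Fin n) (Fin n) ℂ) - H) =
      ((κ : ℂ) - 1) • (1 : Matrix (Fin n) (Fin n) ℂ) := by
    rw [sub_smul, one_smul]; abel
  rw [h2] at h
  have h3 := h.diag_nonneg (i := ⟨0, hn⟩)
  rw [Matrix.smul_apply, Matrix.one_apply_eq, smul_eq_mul, mul_one] at h3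
  have h4 := (Complex.le_def.mp h3).1
  simp only [Complex.zero_re, Complex.sub_re, Complex.ofReal_re, Complex.one_re] at h4
  linarith

/-- invertibility of `1 - w Cᴴ` from the spectrum -/
theorem inv_of_spectrum {C : Matrix (Fin n) (Fin n) ℂ} (h : ∀ ν ∈ spectrum ℂ C, ‖ν‖ < 1) :
    Inv C := by
  intro w hw hdet
  have h1 : (1 - (starRingEnd ℂ w) • C).det = 0 := by
    have h2 : (1 - (starRingEnd ℂ w) • C) = (1 - w • Cᴴ)ᴴ := by
      rw [Matrix.conjTranspose_sub, Matrix.conjTranspose_one, Matrix.conjTranspose_smul,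
        Matrix.conjTranspose_conjTranspose]
      rfl
    rw [h2, Matrix.det_conjTranspose, hdet, star_zero]
  by_cases hw0 : w = 0
  · rw [hw0, zero_smul, sub_zero, Matrix.det_one] at hdet
    exact one_ne_zero hdet
  have hw1 : starRingEnd ℂ w ≠ 0 := (_root_.map_ne_zero _).mpr hw0
  have h3 : (starRingEnd ℂ w)⁻¹ ∈ spectrum ℂ C := by
    rw [spectrum.mem_iff, Matrix.isUnit_iff_isUnit_det, isUnit_iff_ne_zero, not_not]
    have h4 : algebraMap ℂ (Matrix (Fin n) (Fin n) ℂ) (starRingEnd ℂ w)⁻¹ - C =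
        (starRingEnd ℂ w)⁻¹ • (1 - (starRingEnd ℂ w) • C) := by
      rw [Algebra.algebraMap_eq_smul_one, smul_sub, smul_smul, inv_mul_cancel₀ hw1, one_smul]
    rw [h4, Matrix.det_smul, h1, mul_zero]
  have h5 := h _ h3
  rw [norm_inv, Complex.norm_conj] at h5
  have h6 : 1 ≤ ‖w‖⁻¹ := (one_le_inv₀ (norm_pos_iff.mpr hw0)).mpr hw
  linarith

end Crest.Agent.R132.GS
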