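import Crest.Agent.R132.Avg

/-!
Frobenius norms of blocks of a positive semidefinite matrix, and `L²` Cauchy–Schwarz.
-/

namespace Crest.Agent.R132

open Complex MeasureTheory Metric Set Filter Topology
open scoped Real ComplexConjugate

/-- finite Cauchy–Schwarz for complex sums. -/
theorem norm_sum_mul_sq_le {α : Type*} [Fintype α] (a b : α → ℂ) :
    ‖∑ p, a p * b p‖ ^ 2 ≤ (∑ p, ‖a p‖ ^ 2) * ∑ p, ‖b p‖ ^ 2 := by
  have h1 : ‖∑ p, a p * b p‖ ≤ ∑ p, ‖a p‖ * ‖b p‖ := by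
    refine (norm_sum_le _ _).trans (le_of_eq ?_)
    simp only [norm_mul]
  calc ‖∑ p, a p * b p‖ ^ 2 ≤ (∑ p, ‖a p‖ * ‖b p‖) ^ 2 :=
        pow_le_pow_left₀ (norm_nonneg _) h1 2
    _ ≤ _ := Finset.sum_mul_sq_le_sq_mul_sq _ _ _

/-- squared Frobenius norm. -/
noncomputable def fro {m n : Type*} [Fintype m] [Fintype n] (M : Matrix m n ℂ) : ℝ :=
  ∑ p : m × n, ‖M p.1 p.2‖ ^ 2

open Matrix in
theorem trace_conjTranspose_mul_self_eq {m n : Type*} [Fintype m] [Fintype n] (M : Matrix m n ℂ) :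
    (Mᴴ * M).trace = (fro M : ℂ) := by
  simp only [Matrix.trace, Matrix.diag, Matrix.mul_apply, Matrix.conjTranspose_apply, fro]
  rw [Fintype.sum_prod_type, Finset.sum_comm]
  push_cast
  apply Finset.sum_congr rfl; intro i _
  apply Finset.sum_congr rfl; intro j _
  have := Complex.mul_conj (M i j)
  rw [Complex.normSq_eq_norm_sq] at this
  rw [mul_comm]
  push_cast at this
  exact this

open Matrix in
theorem norm_trace_mul_sq_le {m n : Type*} [Fintype m] [Fintype n] (M : Matrix m n ℂ)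
    (N : Matrix n m ℂ) : ‖(M * N).trace‖ ^ 2 ≤ fro M * fro N := by
  have h1 : (M * N).trace = ∑ p : m × n, M p.1 p.2 * N p.2 p.1 := by
    simp only [Matrix.trace, Matrix.diag, Matrix.mul_apply]
    rw [Fintype.sum_prod_type]
  rw [h1]
  refine (norm_sum_mul_sq_le _ _).trans (le_of_eq ?_)
  unfold fro
  congr 1
  rw [Fintype.sum_prod_type, Fintype.sum_prod_type, Finset.sum_comm]

open Matrix in
open scoped ComplexOrder MatrixOrder in
/-- The block inequality. -/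
theorem gram_block {m : Type*} [Fintype m] [DecidableEq m] {G : Matrix (m ⊕ m) (m ⊕ m) ℂ}
    (hG : G.PosSemidef) :
    (∑ p : m × m, ‖G (Sum.inl p.1) (Sum.inr p.2)‖ ^ 2) ^ 2
      ≤ (∑ p : m × m, ‖G (Sum.inl p.1) (Sum.inl p.2)‖ ^ 2)
        * (∑ p : m × m, ‖G (Sum.inr p.1) (Sum.inr p.2)‖ ^ 2) := by
  obtain ⟨B, hB⟩ : ∃ B : Matrix (m ⊕ m) (m ⊕ m) ℂ, G = Bᴴ * B := by
    refine ⟨CFC.sqrt G, ?_⟩
    have h1 : (CFC.sqrt G)ᴴ = CFC.sqrt G := (CFC.sqrt_nonneg G).posSemidef.isHermitian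
    rw [h1, CFC.sqrt_mul_sqrt_self G hG.nonneg]
  set X : Matrix (m ⊕ m) m ℂ := B.submatrix id Sum.inl with hX
  set Y : Matrix (m ⊕ m) m ℂ := B.submatrix id Sum.inr with hY
  have e1 : ∑ p : m × m, ‖G (Sum.inl p.1) (Sum.inr p.2)‖ ^ 2 = fro (Xᴴ * Y) := by
    unfold fro
    apply Finset.sum_congr rfl; intro p _
    rw [hB]; rfl
  have e2 : ∑ p : m × m, ‖G (Sum.inl p.1) (Sum.inl p.2)‖ ^ 2 = fro (Xᴴ * X) := by
    unfold fro
    apply Finset.sum_congr rfl; intro p _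
    rw [hB]; rfl
  have e3 : ∑ p : m × m, ‖G (Sum.inr p.1) (Sum.inr p.2)‖ ^ 2 = fro (Yᴴ * Y) := by
    unfold fro
    apply Finset.sum_congr rfl; intro p _
    rw [hB]; rfl
  rw [e1, e2, e3]
  have swap : ∀ Z : Matrix (m ⊕ m) m ℂ, fro (Z * Zᴴ) = fro (Zᴴ * Z) := by
    intro Z
    have h1 := trace_conjTranspose_mul_self_eq (Z * Zᴴ)
    have h2 := trace_conjTranspose_mul_self_eq (Zᴴ * Z)
    rw [conjTranspose_mul, conjTranspose_conjTranspose] at h1 h2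
    have h3 : (Z * Zᴴ * (Z * Zᴴ)).trace = (Zᴴ * Z * (Zᴴ * Z)).trace := by
      rw [Matrix.mul_assoc, Matrix.trace_mul_comm]
      simp only [Matrix.mul_assoc]
    rw [h3, h2] at h1
    exact_mod_cast h1.symm
  have h4 : (fro (Xᴴ * Y) : ℂ) = ((X * Xᴴ) * (Y * Yᴴ)).trace := by
    rw [← trace_conjTranspose_mul_self_eq, conjTranspose_mul, conjTranspose_conjTranspose]
    rw [Matrix.mul_assoc, Matrix.trace_mul_comm]
    simp only [Matrix.mul_assoc]
  have h5 := norm_trace_mul_sq_le (X * Xᴴ) (Y * Yᴴ)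
  rw [← h4, swap, swap, Complex.norm_real, Real.norm_eq_abs, sq_abs] at h5
  exact h5

/-- real `L²` Cauchy–Schwarz on the circle. -/
theorem integral_mul_sq_le {α β : ℝ → ℝ} (hα : Continuous α) (hβ : Continuous β) :
    (∫ θ, α θ * β θ ∂nu) ^ 2 ≤ (∫ θ, α θ ^ 2 ∂nu) * ∫ θ, β θ ^ 2 ∂nu := by
  have i1 : Integrable (fun θ => α θ ^ 2) nu := integrable_of_continuous (hα.pow 2)
  have i2 : Integrable (fun θ => β θ ^ 2) nu := integrable_of_continuous (hβ.pow 2)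
  have i3 : Integrable (fun θ => α θ * β θ) nu := integrable_of_continuous (hα.mul hβ)
  have key : ∀ t : ℝ, 0 ≤ (∫ θ, α θ ^ 2 ∂nu) * (t * t) + (-(2 * ∫ θ, α θ * β θ ∂nu)) * t
      + ∫ θ, β θ ^ 2 ∂nu := by
    intro t
    have h1 : 0 ≤ ∫ θ, (t * α θ - β θ) ^ 2 ∂nu := integral_nonneg fun θ => sq_nonneg _
    have h2 : ∀ θ, (t * α θ - β θ) ^ 2 = (t * t) * α θ ^ 2 - (2 * t) * (α θ * β θ) + β θ ^ 2 := by
      intro θ; ring
    have j1 : Integrable (fun θ => (t * t) * α θ ^ 2) nu := i1.const_mul _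
    have j2 : Integrable (fun θ => (2 * t) * (α θ * β θ)) nu := i3.const_mul _
    have j3 : Integrable (fun θ => (t * t) * α θ ^ 2 - (2 * t) * (α θ * β θ)) nu := j1.sub j2
    rw [integral_congr_ae (Eventually.of_forall h2), integral_add j3 i2, integral_sub j1 j2,
      integral_const_mul, integral_const_mul] at h1
    linarith
  have := discrim_le_zero key
  unfold discrim at this
  nlinarith

/-- `L²` Cauchy–Schwarz for finite families of continuous complex functions. -/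
theorem norm_integral_sum_sq_le {α : Type*} [Fintype α] {a b : α → ℝ → ℂ}
    (ha : ∀ p, Continuous (a p)) (hb : ∀ p, Continuous (b p)) :
    ‖∫ θ, ∑ p, a p θ * b p θ ∂nu‖ ^ 2
      ≤ (∫ θ, ∑ p, ‖a p θ‖ ^ 2 ∂nu) * ∫ θ, ∑ p, ‖b p θ‖ ^ 2 ∂nu := by
  have hcA : Continuous fun θ => ∑ p, ‖a p θ‖ ^ 2 :=
    continuous_finsetSum _ fun p _ => (ha p).norm.pow 2
  have hcB : Continuous fun θ => ∑ p, ‖b p θ‖ ^ 2 :=
    continuous_finsetSum _ fun p _ => (hb p).norm.pow 2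
  have hcs : Continuous fun θ => ∑ p, a p θ * b p θ :=
    continuous_finsetSum _ fun p _ => (ha p).mul (hb p)
  have h1 : ‖∫ θ, ∑ p, a p θ * b p θ ∂nu‖
      ≤ ∫ θ, Real.sqrt (∑ p, ‖a p θ‖ ^ 2) * Real.sqrt (∑ p, ‖b p θ‖ ^ 2) ∂nu := by
    refine (norm_integral_le_integral_norm _).trans ?_
    apply integral_mono (integrable_of_continuous hcs.norm)
      (integrable_of_continuous (hcA.sqrt.mul hcB.sqrt))
    intro θ
    show ‖∑ p, a p θ * b p θ‖ ≤ √(∑ p, ‖a p θ‖ ^ 2) * √(∑ p, ‖b p θ‖ ^ 2)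
    rw [← Real.sqrt_mul (Finset.sum_nonneg fun p _ => sq_nonneg _)]
    exact Real.le_sqrt_of_sq_le (norm_sum_mul_sq_le _ _)
  have h2 := integral_mul_sq_le hcA.sqrt hcB.sqrt
  have h3 : ∀ f : ℝ → ℝ, (∀ θ, 0 ≤ f θ) → (fun θ => Real.sqrt (f θ) ^ 2) = f :=
    fun f hf => by ext θ; exact Real.sq_sqrt (hf θ)
  rw [h3 (fun θ => ∑ p, ‖a p θ‖ ^ 2) (fun θ => Finset.sum_nonneg fun p _ => sq_nonneg _),
    h3 (fun θ => ∑ p, ‖b p θ‖ ^ 2) (fun θ => Finset.sum_nonneg fun p _ => sq_nonneg _)] at h2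
  exact (pow_le_pow_left₀ (norm_nonneg _) h1 2).trans h2

end Crest.Agent.R132
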