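import Crest.Agent.R132.Avg

/-!
The double layer kernel of a convex curve parametrised by the exterior conformal map
`G(1/u) = φ(u)/u`.
-/

namespace Crest.Agent.R132

open Complex MeasureTheory Metric Set Filter Topology
open scoped Real ComplexConjugate

/-- `psi φ u = φ u - u φ'(u)`; with `G(t) = t φ(1/t)`, `t G'(t) = psi φ u / u` at `u = 1/t`. -/
noncomputable def psi (φ : ℂ → ℂ) (w : ℂ) : ℂ := φ w - w * deriv φ w

/-- The basic assumptions on the exterior map. -/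
structure Ext0 (φ : ℂ → ℂ) (ρ : ℝ) : Prop where
  one_lt : 1 < ρ
  diff : DifferentiableOn ℂ φ (ball 0 ρ)
  ne0 : φ 0 ≠ 0

/-- The standing assumptions on the exterior map. -/
structure Ext (φ : ℂ → ℂ) (ρ : ℝ) : Prop extends Ext0 φ ρ where
  inj : ∀ u ∈ ball (0 : ℂ) ρ, ∀ v ∈ ball (0 : ℂ) ρ, u ≠ 0 → v ≠ 0 → φ u / u = φ v / v → u = v
  psi_ne : ∀ u ∈ ball (0 : ℂ) ρ, psi φ u ≠ 0
  conv : ∀ u v : ℂ, ‖u‖ = 1 → ‖v‖ = 1 → 0 ≤ (conj (psi φ u) * (φ u - u * (φ v / v))).re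

variable {φ : ℂ → ℂ} {ρ : ℝ}

theorem Ext0.mem_of_norm (h : Ext0 φ ρ) {u : ℂ} (hu : ‖u‖ = 1) : u ∈ ball (0 : ℂ) ρ := by
  simpa [hu] using h.one_lt

theorem Ext0.differentiableAt (h : Ext0 φ ρ) {u : ℂ} (hu : u ∈ ball (0 : ℂ) ρ) :
    DifferentiableAt ℂ φ u := h.diff.differentiableAt (isOpen_ball.mem_nhds hu)

theorem Ext0.diff_psi (h : Ext0 φ ρ) : DifferentiableOn ℂ (psi φ) (ball 0 ρ) := by
  have h1 : DifferentiableOn ℂ (deriv φ) (ball 0 ρ) := h.diff.deriv isOpen_ball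
  exact h.diff.sub (differentiableOn_id.mul h1)

/-- numerator `v φ(u) - u φ(v)` as a function of `u`. -/
noncomputable def num (φ : ℂ → ℂ) (v u : ℂ) : ℂ := v * φ u - u * φ v

theorem num_self (v : ℂ) : num φ v v = 0 := by simp [num]

/-- `DD φ v u = (v φ(u) - u φ(v)) / (v - u)`, extended to `u = v`. -/
noncomputable def DD (φ : ℂ → ℂ) (v u : ℂ) : ℂ := -dslope (num φ v) v u

theorem Ext.diff_num (h : Ext φ ρ) (v : ℂ) : DifferentiableOn ℂ (num φ v) (ball 0 ρ) := by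
  unfold num
  exact (h.diff.const_mul v).sub (differentiableOn_id.mul_const _)

theorem Ext.diff_DD (h : Ext φ ρ) {v : ℂ} (hv : v ∈ ball (0 : ℂ) ρ) :
    DifferentiableOn ℂ (DD φ v) (ball 0 ρ) := by
  unfold DD
  exact ((Complex.differentiableOn_dslope (isOpen_ball.mem_nhds hv)).2 (h.diff_num v)).neg

theorem Ext.DD_self (h : Ext φ ρ) {v : ℂ} (hv : v ∈ ball (0 : ℂ) ρ) : DD φ v v = psi φ v := by
  unfold DD psi
  rw [dslope_same]
  have h1 : HasDerivAt (num φ v) (v * deriv φ v - 1 * φ v) v := by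
    unfold num
    exact ((h.differentiableAt hv).hasDerivAt.const_mul v).sub ((hasDerivAt_id v).mul_const _)
  rw [h1.deriv]; ring

theorem mul_DD (v u : ℂ) : (v - u) * DD φ v u = num φ v u := by
  unfold DD
  have := sub_smul_dslope (num φ v) v u
  rw [num_self, sub_zero, smul_eq_mul] at this
  linear_combination this

theorem Ext.DD_ne (h : Ext φ ρ) {v u : ℂ} (hv : v ∈ ball (0 : ℂ) ρ) (hu : u ∈ ball (0 : ℂ) ρ)
    (hv0 : v ≠ 0) : DD φ v u ≠ 0 := by
  intro h0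
  by_cases huv : u = v
  · subst huv
    rw [h.DD_self hu] at h0
    exact h.psi_ne u hu h0
  · have h1 := mul_DD (φ := φ) v u
    rw [h0, mul_zero] at h1
    by_cases hu0 : u = 0
    · subst hu0
      simp only [num, zero_mul, sub_zero] at h1
      exact h.ne0 ((mul_eq_zero.1 h1.symm).resolve_left hv0)
    · apply huv
      apply h.inj u hu v hv hu0 hv0
      rw [div_eq_div_iff hu0 hv0]
      unfold num at h1
      linear_combination -h1

/-- The kernel `κ(u,v) = t G'(t)/(G(t) - G(s))`, `u = 1/t`, `v = 1/s`. -/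
noncomputable def kap (φ : ℂ → ℂ) (u v : ℂ) : ℂ := v * psi φ u / num φ v u

/-- `μ = 2 Re κ`. -/
noncomputable def mu (φ : ℂ → ℂ) (u v : ℂ) : ℝ := 2 * (kap φ u v).re

theorem Ext.mu_nonneg (h : Ext φ ρ) {u v : ℂ} (hu : ‖u‖ = 1) (hv : ‖v‖ = 1) : 0 ≤ mu φ u v := by
  have hv0 : v ≠ 0 := by rintro rfl; simp at hv
  have h1 : kap φ u v = psi φ u / (φ u - u * (φ v / v)) := by
    unfold kap num
    have : v * φ u - u * φ v = v * (φ u - u * (φ v / v)) := by field_simp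
    rw [this, mul_div_mul_left _ _ hv0]
  unfold mu
  rw [h1, Complex.div_re]
  have h2 := h.conv u v hu hv
  simp only [Complex.mul_re, Complex.conj_re, Complex.conj_im] at h2
  have h3 : 0 ≤ Complex.normSq (φ u - u * (φ v / v)) := Complex.normSq_nonneg _
  have h4 : (psi φ u).re * (φ u - u * (φ v / v)).re / Complex.normSq (φ u - u * (φ v / v)) +
      (psi φ u).im * (φ u - u * (φ v / v)).im / Complex.normSq (φ u - u * (φ v / v))
      = ((psi φ u).re * (φ u - u * (φ v / v)).re + (psi φ u).im * (φ u - u * (φ v / v)).im)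
        / Complex.normSq (φ u - u * (φ v / v)) := by ring
  rw [h4]
  apply mul_nonneg (by norm_num)
  apply div_nonneg _ h3
  linarith

/-- on the unit circle, `v/(v-u)` has real part `1/2`. -/
theorem conj_div_sub {u v : ℂ} (hu : ‖u‖ = 1) (hv : ‖v‖ = 1) (huv : u ≠ v) :
    conj (v / (v - u)) = 1 - v / (v - u) := by
  have hu0 : u ≠ 0 := by rintro rfl; simp at hu
  have hv0 : v ≠ 0 := by rintro rfl; simp at hv
  have hcu : conj u = u⁻¹ := by
    rw [Complex.inv_def, Complex.normSq_eq_norm_sq, hu]; simp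
  have hcv : conj v = v⁻¹ := by
    rw [Complex.inv_def, Complex.normSq_eq_norm_sq, hv]; simp
  have h1 : v - u ≠ 0 := sub_ne_zero.2 huv.symm
  have h2 : u - v ≠ 0 := sub_ne_zero.2 huv
  rw [map_div₀, map_sub, hcu, hcv]
  have h3 : v⁻¹ - u⁻¹ = (u - v) / (u * v) := by field_simp
  rw [h3]
  field_simp
  ring

theorem two_re_div_sub {u v : ℂ} (hu : ‖u‖ = 1) (hv : ‖v‖ = 1) (huv : u ≠ v) :
    2 * (v / (v - u)).re = 1 := by
  have h := congrArg Complex.re (conj_div_sub hu hv huv)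
  rw [Complex.conj_re, Complex.sub_re, Complex.one_re] at h
  linarith

theorem ae_ne (v : ℂ) : ∀ᵐ θ ∂nu, e θ ≠ v := by
  have h1 : (e ⁻¹' {v}).Countable := (countable_singleton v).preimage_circleMap 0 one_ne_zero
  have h2 : nu (e ⁻¹' {v}) = 0 := by
    rw [nu, Measure.smul_apply]
    have : (volume.restrict (Ioc 0 (2 * π))) (e ⁻¹' {v}) = 0 := h1.measure_zero _
    rw [this, smul_zero]
  rw [ae_iff]
  convert h2 using 2
  ext θ; simp

/-! ### the regular part, as a function of `u` for fixed `v` -/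

/-- `H(u) = v ψ(u)/DD(u,v)`. -/
noncomputable def HH (φ : ℂ → ℂ) (v u : ℂ) : ℂ := v * psi φ u / DD φ v u

theorem Ext.diff_HH (h : Ext φ ρ) {v : ℂ} (hv : v ∈ ball (0 : ℂ) ρ) (hv0 : v ≠ 0) :
    DifferentiableOn ℂ (HH φ v) (ball 0 ρ) := by
  unfold HH
  exact (h.diff_psi.const_mul v).div (h.diff_DD hv) (fun u hu => h.DD_ne hv hu hv0)

theorem Ext.HH_self (h : Ext φ ρ) {v : ℂ} (hv : v ∈ ball (0 : ℂ) ρ) : HH φ v v = v := by
  unfold HH
  rw [h.DD_self hv, mul_div_cancel_right₀ _ (h.psi_ne v hv)]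

theorem Ext.HH_zero (h : Ext φ ρ) {v : ℂ} (hv0 : v ≠ 0) : HH φ v 0 = v := by
  have h1 := mul_DD (φ := φ) v 0
  simp only [sub_zero, num, zero_mul] at h1
  have h2 : DD φ v 0 = φ 0 := mul_left_cancel₀ hv0 h1
  unfold HH
  rw [h2]
  simp only [psi, zero_mul, sub_zero]
  rw [mul_div_cancel_right₀ _ h.ne0]

/-- `L(u,v)` for fixed `v`. -/
noncomputable def LL (φ : ℂ → ℂ) (v u : ℂ) : ℂ := -dslope (HH φ v) v u

theorem Ext.diff_LL (h : Ext φ ρ) {v : ℂ} (hv : v ∈ ball (0 : ℂ) ρ) (hv0 : v ≠ 0) :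
    DifferentiableOn ℂ (LL φ v) (ball 0 ρ) := by
  unfold LL
  exact ((Complex.differentiableOn_dslope (isOpen_ball.mem_nhds hv)).2 (h.diff_HH hv hv0)).neg

theorem Ext.LL_zero (h : Ext φ ρ) {v : ℂ} (hv : v ∈ ball (0 : ℂ) ρ) (hv0 : v ≠ 0) :
    LL φ v 0 = 0 := by
  unfold LL
  rw [dslope_of_ne _ (Ne.symm hv0), slope_def_field, h.HH_self hv, h.HH_zero hv0]
  simp

theorem Ext.kap_eq (h : Ext φ ρ) {u v : ℂ} (hv : v ∈ ball (0 : ℂ) ρ) (hu : u ∈ ball (0 : ℂ) ρ)
    (hv0 : v ≠ 0) (huv : u ≠ v) : kap φ u v = LL φ v u + v / (v - u) := by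
  have h1 : v - u ≠ 0 := sub_ne_zero.2 huv.symm
  have h2 := h.DD_ne hv hu hv0
  have h3 : kap φ u v = HH φ v u / (v - u) := by
    unfold kap HH
    rw [← mul_DD, div_div, mul_comm (v - u)]
  have h4 : LL φ v u = (HH φ v u - v) / (v - u) := by
    unfold LL
    rw [dslope_of_ne _ huv, slope_def_field, h.HH_self hv, ← neg_sub v u, div_neg, neg_neg]
  rw [h3, h4]
  field_simp
  ring

theorem Ext.mu_eq (h : Ext φ ρ) {u v : ℂ} (hu : ‖u‖ = 1) (hv : ‖v‖ = 1) (huv : u ≠ v) :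
    mu φ u v = 1 + 2 * (LL φ v u).re := by
  have hv0 : v ≠ 0 := by rintro rfl; simp at hv
  unfold mu
  rw [h.kap_eq (h.mem_of_norm hv) (h.mem_of_norm hu) hv0 huv, Complex.add_re, mul_add,
    two_re_div_sub hu hv huv]
  ring

/-- complex form -/
theorem Ext.mu_eq' (h : Ext φ ρ) {u v : ℂ} (hu : ‖u‖ = 1) (hv : ‖v‖ = 1) (huv : u ≠ v) :
    (mu φ u v : ℂ) = 1 + LL φ v u + conj (LL φ v u) := by
  rw [h.mu_eq hu hv huv]
  push_cast
  have := Complex.add_conj (LL φ v u)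
  push_cast at this
  linear_combination -this

theorem Ext.mu_ae (h : Ext φ ρ) {v : ℂ} (hv : ‖v‖ = 1) :
    (fun θ => mu φ (e θ) v) =ᵐ[nu] fun θ => 1 + 2 * (LL φ v (e θ)).re := by
  filter_upwards [ae_ne v] with θ hθ
  exact h.mu_eq (norm_e θ) hv hθ

theorem Ext.continuous_LL (h : Ext φ ρ) {v : ℂ} (hv : ‖v‖ = 1) :
    Continuous fun θ => LL φ v (e θ) := by
  have hv0 : v ≠ 0 := by rintro rfl; simp at hv
  exact continuous_comp_e h.one_lt (h.diff_LL (h.mem_of_norm hv) hv0)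

theorem Ext.integral_LL (h : Ext φ ρ) {v : ℂ} (hv : ‖v‖ = 1) :
    ∫ θ, LL φ v (e θ) ∂nu = 0 := by
  have hv0 : v ≠ 0 := by rintro rfl; simp at hv
  rw [mean_value h.one_lt (h.diff_LL (h.mem_of_norm hv) hv0), h.LL_zero (h.mem_of_norm hv) hv0]

theorem Ext.integrable_mu (h : Ext φ ρ) {v : ℂ} (hv : ‖v‖ = 1) :
    Integrable (fun θ => mu φ (e θ) v) nu := by
  rw [integrable_congr (h.mu_ae hv)]
  apply integrable_of_continuous
  exact continuous_const.add (continuous_const.mul (Complex.continuous_re.comp (h.continuous_LL hv)))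

/-- first marginal of the kernel. -/
theorem Ext.integral_mu_left (h : Ext φ ρ) {v : ℂ} (hv : ‖v‖ = 1) :
    ∫ θ, mu φ (e θ) v ∂nu = 1 := by
  rw [integral_congr_ae (h.mu_ae hv)]
  have hc := h.continuous_LL hv
  have hc2 : Continuous fun θ => 2 * (LL φ v (e θ)).re :=
    continuous_const.mul (Complex.continuous_re.comp hc)
  rw [integral_add (integrable_const _) (integrable_of_continuous hc2), integral_const_mul]
  have h1 : ∫ θ, (LL φ v (e θ)).re ∂nu = (∫ θ, LL φ v (e θ) ∂nu).re :=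
    integral_re (integrable_of_continuous hc)
  rw [h1, h.integral_LL hv]
  simp

/-! ### the regular part, as a function of `v` for fixed `u` -/

/-- `H̃(v) = v ψ(u)/DD(u,v)`, minus `v`. -/
noncomputable def HT (φ : ℂ → ℂ) (u v : ℂ) : ℂ := v * psi φ u / DD φ u v - v

theorem Ext.diff_HT (h : Ext φ ρ) {u : ℂ} (hu : u ∈ ball (0 : ℂ) ρ) (hu0 : u ≠ 0) :
    DifferentiableOn ℂ (HT φ u) (ball 0 ρ) := by
  unfold HT
  exact ((differentiableOn_id.mul_const _).div (h.diff_DD hu)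
    (fun v hv => h.DD_ne hu hv hu0)).sub differentiableOn_id

theorem Ext.HT_self (h : Ext φ ρ) {u : ℂ} (hu : u ∈ ball (0 : ℂ) ρ) : HT φ u u = 0 := by
  unfold HT
  rw [h.DD_self hu, mul_div_cancel_right₀ _ (h.psi_ne u hu), sub_self]

/-- `L(u,v)` for fixed `u`. -/
noncomputable def LT (φ : ℂ → ℂ) (u v : ℂ) : ℂ := dslope (HT φ u) u v

theorem Ext.diff_LT (h : Ext φ ρ) {u : ℂ} (hu : u ∈ ball (0 : ℂ) ρ) (hu0 : u ≠ 0) :
    DifferentiableOn ℂ (LT φ u) (ball 0 ρ) := by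
  unfold LT
  exact (Complex.differentiableOn_dslope (isOpen_ball.mem_nhds hu)).2 (h.diff_HT hu hu0)

theorem Ext.LT_zero (h : Ext φ ρ) {u : ℂ} (hu : u ∈ ball (0 : ℂ) ρ) (hu0 : u ≠ 0) :
    LT φ u 0 = 0 := by
  unfold LT
  rw [dslope_of_ne _ (Ne.symm hu0), slope_def_field, h.HT_self hu]
  simp [HT]

theorem num_symm (u v : ℂ) : num φ v u = -num φ u v := by unfold num; ring

theorem Ext.kap_eq2 (h : Ext φ ρ) {u v : ℂ} (hu : u ∈ ball (0 : ℂ) ρ) (hv : v ∈ ball (0 : ℂ) ρ)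
    (hu0 : u ≠ 0) (huv : u ≠ v) : kap φ u v = LT φ u v + v / (v - u) := by
  have h1 : v - u ≠ 0 := sub_ne_zero.2 huv.symm
  have h2 := h.DD_ne hu hv hu0
  have h4 : LT φ u v = (v * psi φ u / DD φ u v - v) / (v - u) := by
    unfold LT
    rw [dslope_of_ne _ huv.symm, slope_def_field, h.HT_self hu, sub_zero]; rfl
  have h5 : num φ v u = (v - u) * DD φ u v := by
    rw [num_symm, ← mul_DD (φ := φ) u v]; ring
  unfold kap
  rw [h4, h5]
  field_simp
  ring

/-- second marginal of the kernel. -/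
theorem Ext.integral_mu_right (h : Ext φ ρ) {u : ℂ} (hu : ‖u‖ = 1) :
    Integrable (fun θ => mu φ u (e θ)) nu ∧ ∫ θ, mu φ u (e θ) ∂nu = 1 := by
  have hu0 : u ≠ 0 := by rintro rfl; simp at hu
  have hae : (fun θ => mu φ u (e θ)) =ᵐ[nu] fun θ => 1 + 2 * (LT φ u (e θ)).re := by
    filter_upwards [ae_ne u] with θ hθ
    unfold mu
    rw [h.kap_eq2 (h.mem_of_norm hu) (h.mem_of_norm (norm_e θ)) hu0 hθ.symm, Complex.add_re, mul_add,
      two_re_div_sub hu (norm_e θ) hθ.symm]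
    ring
  have hc : Continuous fun θ => LT φ u (e θ) :=
    continuous_comp_e h.one_lt (h.diff_LT (h.mem_of_norm hu) hu0)
  constructor
  · rw [integrable_congr hae]
    apply integrable_of_continuous
    exact continuous_const.add (continuous_const.mul (Complex.continuous_re.comp hc))
  · rw [integral_congr_ae hae]
    have hc2 : Continuous fun θ => 2 * (LT φ u (e θ)).re :=
      continuous_const.mul (Complex.continuous_re.comp hc)
    rw [integral_add (integrable_const _) (integrable_of_continuous hc2), integral_const_mul]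
    have h1 : ∫ θ, (LT φ u (e θ)).re ∂nu = (∫ θ, LT φ u (e θ) ∂nu).re :=
      integral_re (integrable_of_continuous hc)
    rw [h1, mean_value h.one_lt (h.diff_LT (h.mem_of_norm hu) hu0), h.LT_zero (h.mem_of_norm hu) hu0]
    simp

end Crest.Agent.R132
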