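import Crest.Agent.R132.Test

/-!
The four `L²` inequalities of the proof (steps (1)–(5)).
-/

namespace Crest.Agent.R132

open Complex MeasureTheory Metric Set Filter Topology
open scoped Real ComplexConjugate InnerProductSpace

variable {φ : ℂ → ℂ} {ρ : ℝ}
variable {H : Type*} [NormedAddCommGroup H] [InnerProductSpace ℂ H] [CompleteSpace H]
variable {A : H →L[ℂ] H} {V : Set ℂ}
variable {ι : Type*} [Fintype ι]

set_option linter.unusedSectionVars false

/-- uniform approximation on the circle by Taylor polynomials. -/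
theorem exists_poly_approx (hρ : 1 < ρ) {f : ℂ → ℂ} (hf : DifferentiableOn ℂ f (ball 0 ρ))
    {ε : ℝ} (hε : 0 < ε) : ∃ T : Polynomial ℂ, ∀ u : ℂ, ‖u‖ = 1 → ‖T.eval u - f u‖ ≤ ε := by
  obtain ⟨R, hR1, hR2⟩ := exists_between hρ
  obtain ⟨r, hr1, hr2⟩ := exists_between hR1
  have hR0 : 0 < R := by linarith
  have hr0 : 0 < r := by linarith
  lift R to NNReal using hR0.le
  lift r to NNReal using hr0.le
  have hd : DifferentiableOn ℂ f (closedBall 0 R) := hf.mono (closedBall_subset_ball hR2)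
  have hp := hd.hasFPowerSeriesOnBall (by exact_mod_cast hR0)
  have hu := hp.tendstoUniformlyOn (r' := r) (by exact_mod_cast hr2)
  rw [Metric.tendstoUniformlyOn_iff] at hu
  obtain ⟨n, hn⟩ := (hu ε hε).exists
  refine ⟨∑ k ∈ Finset.range n, Polynomial.C ((cauchyPowerSeries f 0 R).coeff k) * Polynomial.X ^ k,
    fun u hu1 => ?_⟩
  have h1 := hn u (by simpa [hu1] using hr1)
  rw [zero_add, dist_eq_norm, norm_sub_rev] at h1
  have h2 : (cauchyPowerSeries f 0 R).partialSum n u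
      = (∑ k ∈ Finset.range n, Polynomial.C ((cauchyPowerSeries f 0 R).coeff k) *
        Polynomial.X ^ k).eval u := by
    rw [FormalMultilinearSeries.partialSum, Polynomial.eval_finsetSum]
    apply Finset.sum_congr rfl
    intro k _
    rw [FormalMultilinearSeries.apply_eq_pow_smul_coeff, smul_eq_mul, Polynomial.eval_mul,
      Polynomial.eval_C, Polynomial.eval_pow, Polynomial.eval_X, mul_comm]
  rw [← h2]
  exact h1.le

/-- the Hermitian part of the resolvent form. -/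
noncomputable def kk (φ : ℂ → ℂ) (A : H →L[ℂ] H) (x y : H) (w : ℂ) : ℂ :=
  (rr φ A x y w + conj (rr φ A y x w)) / 2

theorem conj_kk (x y : H) (w : ℂ) : conj (kk φ A x y w) = kk φ A y x w := by
  unfold kk
  rw [map_div₀, map_add, Complex.conj_conj, map_ofNat, add_comm]

theorem Ext0.continuous_kk (h : Ext0 φ ρ) (hA : Res φ ρ A) (x y : H) :
    Continuous fun θ => kk φ A x y (e θ) := by
  unfold kk
  exact ((h.continuous_rr hA x y).add
    (Complex.continuous_conj.comp (h.continuous_rr hA y x))).div_const _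

/-- `‖·‖²` of the Gram-type matrix function of two families. -/
noncomputable def KK (φ : ℂ → ℂ) (A : H →L[ℂ] H) (x y : ι → H) : ℝ :=
  ∫ θ, ∑ p : ι × ι, ‖kk φ A (x p.1) (y p.2) (e θ)‖ ^ 2 ∂nu

noncomputable def MM (φ : ℂ → ℂ) (A : H →L[ℂ] H) (x y : ι → H) : ℝ :=
  ∫ θ, ∑ p : ι × ι, ‖rr φ A (x p.1) (y p.2) (e θ)‖ ^ 2 ∂nu

theorem KK_nonneg (x y : ι → H) : 0 ≤ KK φ A x y :=
  integral_nonneg fun _ => Finset.sum_nonneg fun _ _ => sq_nonneg _

theorem MM_nonneg (x y : ι → H) : 0 ≤ MM φ A x y :=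
  integral_nonneg fun _ => Finset.sum_nonneg fun _ _ => sq_nonneg _

/-- Step (2). -/
theorem Ext0.MM_le (h : Ext0 φ ρ) (hA : Res φ ρ A) (x y : ι → H) :
    MM φ A x y ≤ 4 * KK φ A x y := by
  have hM := fun p : ι × ι => h.continuous_rr hA (x p.1) (y p.2)
  have hM' := fun p : ι × ι => h.continuous_rr hA (y p.2) (x p.1)
  have h1 : ∀ θ, 4 * ∑ p : ι × ι, ‖kk φ A (x p.1) (y p.2) (e θ)‖ ^ 2
      = ∑ p : ι × ι, ‖rr φ A (x p.1) (y p.2) (e θ)‖ ^ 2
        + ∑ p : ι × ι, ‖rr φ A (y p.2) (x p.1) (e θ)‖ ^ 2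
        + 2 * ∑ p : ι × ι, (rr φ A (x p.1) (y p.2) (e θ) * rr φ A (y p.2) (x p.1) (e θ)).re := by
    intro θ
    rw [Finset.mul_sum, Finset.mul_sum, ← Finset.sum_add_distrib, ← Finset.sum_add_distrib]
    apply Finset.sum_congr rfl
    intro p _
    unfold kk
    rw [norm_div, div_pow]
    simp only [← Complex.normSq_eq_norm_sq, Complex.normSq_apply, Complex.add_re, Complex.add_im,
      Complex.mul_re, Complex.conj_re, Complex.conj_im]
    norm_num
    ring
  have j1 : Integrable (fun θ => ∑ p : ι × ι, ‖rr φ A (x p.1) (y p.2) (e θ)‖ ^ 2) nu :=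
    integrable_of_continuous (continuous_finsetSum _ fun p _ => (hM p).norm.pow 2)
  have j2 : Integrable (fun θ => ∑ p : ι × ι, ‖rr φ A (y p.2) (x p.1) (e θ)‖ ^ 2) nu :=
    integrable_of_continuous (continuous_finsetSum _ fun p _ => (hM' p).norm.pow 2)
  have hre : ∀ p : ι × ι, Continuous fun θ =>
      (rr φ A (x p.1) (y p.2) (e θ) * rr φ A (y p.2) (x p.1) (e θ)).re :=
    fun p => Complex.continuous_re.comp ((hM p).mul (hM' p))
  have j3 : Integrable (fun θ => 2 * ∑ p : ι × ι,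
      (rr φ A (x p.1) (y p.2) (e θ) * rr φ A (y p.2) (x p.1) (e θ)).re) nu :=
    integrable_of_continuous (continuous_const.mul (continuous_finsetSum _ fun p _ => hre p))
  have j12 : Integrable (fun θ => ∑ p : ι × ι, ‖rr φ A (x p.1) (y p.2) (e θ)‖ ^ 2
        + ∑ p : ι × ι, ‖rr φ A (y p.2) (x p.1) (e θ)‖ ^ 2) nu := j1.add j2
  unfold KK MM
  rw [← integral_const_mul, integral_congr_ae (Eventually.of_forall h1), integral_add j12 j3,
    integral_add j1 j2, integral_const_mul, integral_sum_cont (fun (p : ι × ι) θ =>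
      (rr φ A (x p.1) (y p.2) (e θ) * rr φ A (y p.2) (x p.1) (e θ)).re) hre]
  have h2 : ∀ p : ι × ι,
      0 ≤ ∫ θ, (rr φ A (x p.1) (y p.2) (e θ) * rr φ A (y p.2) (x p.1) (e θ)).re ∂nu := by
    intro p
    have hi : Integrable (fun θ => rr φ A (x p.1) (y p.2) (e θ) * rr φ A (y p.2) (x p.1) (e θ)) nu :=
      integrable_of_continuous ((hM p).mul (hM' p))
    have h3 := integral_re hi
    rw [mean_value h.one_lt (h := fun u => rr φ A (x p.1) (y p.2) u * rr φ A (y p.2) (x p.1) u)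
      ((h.diff_rr hA _ _).mul (h.diff_rr hA _ _)), h.rr_zero hA, h.rr_zero hA] at h3
    have h4 : (⟪x p.1, y p.2⟫_ℂ * ⟪y p.2, x p.1⟫_ℂ).re = ‖⟪x p.1, y p.2⟫_ℂ‖ ^ 2 := by
      rw [← inner_conj_symm (y p.2) (x p.1), Complex.mul_conj, Complex.ofReal_re,
        Complex.normSq_eq_norm_sq]
    have h5 : ∫ θ, (rr φ A (x p.1) (y p.2) (e θ) * rr φ A (y p.2) (x p.1) (e θ)).re ∂nu
        = ‖⟪x p.1, y p.2⟫_ℂ‖ ^ 2 := by
      rw [← h4]; exact h3
    rw [h5]; positivity
  have h6 : 0 ≤ ∫ θ, ∑ p : ι × ι, ‖rr φ A (y p.2) (x p.1) (e θ)‖ ^ 2 ∂nu :=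
    integral_nonneg fun _ => Finset.sum_nonneg fun _ _ => sq_nonneg _
  have h7 := Finset.sum_nonneg (s := Finset.univ) (fun p (_ : p ∈ Finset.univ) => h2 p)
  linarith

/-- additivity of `rr`. -/
theorem rr_sum_left {α : Type*} [Fintype α] (c : α → ℂ) (v : α → H) (y : H) (w : ℂ) :
    rr φ A (∑ a, c a • v a) y w = ∑ a, conj (c a) * rr φ A (v a) y w := by
  unfold rr
  rw [sum_inner]
  simp only [inner_smul_left]

theorem rr_sum_right {α : Type*} [Fintype α] (c : α → ℂ) (v : α → H) (y : H) (w : ℂ) :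
    rr φ A y (∑ a, c a • v a) w = ∑ a, c a * rr φ A y (v a) w := by
  unfold rr
  rw [map_sum, inner_sum]
  simp only [map_smul, inner_smul_right]

open scoped ComplexOrder in
open Matrix in
/-- The Gram matrix of `kk` is positive semidefinite. -/
theorem kk_posSemidef {α : Type*} [Fintype α] (v : α → H) {w : ℂ}
    (hpos : ∀ x : H, 0 ≤ (rr φ A x x w).re) :
    (Matrix.of fun a b => kk φ A (v a) (v b) w : Matrix α α ℂ).PosSemidef := by
  apply Matrix.PosSemidef.of_dotProduct_mulVec_nonneg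
  · ext a b
    simp only [Matrix.conjTranspose_apply, Matrix.of_apply]
    exact conj_kk _ _ _
  · intro c
    set u : H := ∑ a, c a • v a with hu
    have h1 : star c ⬝ᵥ ((Matrix.of fun a b => kk φ A (v a) (v b) w : Matrix α α ℂ) *ᵥ c)
        = ((rr φ A u u w).re : ℂ) := by
      have h2 : (((rr φ A u u w).re : ℝ) : ℂ) = (rr φ A u u w + conj (rr φ A u u w)) / 2 := by
        rw [Complex.add_conj]; push_cast; ring
      rw [h2]
      have h3 : rr φ A u u w = ∑ a, ∑ b, conj (c a) * (c b * rr φ A (v a) (v b) w) := by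
        rw [hu, rr_sum_left]
        apply Finset.sum_congr rfl
        intro a _
        rw [rr_sum_right, Finset.mul_sum]
      have h4 : conj (rr φ A u u w) = ∑ a, ∑ b, conj (c a) * (c b * conj (rr φ A (v b) (v a) w)) := by
        rw [h3, map_sum]
        simp only [map_sum]
        rw [Finset.sum_comm]
        apply Finset.sum_congr rfl; intro a _
        apply Finset.sum_congr rfl; intro b _
        rw [map_mul, map_mul, Complex.conj_conj]; ring
      rw [h4, h3, ← Finset.sum_add_distrib, Finset.sum_div]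
      simp only [dotProduct, mulVec, Matrix.of_apply, Pi.star_apply, Finset.mul_sum]
      apply Finset.sum_congr rfl; intro a _
      rw [← Finset.sum_add_distrib, Finset.sum_div]
      apply Finset.sum_congr rfl; intro b _
      unfold kk
      simp only [RCLike.star_def]
      ring
    rw [h1]
    exact_mod_cast hpos u

/-- Step (1). -/
theorem Ext0.KK_sq_le (h : Ext0 φ ρ) (hA : Res φ ρ A) [DecidableEq ι]
    (hpos : ∀ w : ℂ, ‖w‖ = 1 → ∀ x : H, 0 ≤ (rr φ A x x w).re) (x y : ι → H) :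
    KK φ A x y ^ 2 ≤ KK φ A x x * KK φ A y y := by
  have hc : ∀ x y : ι → H, Continuous fun θ => ∑ p : ι × ι, ‖kk φ A (x p.1) (y p.2) (e θ)‖ ^ 2 :=
    fun x y => continuous_finsetSum _ fun p _ => (h.continuous_kk hA _ _).norm.pow 2
  have hnn : ∀ (x y : ι → H) θ, 0 ≤ ∑ p : ι × ι, ‖kk φ A (x p.1) (y p.2) (e θ)‖ ^ 2 :=
    fun x y θ => Finset.sum_nonneg fun _ _ => sq_nonneg _
  have hpt : ∀ θ, ∑ p : ι × ι, ‖kk φ A (x p.1) (y p.2) (e θ)‖ ^ 2
      ≤ √(∑ p : ι × ι, ‖kk φ A (x p.1) (x p.2) (e θ)‖ ^ 2)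
        * √(∑ p : ι × ι, ‖kk φ A (y p.1) (y p.2) (e θ)‖ ^ 2) := by
    intro θ
    rw [← Real.sqrt_mul (hnn x x θ)]
    apply Real.le_sqrt_of_sq_le
    have hG := kk_posSemidef (φ := φ) (A := A) (Sum.elim x y) (hpos (e θ) (norm_e θ))
    have := gram_block hG
    simpa using this
  have h1 : KK φ A x y ≤ ∫ θ, √(∑ p : ι × ι, ‖kk φ A (x p.1) (x p.2) (e θ)‖ ^ 2)
        * √(∑ p : ι × ι, ‖kk φ A (y p.1) (y p.2) (e θ)‖ ^ 2) ∂nu :=
    integral_mono (integrable_of_continuous (hc x y))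
      (integrable_of_continuous ((hc x x).sqrt.mul (hc y y).sqrt)) hpt
  have h2 := integral_mul_sq_le (hc x x).sqrt (hc y y).sqrt
  have h3 : ∀ f : ℝ → ℝ, (∀ θ, 0 ≤ f θ) → (fun θ => √(f θ) ^ 2) = f :=
    fun f hf => by ext θ; exact Real.sq_sqrt (hf θ)
  rw [h3 _ (hnn x x), h3 _ (hnn y y)] at h2
  exact (pow_le_pow_left₀ (KK_nonneg x y) h1 2).trans h2

/-- Density argument: steps (3)–(5) for `k_y` from the inequality for test polynomials. -/
theorem Ext.key (h : Ext φ ρ) (hA : Res φ ρ A) (y : ι → H) (κ M : ℝ) (hκ : 0 ≤ κ) (hM : 0 ≤ M)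
    (hyp : ∀ X : ι → ι → Polynomial ℂ,
      ‖(κ : ℂ) * ∫ θ, ∑ p : ι × ι, (X p.1 p.2).eval (φ (e θ) / e θ) *
        rr φ A (y p.1) (y p.2) (e θ) ∂nu‖ ^ 2
      ≤ (∫ θ, ∑ p : ι × ι, ‖(X p.1 p.2).eval (φ (e θ) / e θ)‖ ^ 2 ∂nu) * M) :
    κ ^ 2 * KK φ A y y ≤ M := by
  have hrc := fun p : ι × ι => h.continuous_rr hA (y p.1) (y p.2)
  have hkc := fun p : ι × ι => h.continuous_kk hA (y p.1) (y p.2)
  -- the inequality for trigonometric polynomials
  have step1 : ∀ T : ι → ι → Polynomial ℂ,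
      ‖(κ : ℂ) * ∫ θ, ∑ p : ι × ι, pp T p.1 p.2 (e θ) * rr φ A (y p.1) (y p.2) (e θ) ∂nu‖ ^ 2
      ≤ (∫ θ, ∑ p : ι × ι, ‖pp T p.1 p.2 (e θ)‖ ^ 2 ∂nu) * M := by
    intro T
    obtain ⟨X, E, hEd, hE0, hXE, hn⟩ := h.test_norm T
    have hEc : ∀ i j, Continuous fun θ => E i j (e θ) :=
      fun i j => continuous_comp_e h.one_lt (hEd i j)
    have h1 := hyp X
    have h2 : ∫ θ, ∑ p : ι × ι, (X p.1 p.2).eval (φ (e θ) / e θ) *
        rr φ A (y p.1) (y p.2) (e θ) ∂nu
        = ∫ θ, ∑ p : ι × ι, pp T p.1 p.2 (e θ) * rr φ A (y p.1) (y p.2) (e θ) ∂nu := by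
      have h3 : ∀ θ, ∑ p : ι × ι, (X p.1 p.2).eval (φ (e θ) / e θ) *
          rr φ A (y p.1) (y p.2) (e θ)
          = ∑ p : ι × ι, pp T p.1 p.2 (e θ) * rr φ A (y p.1) (y p.2) (e θ)
            + ∑ p : ι × ι, E p.1 p.2 (e θ) * rr φ A (y p.1) (y p.2) (e θ) := by
        intro θ
        rw [← Finset.sum_add_distrib]
        apply Finset.sum_congr rfl; intro p _
        rw [hXE _ _ _ (norm_e θ), add_mul]
      have j1 : Integrable (fun θ => ∑ p : ι × ι, pp T p.1 p.2 (e θ) *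
          rr φ A (y p.1) (y p.2) (e θ)) nu :=
        integrable_of_continuous (continuous_finsetSum _ fun p _ => (continuous_pp T _ _).mul (hrc p))
      have j2 : Integrable (fun θ => ∑ p : ι × ι, E p.1 p.2 (e θ) *
          rr φ A (y p.1) (y p.2) (e θ)) nu :=
        integrable_of_continuous (continuous_finsetSum _ fun p _ => (hEc _ _).mul (hrc p))
      rw [integral_congr_ae (Eventually.of_forall h3), integral_add j1 j2]
      have h4 : ∫ θ, ∑ p : ι × ι, E p.1 p.2 (e θ) * rr φ A (y p.1) (y p.2) (e θ) ∂nu = 0 := by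
        rw [integral_sum_cont (fun (p : ι × ι) θ => E p.1 p.2 (e θ) *
          rr φ A (y p.1) (y p.2) (e θ)) (fun p => (hEc _ _).mul (hrc p))]
        apply Finset.sum_eq_zero
        intro p _
        rw [mean_value h.one_lt (h := fun u => E p.1 p.2 u * rr φ A (y p.1) (y p.2) u)
          ((hEd _ _).mul (h.diff_rr hA _ _)), hE0, zero_mul]
      rw [h4, add_zero]
    rw [h2] at h1
    exact h1.trans (mul_le_mul_of_nonneg_right hn hM)
  -- approximate
  have happ : ∀ n : ℕ, ∀ i j, ∃ T : Polynomial ℂ, ∀ u : ℂ, ‖u‖ = 1 →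
      ‖T.eval u - rr φ A (y i) (y j) u‖ ≤ 1 / ((n : ℝ) + 1) :=
    fun n i j => exists_poly_approx h.one_lt (h.diff_rr hA (y i) (y j)) (by positivity)
  choose T hT using happ
  have hpp : ∀ n i j θ, ‖pp (T n) i j (e θ) - kk φ A (y j) (y i) (e θ)‖ ≤ 1 / ((n : ℝ) + 1) := by
    intro n i j θ
    have h1 := hT n j i (e θ) (norm_e θ)
    have h2 := hT n i j (e θ) (norm_e θ)
    have h3 : pp (T n) i j (e θ) - kk φ A (y j) (y i) (e θ)
        = (((T n j i).eval (e θ) - rr φ A (y j) (y i) (e θ))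
          + conj ((T n i j).eval (e θ) - rr φ A (y i) (y j) (e θ))) / 2 := by
      unfold pp kk; rw [map_sub]; ring
    rw [h3, norm_div]
    have h4 := norm_add_le ((T n j i).eval (e θ) - rr φ A (y j) (y i) (e θ))
      (conj ((T n i j).eval (e θ) - rr φ A (y i) (y j) (e θ)))
    rw [RCLike.norm_conj] at h4
    rw [Complex.norm_ofNat]
    linarith
  have hlim : ∀ i j θ, Tendsto (fun n => pp (T n) i j (e θ)) atTop (𝓝 (kk φ A (y j) (y i) (e θ))) := by
    intro i j θ
    rw [tendsto_iff_norm_sub_tendsto_zero]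
    exact squeeze_zero (fun _ => norm_nonneg _) (fun n => hpp n i j θ)
      tendsto_one_div_add_atTop_nhds_zero_nat
  have hbd : ∀ n i j θ, ‖pp (T n) i j (e θ)‖ ≤ ‖kk φ A (y j) (y i) (e θ)‖ + 1 := by
    intro n i j θ
    have h1 := hpp n i j θ
    have h2 : 1 / ((n : ℝ) + 1) ≤ 1 := by
      rw [div_le_one (by positivity)]
      have : (0 : ℝ) ≤ n := Nat.cast_nonneg n
      linarith
    have h3 : ‖pp (T n) i j (e θ)‖
        ≤ ‖pp (T n) i j (e θ) - kk φ A (y j) (y i) (e θ)‖ + ‖kk φ A (y j) (y i) (e θ)‖ := by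
      have := norm_add_le (pp (T n) i j (e θ) - kk φ A (y j) (y i) (e θ)) (kk φ A (y j) (y i) (e θ))
      rwa [sub_add_cancel] at this
    linarith
  have hkc' := fun p : ι × ι => h.continuous_kk hA (y p.2) (y p.1)
  have lim1 : Tendsto (fun n => ∫ θ, ∑ p : ι × ι, pp (T n) p.1 p.2 (e θ) *
        rr φ A (y p.1) (y p.2) (e θ) ∂nu) atTop
      (𝓝 (∫ θ, ∑ p : ι × ι, kk φ A (y p.2) (y p.1) (e θ) * rr φ A (y p.1) (y p.2) (e θ) ∂nu)) := by
    apply tendsto_integral_of_dominated_convergence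
      (fun θ => ∑ p : ι × ι, (‖kk φ A (y p.2) (y p.1) (e θ)‖ + 1) * ‖rr φ A (y p.1) (y p.2) (e θ)‖)
    · intro n
      exact (continuous_finsetSum _ fun p _ =>
        (continuous_pp (T n) _ _).mul (hrc p)).aestronglyMeasurable
    · exact integrable_of_continuous (continuous_finsetSum _ fun p _ =>
        ((hkc' p).norm.add continuous_const).mul (hrc p).norm)
    · intro n
      refine Eventually.of_forall fun θ => (norm_sum_le _ _).trans ?_
      apply Finset.sum_le_sum; intro p _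
      rw [norm_mul]
      exact mul_le_mul_of_nonneg_right (hbd _ _ _ _) (norm_nonneg _)
    · refine Eventually.of_forall fun θ => ?_
      exact tendsto_finsetSum _ fun p _ => (hlim _ _ _).mul_const _
  have lim2 : Tendsto (fun n => ∫ θ, ∑ p : ι × ι, ‖pp (T n) p.1 p.2 (e θ)‖ ^ 2 ∂nu) atTop
      (𝓝 (∫ θ, ∑ p : ι × ι, ‖kk φ A (y p.2) (y p.1) (e θ)‖ ^ 2 ∂nu)) := by
    apply tendsto_integral_of_dominated_convergence
      (fun θ => ∑ p : ι × ι, (‖kk φ A (y p.2) (y p.1) (e θ)‖ + 1) ^ 2)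
    · intro n
      exact (continuous_finsetSum _ fun p _ =>
        (continuous_pp (T n) _ _).norm.pow 2).aestronglyMeasurable
    · exact integrable_of_continuous (continuous_finsetSum _ fun p _ =>
        ((hkc' p).norm.add continuous_const).pow 2)
    · intro n
      refine Eventually.of_forall fun θ => ?_
      rw [Real.norm_eq_abs, abs_of_nonneg (Finset.sum_nonneg fun _ _ => sq_nonneg _)]
      apply Finset.sum_le_sum; intro p _
      exact pow_le_pow_left₀ (norm_nonneg _) (hbd _ _ _ _) 2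
    · refine Eventually.of_forall fun θ => ?_
      exact tendsto_finsetSum _ fun p _ => ((hlim _ _ _).norm.pow 2)
  have step2 : ‖(κ : ℂ) * ∫ θ, ∑ p : ι × ι, kk φ A (y p.2) (y p.1) (e θ) *
        rr φ A (y p.1) (y p.2) (e θ) ∂nu‖ ^ 2
      ≤ (∫ θ, ∑ p : ι × ι, ‖kk φ A (y p.2) (y p.1) (e θ)‖ ^ 2 ∂nu) * M :=
    le_of_tendsto_of_tendsto' ((lim1.const_mul _).norm.pow 2) (lim2.mul_const _)
      (fun n => step1 (T n))
  -- identify the limits
  have e1 : ∫ θ, ∑ p : ι × ι, ‖kk φ A (y p.2) (y p.1) (e θ)‖ ^ 2 ∂nu = KK φ A y y := by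
    unfold KK
    congr 1; ext θ
    exact Equiv.sum_comp (Equiv.prodComm ι ι) fun p : ι × ι => ‖kk φ A (y p.1) (y p.2) (e θ)‖ ^ 2
  have hpc : Continuous fun θ => ∑ p : ι × ι, kk φ A (y p.2) (y p.1) (e θ) *
        rr φ A (y p.1) (y p.2) (e θ) := continuous_finsetSum _ fun p _ => (hkc' p).mul (hrc p)
  have e2 : (∫ θ, ∑ p : ι × ι, kk φ A (y p.2) (y p.1) (e θ) *
        rr φ A (y p.1) (y p.2) (e θ) ∂nu).re = KK φ A y y := by
    have h1 := integral_re (integrable_of_continuous hpc)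
    have h2 : (∫ θ, ∑ p : ι × ι, kk φ A (y p.2) (y p.1) (e θ) *
        rr φ A (y p.1) (y p.2) (e θ) ∂nu).re
        = ∫ θ, (∑ p : ι × ι, kk φ A (y p.2) (y p.1) (e θ) *
          rr φ A (y p.1) (y p.2) (e θ)).re ∂nu := h1.symm
    rw [h2]
    unfold KK
    congr 1; ext θ
    set f : ι × ι → ℝ := fun p =>
      (kk φ A (y p.2) (y p.1) (e θ) * rr φ A (y p.1) (y p.2) (e θ)).re with hf
    have h3 : ∑ p : ι × ι, f p.swap = ∑ p : ι × ι, f p :=
      Equiv.sum_comp (Equiv.prodComm ι ι) f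
    have h4 : ∀ p : ι × ι, f p + f p.swap = 2 * ‖kk φ A (y p.1) (y p.2) (e θ)‖ ^ 2 := by
      intro p
      simp only [hf, Prod.fst_swap, Prod.snd_swap]
      have h5 : kk φ A (y p.2) (y p.1) (e θ) = conj (kk φ A (y p.1) (y p.2) (e θ)) :=
        (conj_kk _ _ _).symm
      rw [h5]
      have h6 : 2 * ‖kk φ A (y p.1) (y p.2) (e θ)‖ ^ 2
          = (conj (kk φ A (y p.1) (y p.2) (e θ)) * (2 * kk φ A (y p.1) (y p.2) (e θ))).re := by
        rw [← Complex.normSq_eq_norm_sq, Complex.normSq_apply]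
        simp only [Complex.mul_re, Complex.mul_im, Complex.conj_re, Complex.conj_im]
        norm_num
        ring
      have h7 : 2 * kk φ A (y p.1) (y p.2) (e θ)
          = rr φ A (y p.1) (y p.2) (e θ) + conj (rr φ A (y p.2) (y p.1) (e θ)) := by
        unfold kk; ring
      rw [h6, h7, mul_add, Complex.add_re]
      congr 1
      simp only [Complex.mul_re, Complex.conj_re, Complex.conj_im]
      ring
    rw [Complex.re_sum]
    have h8 : ∑ p : ι × ι, (f p + f p.swap) = 2 * ∑ p : ι × ι, f p := by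
      rw [Finset.sum_add_distrib, h3]; ring
    have h9 : 2 * ∑ p : ι × ι, f p = 2 * ∑ p : ι × ι, ‖kk φ A (y p.1) (y p.2) (e θ)‖ ^ 2 := by
      rw [← h8, Finset.mul_sum]
      exact Finset.sum_congr rfl fun p _ => h4 p
    linarith
  rw [e1] at step2
  have hK := KK_nonneg (φ := φ) (A := A) y y
  have h10 : (κ * KK φ A y y) ^ 2 ≤ KK φ A y y * M := by
    refine le_trans ?_ step2
    apply pow_le_pow_left₀ (mul_nonneg hκ hK)
    rw [norm_mul, Complex.norm_real, Real.norm_eq_abs, abs_of_nonneg hκ]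
    apply mul_le_mul_of_nonneg_left _ hκ
    rw [← e2]
    exact Complex.re_le_norm _
  rcases hK.eq_or_lt with h0 | h0
  · rw [← h0]; simpa using hM
  · have : κ ^ 2 * KK φ A y y * KK φ A y y ≤ M * KK φ A y y := by nlinarith
    exact le_of_mul_le_mul_right this h0

end Crest.Agent.R132
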