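import Crest.Agent.R132.Kernel

/-!
Contraction property of the double layer operator, Cauchy integrals, Faber polynomials.
-/

namespace Crest.Agent.R132

open Complex MeasureTheory Metric Set Filter Topology
open scoped Real ComplexConjugate

variable {φ : ℂ → ℂ} {ρ : ℝ}

theorem Ext0.continuous_phi (h : Ext0 φ ρ) : Continuous fun θ => φ (e θ) :=
  continuous_comp_e h.one_lt h.diff

theorem Ext0.continuous_psi (h : Ext0 φ ρ) : Continuous fun θ => psi φ (e θ) :=
  continuous_comp_e h.one_lt h.diff_psi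

theorem Ext.measurable_mu (h : Ext φ ρ) : Measurable (fun p : ℝ × ℝ => mu φ (e p.1) (e p.2)) := by
  have h1 : Continuous fun p : ℝ × ℝ => e p.2 * psi φ (e p.1) :=
    (continuous_e.comp continuous_snd).mul (h.continuous_psi.comp continuous_fst)
  have h2 : Continuous fun p : ℝ × ℝ => num φ (e p.2) (e p.1) :=
    ((continuous_e.comp continuous_snd).mul (h.continuous_phi.comp continuous_fst)).sub
      ((continuous_e.comp continuous_fst).mul (h.continuous_phi.comp continuous_snd))
  have h3 : Measurable fun p : ℝ × ℝ => kap φ (e p.1) (e p.2) := h1.measurable.div h2.measurable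
  exact (Complex.measurable_re.comp h3).const_mul 2

/-- Pointwise Cauchy–Schwarz for the Markov kernel. -/
theorem Ext.sq_le (h : Ext φ ρ) {f : ℝ → ℂ} (hf : Continuous f) {v : ℂ} (hv : ‖v‖ = 1) :
    Integrable (fun θ => ‖f θ‖ ^ 2 * mu φ (e θ) v) nu ∧
    ‖∫ θ, f θ * (mu φ (e θ) v : ℂ) ∂nu‖ ^ 2 ≤ ∫ θ, ‖f θ‖ ^ 2 * mu φ (e θ) v ∂nu := by
  have hmuC : Integrable (fun θ => (mu φ (e θ) v : ℂ)) nu := (h.integrable_mu hv).ofReal
  -- continuous functions are a.e. bounded: compare with the continuous version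
  have hae := h.mu_ae hv
  have hc := h.continuous_LL hv
  have hcm : Continuous fun θ => 1 + 2 * (LL φ v (e θ)).re :=
    continuous_const.add (continuous_const.mul (Complex.continuous_re.comp hc))
  have hi1 : Integrable (fun θ => ‖f θ‖ ^ 2 * mu φ (e θ) v) nu := by
    have : (fun θ => ‖f θ‖ ^ 2 * mu φ (e θ) v) =ᵐ[nu]
        fun θ => ‖f θ‖ ^ 2 * (1 + 2 * (LL φ v (e θ)).re) := by
      filter_upwards [hae] with θ hθ
      rw [hθ]
    rw [integrable_congr this]
    exact integrable_of_continuous ((hf.norm.pow 2).mul hcm)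
  have hi2 : Integrable (fun θ => f θ * (mu φ (e θ) v : ℂ)) nu := by
    have : (fun θ => f θ * (mu φ (e θ) v : ℂ)) =ᵐ[nu]
        fun θ => f θ * ((1 + 2 * (LL φ v (e θ)).re : ℝ) : ℂ) := by
      filter_upwards [hae] with θ hθ
      rw [hθ]
    rw [integrable_congr this]
    exact integrable_of_continuous (hf.mul (Complex.continuous_ofReal.comp hcm))
  refine ⟨hi1, ?_⟩
  set c := ∫ θ, f θ * (mu φ (e θ) v : ℂ) ∂nu with hcdef
  have key : 0 ≤ ∫ θ, ‖f θ - c‖ ^ 2 * mu φ (e θ) v ∂nu :=
    integral_nonneg (fun θ => mul_nonneg (sq_nonneg _) (h.mu_nonneg (norm_e θ) hv))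
  have hexp : ∀ θ, ‖f θ - c‖ ^ 2 * mu φ (e θ) v
      = ‖f θ‖ ^ 2 * mu φ (e θ) v - 2 * (conj c * (f θ * (mu φ (e θ) v : ℂ))).re
        + ‖c‖ ^ 2 * mu φ (e θ) v := by
    intro θ
    rw [← Complex.normSq_eq_norm_sq, ← Complex.normSq_eq_norm_sq, ← Complex.normSq_eq_norm_sq,
      Complex.normSq_apply, Complex.normSq_apply, Complex.normSq_apply]
    simp only [Complex.sub_re, Complex.sub_im, Complex.mul_re, Complex.mul_im, Complex.conj_re,
      Complex.conj_im, Complex.ofReal_re, Complex.ofReal_im]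
    ring
  have hi3 : Integrable (fun θ => 2 * (conj c * (f θ * (mu φ (e θ) v : ℂ))).re) nu :=
    ((hi2.const_mul (conj c)).re).const_mul 2
  have hi4 : Integrable (fun θ => ‖c‖ ^ 2 * mu φ (e θ) v) nu := (h.integrable_mu hv).const_mul _
  have e1 : ∫ θ, ‖f θ - c‖ ^ 2 * mu φ (e θ) v ∂nu
      = ∫ θ, ‖f θ‖ ^ 2 * mu φ (e θ) v ∂nu - 2 * (conj c * c).re + ‖c‖ ^ 2 := by
    rw [integral_congr_ae (Eventually.of_forall hexp),
      integral_add (show Integrable (fun θ => ‖f θ‖ ^ 2 * mu φ (e θ) v -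
        2 * (conj c * (f θ * (mu φ (e θ) v : ℂ))).re) nu from hi1.sub hi3) hi4,
      integral_sub hi1 hi3, integral_const_mul, integral_const_mul, h.integral_mu_left hv, mul_one]
    congr 2
    have h5 : ∫ θ, (conj c * (f θ * (mu φ (e θ) v : ℂ))).re ∂nu
        = (∫ θ, conj c * (f θ * (mu φ (e θ) v : ℂ)) ∂nu).re :=
      integral_re (hi2.const_mul (conj c))
    rw [h5, integral_const_mul, ← hcdef]
  have e2 : (conj c * c).re = ‖c‖ ^ 2 := by
    rw [mul_comm, Complex.mul_conj, Complex.ofReal_re, Complex.normSq_eq_norm_sq]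
  rw [e1, e2] at key
  linarith

/-- The double layer operator is a contraction of `L²`. -/
theorem Ext.contraction (h : Ext φ ρ) {f q : ℝ → ℂ} (hf : Continuous f) (hq : Continuous q)
    (hfq : ∀ τ, q τ = ∫ θ, f θ * (mu φ (e θ) (e τ) : ℂ) ∂nu) :
    ∫ τ, ‖q τ‖ ^ 2 ∂nu ≤ ∫ θ, ‖f θ‖ ^ 2 ∂nu := by
  have hqi : Integrable (fun τ => ‖q τ‖ ^ 2) nu := integrable_of_continuous (hq.norm.pow 2)
  have hfi : Integrable (fun τ => ‖f τ‖ ^ 2) nu := integrable_of_continuous (hf.norm.pow 2)
  rw [← ENNReal.ofReal_le_ofReal_iff (integral_nonneg fun θ => sq_nonneg _),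
    ofReal_integral_eq_lintegral_ofReal hqi (Eventually.of_forall fun τ => sq_nonneg _),
    ofReal_integral_eq_lintegral_ofReal hfi (Eventually.of_forall fun τ => sq_nonneg _)]
  have hm : Measurable (fun p : ℝ × ℝ => ENNReal.ofReal (‖f p.2‖ ^ 2 * mu φ (e p.2) (e p.1))) := by
    have h1 : Measurable fun p : ℝ × ℝ => ‖f p.2‖ ^ 2 :=
      ((hf.comp continuous_snd).norm.pow 2).measurable
    have h2 : Measurable fun p : ℝ × ℝ => mu φ (e p.2) (e p.1) := by
      have := h.measurable_mu.comp (measurable_swap (α := ℝ) (β := ℝ))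
      simpa only [Function.comp_def, Prod.fst_swap, Prod.snd_swap] using this
    exact (h1.mul h2).ennreal_ofReal
  calc ∫⁻ τ, ENNReal.ofReal (‖q τ‖ ^ 2) ∂nu
      ≤ ∫⁻ τ, ∫⁻ θ, ENNReal.ofReal (‖f θ‖ ^ 2 * mu φ (e θ) (e τ)) ∂nu ∂nu := by
        apply lintegral_mono
        intro τ
        obtain ⟨h1, h2⟩ := h.sq_le hf (norm_e τ)
        dsimp only
        rw [← ofReal_integral_eq_lintegral_ofReal h1 (Eventually.of_forall fun θ =>
          mul_nonneg (sq_nonneg _) (h.mu_nonneg (norm_e θ) (norm_e τ))), hfq τ]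
        exact ENNReal.ofReal_le_ofReal h2
    _ = ∫⁻ θ, ∫⁻ τ, ENNReal.ofReal (‖f θ‖ ^ 2 * mu φ (e θ) (e τ)) ∂nu ∂nu := by
        exact lintegral_lintegral_swap hm.aemeasurable
    _ = ∫⁻ θ, ENNReal.ofReal (‖f θ‖ ^ 2) ∂nu := by
        apply lintegral_congr
        intro θ
        obtain ⟨h1, h2⟩ := h.integral_mu_right (norm_e θ)
        rw [← ofReal_integral_eq_lintegral_ofReal (h1.const_mul _) (Eventually.of_forall fun τ =>
          mul_nonneg (sq_nonneg _) (h.mu_nonneg (norm_e θ) (norm_e τ))), integral_const_mul, h2,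
          mul_one]

/-- Cauchy's theorem for the curve `Γ`. -/
theorem Ext0.integral_comp (h : Ext0 φ ρ) {V : Set ℂ} (hV : IsOpen V) (hVc : Convex ℝ V)
    (hΓ : ∀ u : ℂ, ‖u‖ = 1 → φ u / u ∈ V) {F : ℂ → ℂ} (hF : DifferentiableOn ℂ F V) :
    ∫ θ, F (φ (e θ) / e θ) * (psi φ (e θ) / e θ) ∂nu = 0 := by
  obtain ⟨P, hP⟩ := hVc.exists_forall_hasDerivWithinAt hF
  have hd : ∀ θ, HasDerivAt (fun u => P (φ u / u))
      ((fun u => - (F (φ u / u) * (psi φ u / u ^ 2))) (e θ)) (e θ) := by
    intro θ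
    have h1 : HasDerivAt P (F (φ (e θ) / e θ)) (φ (e θ) / e θ) :=
      (hP _ (hΓ _ (norm_e θ))).hasDerivAt (hV.mem_nhds (hΓ _ (norm_e θ)))
    have h2 : HasDerivAt (fun u => φ u / u)
        ((deriv φ (e θ) * e θ - φ (e θ) * 1) / (e θ) ^ 2) (e θ) :=
      ((h.differentiableAt (h.mem_of_norm (norm_e θ))).hasDerivAt).div (hasDerivAt_id _) (e_ne_zero θ)
    have h3 : HasDerivAt (fun u => P (φ u / u)) _ (e θ) := HasDerivAt.comp (e θ) (h₂ := P) h1 h2
    refine h3.congr_deriv ?_
    simp only [psi]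
    ring
  have hcF : Continuous fun θ => F (φ (e θ) / e θ) :=
    hF.continuousOn.comp_continuous (h.continuous_phi.div continuous_e e_ne_zero)
      (fun θ => hΓ _ (norm_e θ))
  have hc : Continuous fun θ => (fun u => - (F (φ u / u) * (psi φ u / u ^ 2))) (e θ) := by
    exact (hcF.mul (h.continuous_psi.div (continuous_e.pow 2)
      (fun θ => pow_ne_zero 2 (e_ne_zero θ)))).neg
  have := avg_deriv (f := fun u => P (φ u / u))
    (f' := fun u => - (F (φ u / u) * (psi φ u / u ^ 2))) hd hc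
  have h4 : ∀ θ, F (φ (e θ) / e θ) * (psi φ (e θ) / e θ)
      = - (e θ * (fun u => - (F (φ u / u) * (psi φ u / u ^ 2))) (e θ)) := by
    intro θ
    have := e_ne_zero θ
    field_simp
  rw [integral_congr_ae (Eventually.of_forall h4), integral_neg, this, neg_zero]

theorem Ext0.integral_poly (h : Ext0 φ ρ) (P : Polynomial ℂ) :
    ∫ θ, P.eval (φ (e θ) / e θ) * (psi φ (e θ) / e θ) ∂nu = 0 :=
  h.integral_comp isOpen_univ convex_univ (fun _ _ => mem_univ _) P.differentiable.differentiableOn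

/-- The regularised Cauchy integral of a polynomial at a boundary point vanishes. -/
theorem Ext.integral_kap (h : Ext φ ρ) {v : ℂ} (hv : ‖v‖ = 1) (S : Polynomial ℂ) :
    ∫ θ, (S.eval (φ (e θ) / e θ) - S.eval (φ v / v)) * kap φ (e θ) v ∂nu = 0 := by
  have hv0 : v ≠ 0 := by rintro rfl; simp at hv
  obtain ⟨S', hS'⟩ : ∃ S' : Polynomial ℂ,
      S - Polynomial.C (S.eval (φ v / v)) = (Polynomial.X - Polynomial.C (φ v / v)) * S' := by
    have := Polynomial.dvd_iff_isRoot.2
      (show (S - Polynomial.C (S.eval (φ v / v))).IsRoot (φ v / v) by simp)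
    exact this
  have hS'' : ∀ w, S.eval w - S.eval (φ v / v) = (w - φ v / v) * S'.eval w := by
    intro w
    have := congrArg (Polynomial.eval w) hS'
    simpa using this
  rw [← h.integral_poly S']
  apply integral_congr_ae
  filter_upwards [ae_ne v] with θ hθ
  have hu := e_ne_zero θ
  have h1 : φ (e θ) / e θ - φ v / v ≠ 0 := by
    intro h0
    exact hθ (h.inj _ (h.mem_of_norm (norm_e θ)) v (h.mem_of_norm hv) hu hv0 (sub_eq_zero.1 h0))
  have h2 : num φ v (e θ) = v * e θ * (φ (e θ) / e θ - φ v / v) := by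
    unfold num; field_simp
  rw [hS'', kap, h2]
  generalize φ (e θ) / e θ - φ v / v = X at h1
  field_simp

/-- The relation between the Cauchy integral and the double layer operator (`N1`). -/
theorem Ext.conj_mu (h : Ext φ ρ) {T E : ℂ → ℂ} (hT : DifferentiableOn ℂ T (ball 0 ρ))
    (hE : DifferentiableOn ℂ E (ball 0 ρ)) (hE0 : E 0 = 0) {S : Polynomial ℂ}
    (hS : ∀ u : ℂ, ‖u‖ = 1 → S.eval (φ u / u) = conj (T u) + E u) {v : ℂ} (hv : ‖v‖ = 1) :
    ∫ θ, conj (T (e θ)) * (mu φ (e θ) v : ℂ) ∂nu = conj (T 0) + E v := by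
  have hv0 : v ≠ 0 := by rintro rfl; simp at hv
  have hvb := h.mem_of_norm hv
  have hLc := h.continuous_LL hv
  have hTc : Continuous fun θ => T (e θ) := continuous_comp_e h.one_lt hT
  have hEc : Continuous fun θ => E (e θ) := continuous_comp_e h.one_lt hE
  have hcTc : Continuous fun θ => conj (T (e θ)) := Complex.continuous_conj.comp hTc
  have hLL := h.diff_LL hvb hv0
  have hdT : DifferentiableOn ℂ (fun u => u * dslope T v u) (ball 0 ρ) :=
    differentiableOn_id.mul ((Complex.differentiableOn_dslope (isOpen_ball.mem_nhds hvb)).2 hT)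
  have hdE : DifferentiableOn ℂ (dslope E v) (ball 0 ρ) :=
    (Complex.differentiableOn_dslope (isOpen_ball.mem_nhds hvb)).2 hE
  have hdTc : Continuous fun θ => e θ * dslope T v (e θ) := continuous_comp_e h.one_lt hdT
  have hdEc : Continuous fun θ => dslope E v (e θ) := continuous_comp_e h.one_lt hdE
  -- the regularised Cauchy integral
  have h1 := h.integral_kap hv S
  have h2 : (fun θ => (S.eval (φ (e θ) / e θ) - S.eval (φ v / v)) * kap φ (e θ) v) =ᵐ[nu]
      fun θ => conj (T (e θ)) * LL φ v (e θ) + E (e θ) * LL φ v (e θ)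
        - S.eval (φ v / v) * LL φ v (e θ) + conj (e θ * dslope T v (e θ))
        - v * dslope E v (e θ) := by
    filter_upwards [ae_ne v] with θ hθ
    have hvu : v - e θ ≠ 0 := sub_ne_zero.2 hθ.symm
    have huv : e θ - v ≠ 0 := sub_ne_zero.2 hθ
    rw [h.kap_eq hvb (h.mem_of_norm (norm_e θ)) hv0 hθ]
    have a1 := hS (e θ) (norm_e θ)
    have a2 := hS v hv
    have a3 : conj (T (e θ) - T v) * (v / (v - e θ)) = conj (e θ * dslope T v (e θ)) := by
      have b1 : v / (v - e θ) = conj (e θ / (e θ - v)) := by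
        have := conj_div_sub (norm_e θ) hv hθ
        have b2 : e θ / (e θ - v) = 1 - v / (v - e θ) := by
          field_simp
          ring
        rw [b2, map_sub, map_one, this]; ring
      rw [b1, ← map_mul, dslope_of_ne _ hθ, slope_def_field]
      congr 1
      field_simp
    have a4 : (E (e θ) - E v) * (v / (v - e θ)) = - (v * dslope E v (e θ)) := by
      rw [dslope_of_ne _ hθ, slope_def_field]
      rw [← neg_sub (e θ) v]
      field_simp
    have a5 : (S.eval (φ (e θ) / e θ) - S.eval (φ v / v)) * (v / (v - e θ))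
        = conj (e θ * dslope T v (e θ)) - v * dslope E v (e θ) := by
      rw [a1, a2]
      have : conj (T (e θ)) + E (e θ) - (conj (T v) + E v)
          = conj (T (e θ) - T v) + (E (e θ) - E v) := by rw [map_sub]; ring
      rw [this, add_mul, a3, a4]; ring
    rw [mul_add, a5, a1]; ring
  rw [integral_congr_ae h2] at h1
  have i1 : Integrable (fun θ => conj (T (e θ)) * LL φ v (e θ)) nu :=
    integrable_of_continuous (hcTc.mul hLc)
  have i2 : Integrable (fun θ => E (e θ) * LL φ v (e θ)) nu :=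
    integrable_of_continuous (hEc.mul hLc)
  have i3 : Integrable (fun θ => S.eval (φ v / v) * LL φ v (e θ)) nu :=
    integrable_of_continuous (continuous_const.mul hLc)
  have i4 : Integrable (fun θ => conj (e θ * dslope T v (e θ))) nu :=
    integrable_of_continuous (Complex.continuous_conj.comp hdTc)
  have i5 : Integrable (fun θ => v * dslope E v (e θ)) nu :=
    integrable_of_continuous (continuous_const.mul hdEc)
  have j1 : Integrable (fun θ => conj (T (e θ)) * LL φ v (e θ) + E (e θ) * LL φ v (e θ)) nu :=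
    i1.add i2
  have j2 : Integrable (fun θ => conj (T (e θ)) * LL φ v (e θ) + E (e θ) * LL φ v (e θ)
        - S.eval (φ v / v) * LL φ v (e θ)) nu := j1.sub i3
  have j3 : Integrable (fun θ => conj (T (e θ)) * LL φ v (e θ) + E (e θ) * LL φ v (e θ)
        - S.eval (φ v / v) * LL φ v (e θ) + conj (e θ * dslope T v (e θ))) nu := j2.add i4
  rw [integral_sub j3 i5, integral_add j2 i4,
    integral_sub j1 i3, integral_add i1 i2, integral_const_mul, integral_const_mul,
    h.integral_LL hv, mean_value h.one_lt (h := fun u => E u * LL φ v u) (hE.mul hLL), hE0,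
    mean_value h.one_lt hdE, mean_value_conj h.one_lt hdT] at h1
  rw [dslope_of_ne E (Ne.symm hv0), slope_def_field, hE0] at h1
  have h3 : ∫ θ, conj (T (e θ)) * LL φ v (e θ) ∂nu = E v := by
    have : v * ((0 - E v) / (0 - v)) = E v := by field_simp; ring
    rw [this] at h1
    simp only [zero_mul, mul_zero, map_zero, add_zero, sub_zero] at h1
    linear_combination h1
  -- now the kernel
  have h4 : (fun θ => conj (T (e θ)) * (mu φ (e θ) v : ℂ)) =ᵐ[nu]
      fun θ => conj (T (e θ)) + conj (T (e θ)) * LL φ v (e θ) + conj (T (e θ) * LL φ v (e θ)) := by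
    filter_upwards [ae_ne v] with θ hθ
    rw [h.mu_eq' (norm_e θ) hv hθ, map_mul]; ring
  have i6 : Integrable (fun θ => conj (T (e θ))) nu := integrable_of_continuous hcTc
  have i7 : Integrable (fun θ => conj (T (e θ) * LL φ v (e θ))) nu :=
    integrable_of_continuous (Complex.continuous_conj.comp (hTc.mul hLc))
  rw [integral_congr_ae h4, integral_add (show Integrable (fun θ => conj (T (e θ)) +
    conj (T (e θ)) * LL φ v (e θ)) nu from i6.add i1) i7, integral_add i6 i1, h3,
    mean_value_conj h.one_lt hT,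
    mean_value_conj h.one_lt (h := fun u => T u * LL φ v u) (hT.mul hLL), h.LL_zero hvb hv0]
  simp

/-- Faber polynomials. -/
theorem Ext.faber_mono (h : Ext φ ρ) (n : ℕ) : ∃ (S : Polynomial ℂ) (E : ℂ → ℂ),
    DifferentiableOn ℂ E (ball 0 ρ) ∧ E 0 = 0 ∧
      ∀ u ∈ ball (0 : ℂ) ρ, u ≠ 0 → S.eval (φ u / u) = (u ^ n)⁻¹ + E u := by
  -- more generally: for every analytic `f`, `f(u)/u^n` can be written as `S(g(u)) + E(u)`
  suffices H : ∀ n : ℕ, ∀ f : ℂ → ℂ, DifferentiableOn ℂ f (ball 0 ρ) →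
      ∃ (S : Polynomial ℂ) (E : ℂ → ℂ), DifferentiableOn ℂ E (ball 0 ρ) ∧ E 0 = 0 ∧
        ∀ u ∈ ball (0 : ℂ) ρ, u ≠ 0 → S.eval (φ u / u) = f u / u ^ n + E u by
    obtain ⟨S, E, h1, h2, h3⟩ := H n (fun _ => 1) (differentiableOn_const _)
    refine ⟨S, E, h1, h2, fun u hu hu0 => ?_⟩
    rw [h3 u hu hu0, one_div]
  intro n
  have h0b : (0 : ℂ) ∈ ball (0 : ℂ) ρ := by simpa using lt_trans one_pos h.one_lt
  induction n with
  | zero =>
    intro f hf
    refine ⟨Polynomial.C (f 0), fun u => f 0 - f u, (differentiableOn_const _).sub hf, sub_self _,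
      fun u _ _ => ?_⟩
    simp
  | succ n ih =>
    intro f hf
    -- subtract c * g^(n+1) with c = f 0 / φ 0 ^ (n+1)
    set c := f 0 / φ 0 ^ (n + 1) with hc
    set k : ℂ → ℂ := fun u => f u - c * φ u ^ (n + 1) with hk
    have hkd : DifferentiableOn ℂ k (ball 0 ρ) := hf.sub ((h.diff.pow _).const_mul _)
    have hk0 : k 0 = 0 := by
      simp only [hk, hc]
      rw [div_mul_cancel₀ _ (pow_ne_zero _ h.ne0), sub_self]
    have hds : DifferentiableOn ℂ (dslope k 0) (ball 0 ρ) :=
      (Complex.differentiableOn_dslope (isOpen_ball.mem_nhds h0b)).2 hkd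
    obtain ⟨S, E, h1, h2, h3⟩ := ih (dslope k 0) hds
    refine ⟨S + Polynomial.C c * Polynomial.X ^ (n + 1), E, h1, h2, fun u hu hu0 => ?_⟩
    rw [Polynomial.eval_add, h3 u hu hu0, dslope_of_ne _ hu0, slope_def_field, hk0]
    simp only [hk, Polynomial.eval_mul, Polynomial.eval_C, Polynomial.eval_pow, Polynomial.eval_X,
      div_pow]
    field_simp
    ring

theorem Ext.faber (h : Ext φ ρ) (T : Polynomial ℂ) : ∃ (S : Polynomial ℂ) (E : ℂ → ℂ),
    DifferentiableOn ℂ E (ball 0 ρ) ∧ E 0 = 0 ∧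
      ∀ u : ℂ, ‖u‖ = 1 → S.eval (φ u / u) = conj (T.eval u) + E u := by
  induction T using Polynomial.induction_on' with
  | add p q hp hq =>
    obtain ⟨S1, E1, h1, h2, h3⟩ := hp
    obtain ⟨S2, E2, h4, h5, h6⟩ := hq
    refine ⟨S1 + S2, fun u => E1 u + E2 u, h1.add h4, by simp [h2, h5], fun u hu => ?_⟩
    rw [Polynomial.eval_add, h3 u hu, h6 u hu, Polynomial.eval_add, map_add]; ring
  | monomial n a =>
    obtain ⟨S, E, h1, h2, h3⟩ := h.faber_mono n
    refine ⟨Polynomial.C (conj a) * S, fun u => conj a * E u, h1.const_mul _, by simp [h2],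
      fun u hu => ?_⟩
    have hu0 : u ≠ 0 := by rintro rfl; simp at hu
    have hcu : conj u = u⁻¹ := by
      rw [Complex.inv_def, Complex.normSq_eq_norm_sq, hu]; simp
    rw [Polynomial.eval_mul, Polynomial.eval_C, h3 u (h.mem_of_norm hu) hu0,
      Polynomial.eval_monomial, map_mul, map_pow, hcu, inv_pow]
    ring

end Crest.Agent.R132
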