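import Crest.Agent.R132.Resolvent
import Crest.Agent.R132.Gram

/-!
The norm inequality `‖X_p‖ ≤ ‖p‖` for Hermitian matrix valued trigonometric polynomials `p`.
-/

namespace Crest.Agent.R132

open Complex MeasureTheory Metric Set Filter Topology
open scoped Real ComplexConjugate

variable {φ : ℂ → ℂ} {ρ : ℝ}

/-- The Hermitian trigonometric polynomial attached to a matrix of polynomials. -/
noncomputable def pp {ι : Type*} (T : ι → ι → Polynomial ℂ) (i j : ι) (u : ℂ) : ℂ :=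
  ((T j i).eval u + conj ((T i j).eval u)) / 2

theorem conj_pp {ι : Type*} (T : ι → ι → Polynomial ℂ) (i j : ι) (u : ℂ) :
    conj (pp T i j u) = pp T j i u := by
  unfold pp
  rw [map_div₀, map_add, Complex.conj_conj, map_ofNat, add_comm]

theorem continuous_poly (T : Polynomial ℂ) : Continuous fun θ => T.eval (e θ) :=
  T.continuous.comp continuous_e

theorem continuous_pp {ι : Type*} (T : ι → ι → Polynomial ℂ) (i j : ι) :
    Continuous fun θ => pp T i j (e θ) := by
  unfold pp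
  exact ((continuous_poly _).add (Complex.continuous_conj.comp (continuous_poly _))).div_const _

theorem integral_sum_cont {α F : Type*} [Fintype α] [NormedAddCommGroup F] [NormedSpace ℝ F]
    (f : α → ℝ → F) (hf : ∀ p, Continuous (f p)) :
    ∫ θ, ∑ p, f p θ ∂nu = ∑ p, ∫ θ, f p θ ∂nu :=
  integral_finsetSum _ (fun p _ => integrable_of_continuous (hf p))

/-- pointwise algebraic identity behind `avg |X|² = (avg |p|² + avg |Np|²)/2`. -/
theorem pointwise_identity {ι : Type*} [Fintype ι] (a b : ι → ι → ℂ)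
    (ha : ∀ i j, conj (a i j) = a j i) :
    ∑ p : ι × ι, ‖a p.1 p.2 + b p.1 p.2‖ ^ 2
      = (∑ p : ι × ι, ‖a p.1 p.2‖ ^ 2) / 2
        + (∑ p : ι × ι, ‖a p.1 p.2 + b p.1 p.2 + conj (b p.2 p.1)‖ ^ 2) / 2
        - ∑ p : ι × ι, (b p.1 p.2 * b p.2 p.1).re := by
  set f : ι × ι → ℝ := fun p => ‖b p.1 p.2‖ ^ 2 + 2 * (conj (a p.1 p.2) * b p.1 p.2).re with hf
  have h1 : ∀ p : ι × ι, ‖a p.1 p.2 + b p.1 p.2‖ ^ 2
      = ‖a p.1 p.2‖ ^ 2 / 2 + ‖a p.1 p.2 + b p.1 p.2 + conj (b p.2 p.1)‖ ^ 2 / 2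
        - (b p.1 p.2 * b p.2 p.1).re + (f p - f p.swap) / 2 := by
    intro p
    simp only [hf, Prod.fst_swap, Prod.snd_swap]
    rw [← ha p.1 p.2, Complex.conj_conj]
    simp only [← Complex.normSq_eq_norm_sq, Complex.normSq_apply, Complex.add_re, Complex.add_im,
      Complex.mul_re, Complex.conj_re, Complex.conj_im]
    ring
  have h2 : ∑ p : ι × ι, f p.swap = ∑ p : ι × ι, f p :=
    Equiv.sum_comp (Equiv.prodComm ι ι) f
  rw [Finset.sum_congr rfl fun p _ => h1 p, Finset.sum_add_distrib, Finset.sum_sub_distrib,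
    Finset.sum_add_distrib, ← Finset.sum_div, ← Finset.sum_div, ← Finset.sum_div,
    Finset.sum_sub_distrib, h2]
  ring

/-- Existence of the test polynomials with the `L²` bound. -/
theorem Ext.test_norm (h : Ext φ ρ) {ι : Type*} [Fintype ι] (T : ι → ι → Polynomial ℂ) :
    ∃ (X : ι → ι → Polynomial ℂ) (E : ι → ι → ℂ → ℂ),
      (∀ i j, DifferentiableOn ℂ (E i j) (ball 0 ρ)) ∧ (∀ i j, E i j 0 = 0) ∧
      (∀ i j u, ‖u‖ = 1 → (X i j).eval (φ u / u) = pp T i j u + E i j u) ∧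
      ∫ θ, ∑ p : ι × ι, ‖(X p.1 p.2).eval (φ (e θ) / e θ)‖ ^ 2 ∂nu
        ≤ ∫ θ, ∑ p : ι × ι, ‖pp T p.1 p.2 (e θ)‖ ^ 2 ∂nu := by
  classical
  choose S E0 hE0d hE00 hS using fun i j => h.faber (T i j)
  have h0b : (0 : ℂ) ∈ ball (0 : ℂ) ρ := by simpa using lt_trans one_pos h.one_lt
  have hTd : ∀ i j, DifferentiableOn ℂ (fun u => (T i j).eval u) (ball 0 ρ) :=
    fun i j => (T i j).differentiable.differentiableOn
  set X : ι → ι → Polynomial ℂ := fun i j =>
    Polynomial.C (1 / 2 : ℂ) * (Polynomial.C ((T j i).eval 0) + S i j) with hX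
  set E : ι → ι → ℂ → ℂ := fun i j u => ((T j i).eval 0 - (T j i).eval u + E0 i j u) / 2 with hE
  have hEd : ∀ i j, DifferentiableOn ℂ (E i j) (ball 0 ρ) := fun i j =>
    (((differentiableOn_const _).sub (hTd j i)).add (hE0d i j)).div_const _
  have hE_0 : ∀ i j, E i j 0 = 0 := fun i j => by simp [hE, hE00]
  have hXE : ∀ i j u, ‖u‖ = 1 → (X i j).eval (φ u / u) = pp T i j u + E i j u := by
    intro i j u hu
    simp only [hX, hE, pp, Polynomial.eval_mul, Polynomial.eval_C, Polynomial.eval_add,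
      hS i j u hu]
    ring
  refine ⟨X, E, hEd, hE_0, hXE, ?_⟩
  have hEc : ∀ i j, Continuous fun θ => E i j (e θ) := fun i j => continuous_comp_e h.one_lt (hEd i j)
  have hpc := continuous_pp T
  -- the double layer potential of `pp`
  set q : ι → ι → ℝ → ℂ := fun i j τ =>
    pp T i j (e τ) + E i j (e τ) + conj (E j i (e τ)) with hq
  have hqc : ∀ i j, Continuous (q i j) := fun i j =>
    ((hpc i j).add (hEc i j)).add (Complex.continuous_conj.comp (hEc j i))
  have hqN : ∀ i j τ, q i j τ = ∫ θ, pp T i j (e θ) * (mu φ (e θ) (e τ) : ℂ) ∂nu := by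
    intro i j τ
    have hmuC : Integrable (fun θ => (mu φ (e θ) (e τ) : ℂ)) nu := (h.integrable_mu (norm_e τ)).ofReal
    have a1 := h.conj_mu (T := fun u => (T i j).eval u) (hTd i j) (hE0d i j) (hE00 i j)
      (hS i j) (norm_e τ)
    have a2 := h.conj_mu (T := fun u => (T j i).eval u) (hTd j i) (hE0d j i) (hE00 j i)
      (hS j i) (norm_e τ)
    have a3 : ∫ θ, (T j i).eval (e θ) * (mu φ (e θ) (e τ) : ℂ) ∂nu
        = (T j i).eval 0 + conj (E0 j i (e τ)) := by
      have := congrArg conj a2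
      rw [← integral_conj, map_add, Complex.conj_conj] at this
      rw [← this]
      congr 1; ext θ
      rw [map_mul, Complex.conj_conj, Complex.conj_ofReal]
    have hcm : Continuous fun θ => (1 : ℝ) + 2 * (LL φ (e τ) (e θ)).re :=
      continuous_const.add (continuous_const.mul (Complex.continuous_re.comp
        (h.continuous_LL (norm_e τ))))
    have hint : ∀ f : ℝ → ℂ, Continuous f →
        Integrable (fun θ => f θ * (mu φ (e θ) (e τ) : ℂ)) nu := by
      intro f hf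
      have : (fun θ => f θ * (mu φ (e θ) (e τ) : ℂ)) =ᵐ[nu]
          fun θ => f θ * ((1 + 2 * (LL φ (e τ) (e θ)).re : ℝ) : ℂ) := by
        filter_upwards [h.mu_ae (norm_e τ)] with θ hθ
        rw [hθ]
      rw [integrable_congr this]
      exact integrable_of_continuous (hf.mul (Complex.continuous_ofReal.comp hcm))
    have i1 := hint (fun θ => (T j i).eval (e θ)) (continuous_poly _)
    have i2 := hint (fun θ => conj ((T i j).eval (e θ)))
      (Complex.continuous_conj.comp (continuous_poly _))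
    have a4 : ∀ θ, pp T i j (e θ) * (mu φ (e θ) (e τ) : ℂ)
        = (1 / 2 : ℂ) * ((T j i).eval (e θ) * (mu φ (e θ) (e τ) : ℂ)
          + conj ((T i j).eval (e θ)) * (mu φ (e θ) (e τ) : ℂ)) := by
      intro θ; unfold pp; ring
    rw [integral_congr_ae (Eventually.of_forall a4), integral_const_mul, integral_add i1 i2, a3, a1]
    simp only [hq, hE, pp, map_div₀, map_add, map_sub, map_ofNat]
    ring
  have hcontr : ∀ i j, ∫ τ, ‖q i j τ‖ ^ 2 ∂nu ≤ ∫ θ, ‖pp T i j (e θ)‖ ^ 2 ∂nu :=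
    fun i j => h.contraction (hpc i j) (hqc i j) (hqN i j)
  -- pointwise identity
  have hpt : ∀ θ, ∑ p : ι × ι, ‖(X p.1 p.2).eval (φ (e θ) / e θ)‖ ^ 2
      = (∑ p : ι × ι, ‖pp T p.1 p.2 (e θ)‖ ^ 2) / 2
        + (∑ p : ι × ι, ‖q p.1 p.2 θ‖ ^ 2) / 2
        - ∑ p : ι × ι, (E p.1 p.2 (e θ) * E p.2 p.1 (e θ)).re := by
    intro θ
    rw [← pointwise_identity (fun i j => pp T i j (e θ)) (fun i j => E i j (e θ))
      (fun i j => conj_pp T i j _)]
    apply Finset.sum_congr rfl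
    intro p _
    rw [hXE _ _ _ (norm_e θ)]
  have j1 : Integrable (fun θ => ∑ p : ι × ι, ‖pp T p.1 p.2 (e θ)‖ ^ 2) nu :=
    integrable_of_continuous (continuous_finsetSum _ fun p _ => (hpc _ _).norm.pow 2)
  have j2 : Integrable (fun θ => ∑ p : ι × ι, ‖q p.1 p.2 θ‖ ^ 2) nu :=
    integrable_of_continuous (continuous_finsetSum _ fun p _ => (hqc _ _).norm.pow 2)
  have j3 : Integrable (fun θ => ∑ p : ι × ι, (E p.1 p.2 (e θ) * E p.2 p.1 (e θ)).re) nu :=
    integrable_of_continuous (continuous_finsetSum _ fun p _ =>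
      Complex.continuous_re.comp ((hEc _ _).mul (hEc _ _)))
  have j4 : Integrable (fun θ => (∑ p : ι × ι, ‖pp T p.1 p.2 (e θ)‖ ^ 2) / 2
        + (∑ p : ι × ι, ‖q p.1 p.2 θ‖ ^ 2) / 2) nu := (j1.div_const 2).add (j2.div_const 2)
  rw [integral_congr_ae (Eventually.of_forall hpt), integral_sub j4 j3,
    integral_add (j1.div_const 2) (j2.div_const 2), integral_div, integral_div]
  have hz : ∫ θ, ∑ p : ι × ι, (E p.1 p.2 (e θ) * E p.2 p.1 (e θ)).re ∂nu = 0 := by
    rw [integral_sum_cont (fun (p : ι × ι) θ => (E p.1 p.2 (e θ) * E p.2 p.1 (e θ)).re)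
      (fun p => Complex.continuous_re.comp ((hEc _ _).mul (hEc _ _)))]
    apply Finset.sum_eq_zero
    intro p _
    have hi : Integrable (fun θ => E p.1 p.2 (e θ) * E p.2 p.1 (e θ)) nu :=
      integrable_of_continuous ((hEc _ _).mul (hEc _ _))
    have := integral_re hi
    rw [mean_value h.one_lt (h := fun u => E p.1 p.2 u * E p.2 p.1 u)
      ((hEd _ _).mul (hEd _ _)), hE_0] at this
    simpa using this
  have hq2 : ∫ θ, ∑ p : ι × ι, ‖q p.1 p.2 θ‖ ^ 2 ∂nu
      ≤ ∫ θ, ∑ p : ι × ι, ‖pp T p.1 p.2 (e θ)‖ ^ 2 ∂nu := by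
    rw [integral_sum_cont (fun (p : ι × ι) θ => ‖q p.1 p.2 θ‖ ^ 2) (fun p => (hqc _ _).norm.pow 2),
      integral_sum_cont (fun (p : ι × ι) θ => ‖pp T p.1 p.2 (e θ)‖ ^ 2)
        (fun p => (hpc _ _).norm.pow 2)]
    exact Finset.sum_le_sum fun p _ => hcontr _ _
  rw [hz]
  linarith

end Crest.Agent.R132
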